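import Mathlib

/-! Closed spacelike surfaces in Minkowski space with a regular past null hypersurface:
definitions. -/

open MeasureTheory Metric
open scoped ContDiff

noncomputable section
namespace Vale.Agent.P366.Shell

variable {n : ℕ}

/-- Euclidean space. -/
abbrev E (n : ℕ) := EuclideanSpace ℝ (Fin n)

/-- Vectors of the Minkowski space `ℝ^{1,n}`; the component `0` is the time component. -/
abbrev Vec (n : ℕ) := Fin (n + 1) → ℝ

/-- The Minkowski product. -/
def mink (v w : Vec n) : ℝ := (∑ i : Fin n, v i.succ * w i.succ) - v 0 * w 0

/-- `X` is a smooth map from the unit sphere of `ℝ^n` to `ℝ^{1,n}`. It is written as a homogeneous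
function of degree zero off the origin of `ℝ^n`. -/
structure IsMap (X : E n → Vec n) : Prop where
  smooth : ∀ a x, x ≠ 0 → ContDiffAt ℝ ∞ (fun y => X y a) x
  hom : ∀ x, x ≠ 0 → ∀ r : ℝ, 0 < r → X (r • x) = X x

/-- The partial derivative in the direction of the `i`-th coordinate of `ℝ^n`. -/
def dd (i : Fin n) (X : E n → Vec n) (x : E n) : Vec n :=
  fun a => fderiv ℝ (fun y => X y a) x (EuclideanSpace.single i 1)

/-- The future null vector `k = (1, - x)` at the point `x` of the unit sphere. -/
def kv (x : E n) : Vec n := Fin.cons 1 fun i => - x i / ‖x‖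

/-- The matrix of the products `⟨∂_i X, ∂_j Z⟩`. -/
def gram (X Z : E n → Vec n) (x : E n) : Matrix (Fin n) (Fin n) ℝ :=
  Matrix.of fun i j => mink (dd i X x) (dd j Z x)

/-- A closed spacelike surface in Minkowski space, whose past null hypersurface is regular, in the
parametrisation by its null normals: the point `X x` of the surface has the future null normal
`k = (1, - x)`, and the second fundamental form of the surface with respect to the past null normal
`- k = (-1, x)` is positive definite. -/
structure IsSurface (X : E n → Vec n) : Prop extends IsMap X where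
  normal : ∀ x, x ≠ 0 → ∀ i, mink (dd i X x) (kv x) = 0
  regular : ∀ x, x ≠ 0 → ∀ v : Fin n → ℝ, v ≠ 0 → ∑ i, v i * x i = 0 →
    ∑ i, ∑ j, gram X kv x i j * v i * v j < 0

/-- `L` is the other null normal of the surface, normalised by `⟨L, k⟩ = - 2`. -/
structure IsNormal (X L : E n → Vec n) : Prop extends IsMap L where
  null : ∀ x, x ≠ 0 → mink (L x) (L x) = 0
  normal : ∀ x, x ≠ 0 → ∀ i, mink (dd i X x) (L x) = 0
  cross : ∀ x, x ≠ 0 → mink (L x) (kv x) = -2

/-- The matrix, at the unit vector `x`, of the induced metric of the surface on the tangent space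
`x^⊥` of the sphere, extended by `1` on `x`. -/
def met (X : E n → Vec n) (x : E n) : Matrix (Fin n) (Fin n) ℝ :=
  gram X X x + Matrix.of fun i j => x i * x j

/-- The area element of the surface with respect to the area element of the unit sphere. -/
def dens (X : E n → Vec n) (x : E n) : ℝ := √(met X x).det

/-- The null expansion `θ_L`: the trace of `⟨dX, dL⟩` with respect to the induced metric. -/
def theta (X L : E n → Vec n) (x : E n) : ℝ := ∑ i, ∑ j, (met X x)⁻¹ i j * gram X L x i j

/-- The integral over the unit sphere. -/
def sint (f : E n → ℝ) : ℝ := ∫ θ : sphere (0 : E n) 1, f θ ∂(volume : Measure (E n)).toSphere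

/-- The area of the unit sphere of `ℝ^n`. -/
def omega (n : ℕ) : ℝ := sint fun _ : E n => 1

/-- The area of the surface. -/
def area (X : E n → Vec n) : ℝ := sint (dens X)

/-- The components of the energy-momentum vector `(1 / (2 (n - 1) ω)) ∫ θ_L k dA`. -/
def mom (X L : E n → Vec n) (a : Fin (n + 1)) : ℝ :=
  sint (fun x => theta X L x * kv x a * dens X x) / (2 * (n - 1) * omega n)

end Vale.Agent.P366.Shell
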