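import Mathlib
import Vale.Agent.P366.H353.N.Dat
import Vale.Agent.P366.H745.HDef

/-! Surfaces in Minkowski space: the support function and the time function. -/

open MeasureTheory Metric Filter Topology Set
open scoped ContDiff

noncomputable section
namespace Vale.Agent.P366.Shell

open Vale.Agent.P366 (sphI sphM pd Nc pd_Nc sum_Nc_sq)
open Vale.Agent.P366.H353.N

variable {n : ℕ} {X L : E n → Vec n} {x : E n}

lemma IsMap.sm (h : IsMap X) (a : Fin (n + 1)) : Sm fun x => X x a := fun x hx => h.smooth a x hx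

lemma IsMap.hm (h : IsMap X) (a : Fin (n + 1)) : Hom 0 fun x => X x a := fun x hx r hr => by
  show X (r • x) a = _
  rw [h.hom x hx r hr]; simp

lemma IsMap.euler (h : IsMap X) (a : Fin (n + 1)) (hx : x ≠ 0) :
    ∑ i, x i * pd i (fun y => X y a) x = 0 := by
  have := (h.hm a).euler (h.sm a) hx
  simpa using this

lemma sm_Nc (i : Fin n) : Sm (Nc i) :=
  (Sm.coord i).div Sm.norm fun _ hy => norm_ne_zero_iff.mpr hy

lemma hom_Nc (i : Fin n) : Hom 0 (Nc i) := by
  intro x hx r hr
  have h1 : ‖x‖ ≠ 0 := norm_ne_zero_iff.mpr hx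
  unfold Nc
  rw [norm_smul, Real.norm_eq_abs, abs_of_pos hr]
  simp only [PiLp.smul_apply, smul_eq_mul, zpow_zero, one_mul]
  field_simp

lemma Nc_one (hx : ‖x‖ = 1) (i : Fin n) : Nc i x = x i := by simp [Nc, hx]

lemma norm_Nc (i : Fin n) (hx : x ≠ 0) : ‖x‖ * Nc i x = x i := by
  have h1 : ‖x‖ ≠ 0 := norm_ne_zero_iff.mpr hx
  unfold Nc; field_simp

lemma pd_Nc' (hx : x ≠ 0) (i j : Fin n) : pd i (Nc j) x = (kd i j - Nc i x * Nc j x) / ‖x‖ :=
  pd_Nc hx i j

lemma sum_xx (hx : ‖x‖ = 1) : ∑ i, x i * x i = 1 := by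
  have h1 : ‖x‖ ^ 2 = ∑ i, x i ^ 2 := by
    rw [EuclideanSpace.norm_sq_eq]; simp only [Real.norm_eq_abs, sq_abs]
  rw [hx] at h1
  rw [show ∑ i, x i * x i = ∑ i, x i ^ 2 from Finset.sum_congr rfl fun i _ => by ring, ← h1]
  norm_num

lemma sum_sq (x : E n) : ∑ i, x i * x i = ‖x‖ ^ 2 := by
  rw [EuclideanSpace.norm_sq_eq]
  exact Finset.sum_congr rfl fun i _ => by rw [Real.norm_eq_abs, sq_abs, sq]

lemma kv_zero (x : E n) : kv x 0 = 1 := rfl

lemma kv_succ (x : E n) (i : Fin n) : kv x i.succ = - Nc i x := by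
  show - x i / ‖x‖ = _
  unfold Nc; ring

lemma mink_kv (v : Vec n) (x : E n) : mink v (kv x) = - (∑ i : Fin n, v i.succ * Nc i x) - v 0 := by
  unfold mink
  simp only [kv_zero, kv_succ, mul_neg, Finset.sum_neg_distrib, mul_one]

/-- the support function -/
def Hf (X : E n → Vec n) (x : E n) : ℝ := (∑ i : Fin n, x i * X x i.succ) + ‖x‖ * X x 0

/-- the negative time function -/
def Uf (X : E n → Vec n) (x : E n) : ℝ := - X x 0

lemma sm_Hf (h : IsMap X) : Sm (Hf X) :=
  (Sm.sum _ fun i => (Sm.coord i).mul (h.sm i.succ)).add (Sm.norm.mul (h.sm 0))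

lemma sm_Uf (h : IsMap X) : Sm (Uf X) := (h.sm 0).neg

lemma hom_Hf (h : IsMap X) : Hom 1 (Hf X) :=
  (Hom.sum _ fun i => ((Hom.coord i).mul (h.hm i.succ)).cast (by norm_num)).add
    ((Hom.norm.mul (h.hm 0)).cast (by norm_num))

lemma hom_Uf (h : IsMap X) : Hom 0 (Uf X) := (h.hm 0).neg

lemma pd_Uf (x : E n) (i : Fin n) : pd i (Uf X) x = - pd i (fun y => X y 0) x := pd_neg' i

lemma dd_eq (i : Fin n) (X : E n → Vec n) (x : E n) (a : Fin (n + 1)) :
    dd i X x a = pd i (fun y => X y a) x := rfl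

lemma kd_mul (i : Fin n) (v : Fin n → ℝ) : ∑ j, kd i j * v j = v i := by simp [kd]

lemma kd_comm (i j : Fin n) : kd i j = kd j i := by unfold kd; simp only [eq_comm]

/-- normality in coordinates -/
lemma nor (h : IsSurface X) (hx : x ≠ 0) (i : Fin n) :
    ∑ m : Fin n, x m * pd i (fun y => X y m.succ) x + ‖x‖ * pd i (fun y => X y 0) x = 0 := by
  have h1 := h.normal x hx i
  rw [mink_kv] at h1
  simp only [dd_eq] at h1
  have h2 : ∑ m : Fin n, x m * pd i (fun y => X y m.succ) x =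
      ‖x‖ * ∑ m : Fin n, pd i (fun y => X y m.succ) x * Nc m x := by
    rw [Finset.mul_sum]
    exact Finset.sum_congr rfl fun m _ => by rw [← norm_Nc m hx]; ring
  rw [h2]
  linear_combination (- ‖x‖) * h1

/-- the gradient of the support function -/
lemma pd_Hf (h : IsSurface X) (hx : x ≠ 0) (i : Fin n) :
    pd i (Hf X) x = X x i.succ - Uf X x * Nc i x := by
  have hm := h.toIsMap
  have e : pd i (Hf X) x = ∑ m : Fin n, (x m * pd i (fun y => X y m.succ) x + kd i m * X x m.succ) +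
      (‖x‖ * pd i (fun y => X y 0) x + x i / ‖x‖ * X x 0) := by
    unfold Hf
    rw [pd_add' (Sm.sum _ fun i => (Sm.coord i).mul (hm.sm i.succ)) (Sm.norm.mul (hm.sm 0)) hx,
      pd_sum' _ (fun m => (Sm.coord m).mul (hm.sm m.succ)) hx, pd_mul' Sm.norm (hm.sm 0) hx,
      pd_norm' hx]
    congr 1
    refine Finset.sum_congr rfl fun m _ => ?_
    rw [pd_mul' (Sm.coord m) (hm.sm m.succ) hx, pd_coord']
  have h1 := nor h hx i
  rw [Finset.sum_add_distrib, kd_mul] at e
  rw [e]
  unfold Uf Nc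
  linear_combination h1

/-- the space coordinates of the surface -/
lemma X_eq (h : IsSurface X) (hx : x ≠ 0) (i : Fin n) :
    X x i.succ = pd i (Hf X) x + Uf X x * Nc i x := by rw [pd_Hf h hx]; ring

/-- the derivatives of the space coordinates at a unit vector -/
lemma pd_X (h : IsSurface X) (hx : ‖x‖ = 1) (i m : Fin n) :
    pd i (fun y => X y m.succ) x = hs (Hf X) i m x + Uf X x * (kd i m - x i * x m) +
      x m * pd i (Uf X) x := by
  have h0 := ne_zero_of_one hx
  have hm := h.toIsMap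
  rw [pd_congr' (fun y hy => X_eq h hy m) h0 i,
    pd_add' ((sm_Hf hm).pd m) ((sm_Uf hm).mul (sm_Nc m)) h0, pd_mul' (sm_Uf hm) (sm_Nc m) h0,
    pd_Nc' h0, Nc_one hx, Nc_one hx, hx]
  unfold hs
  ring

lemma hs_x (h : IsMap X) (hx : x ≠ 0) (i : Fin n) : ∑ j, hs (Hf X) i j x * x j = 0 := by
  have h1 := ((hom_Hf h).pd (sm_Hf h) i).euler ((sm_Hf h).pd i) hx
  rw [show ((1 - 1 : ℤ) : ℝ) * pd i (Hf X) x = 0 by norm_num] at h1
  rw [← h1]
  refine Finset.sum_congr rfl fun j _ => ?_
  rw [hs_symm (sm_Hf h) hx i j]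
  unfold hs
  ring

/-- positivity -/
lemma pos (h : IsSurface X) (hx : ‖x‖ = 1) (v : Fin n → ℝ) (hv : ∑ i, x i * v i = 0) (h0 : v ≠ 0) :
    0 < qf (fun i j => hs (Hf X) i j x) v v + Uf X x * ∑ i, v i ^ 2 := by
  have hx0 := ne_zero_of_one hx
  have hv' : ∑ i, v i * x i = 0 := by
    rw [← hv]; exact Finset.sum_congr rfl fun i _ => mul_comm _ _
  have h1 := h.regular x hx0 v h0 hv'
  have h2 : ∀ j (m : Fin n), pd j (fun y => kv y m.succ) x = - (kd j m - x j * x m) := by
    intro j m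
    rw [show (fun y : E n => kv y m.succ) = fun y => - Nc m y from funext fun y => kv_succ y m,
      pd_neg' j, pd_Nc' hx0, Nc_one hx, Nc_one hx, hx]
    ring
  have h3 : ∀ j, pd j (fun y : E n => kv y 0) x = 0 := by
    intro j
    rw [show (fun y : E n => kv y 0) = fun _ => (1 : ℝ) from funext fun y => kv_zero y,
      Vale.Agent.P366.pd_const]
  have h4 : ∀ i, ∑ j, gram X kv x i j * v i * v j =
      - (v i * ∑ m : Fin n, pd i (fun y => X y m.succ) x * v m) := by
    intro i
    have e1 : ∀ j, gram X kv x i j * v i * v j =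
        - ∑ m : Fin n, v i * (pd i (fun y => X y m.succ) x * ((kd m j - x m * x j) * v j)) := by
      intro j
      show mink (dd i X x) (dd j kv x) * v i * v j = _
      unfold mink
      simp only [dd_eq, h2, h3, mul_zero, sub_zero]
      rw [Finset.sum_mul, Finset.sum_mul, ← Finset.sum_neg_distrib]
      exact Finset.sum_congr rfl fun m _ => by rw [kd_comm j m]; ring
    simp only [e1]
    rw [Finset.sum_neg_distrib, Finset.sum_comm, Finset.mul_sum]
    congr 1
    refine Finset.sum_congr rfl fun m _ => ?_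
    rw [← Finset.mul_sum, ← Finset.mul_sum]
    congr 2
    have := kd_mul m v
    simp only [sub_mul, Finset.sum_sub_distrib, this, mul_assoc, ← Finset.mul_sum, hv]
    ring
  simp only [h4] at h1
  rw [Finset.sum_neg_distrib] at h1
  have h5 : ∑ i, v i * ∑ m : Fin n, pd i (fun y => X y m.succ) x * v m =
      qf (fun i j => hs (Hf X) i j x) v v + Uf X x * ∑ i, v i ^ 2 := by
    have e2 : ∀ i, v i * ∑ m : Fin n, pd i (fun y => X y m.succ) x * v m =
        (∑ m, hs (Hf X) i m x * v i * v m) + Uf X x * v i ^ 2 := by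
      intro i
      have e3 : ∑ m : Fin n, pd i (fun y => X y m.succ) x * v m =
          (∑ m, hs (Hf X) i m x * v m) + Uf X x * (∑ m, kd i m * v m) +
            (pd i (Uf X) x - Uf X x * x i) * ∑ m, x m * v m := by
        rw [Finset.mul_sum, Finset.mul_sum, ← Finset.sum_add_distrib, ← Finset.sum_add_distrib]
        exact Finset.sum_congr rfl fun m _ => by rw [pd_X h hx]; ring
      rw [e3, kd_mul, hv, mul_zero, add_zero, mul_add, Finset.mul_sum]
      congr 1
      · exact Finset.sum_congr rfl fun m _ => by ring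
      · ring
    simp only [e2, Finset.sum_add_distrib, ← Finset.mul_sum]
    rfl
  rw [h5] at h1
  linarith

/-- The data of the surface. -/
def dat (h : IsSurface X) : Dat n where
  H := Hf X
  U := Uf X
  smH := sm_Hf h.toIsMap
  smU := sm_Uf h.toIsMap
  homH := hom_Hf h.toIsMap
  homU := hom_Uf h.toIsMap
  pos _ hx v hv h0 := pos h hx v hv h0

end Vale.Agent.P366.Shell
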