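import Mathlib
import Vale.Agent.P366.H745.N1a

/-! Surfaces in Minkowski space: the null expansion at a point. -/

open MeasureTheory Metric Filter Topology Set
open scoped ContDiff

noncomputable section
namespace Vale.Agent.P366.Shell

open Vale.Agent.P366 (sphI sphM pd Nc pd_Nc sum_Nc_sq)
open Vale.Agent.P366.H353.N
open Matrix

variable {n : ℕ} {X L : E n → Vec n} {x : E n}

/-! ### matrix algebra -/

/-- `x xᵀ` -/
def xx (x : Fin n → ℝ) : Matrix (Fin n) (Fin n) ℝ := Matrix.of fun i j => x i * x j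

lemma xx_apply (x : Fin n → ℝ) (i j : Fin n) : xx x i j = x i * x j := rfl

lemma xx_eq (x : Fin n → ℝ) : xx x = vecMulVec x x := rfl

lemma xx_symm (x : Fin n → ℝ) : (xx x)ᵀ = xx x := by
  ext i j; simp only [transpose_apply, xx_apply]; ring

/-- `⟨P, G⟩ = tr (P G)` for symmetric `P` -/
lemma ip_eq_trace {P G : Matrix (Fin n) (Fin n) ℝ} (hP : Pᵀ = P) :
    ∑ i, ∑ j, P i j * G i j = (P * G).trace := by
  have h : (P * G).trace = (Pᵀ * G).trace := by rw [hP]
  rw [h, trace]
  simp only [diag_apply, mul_apply, transpose_apply]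
  rw [Finset.sum_comm]

lemma alg {M B G : Matrix (Fin n) (Fin n) ℝ} {x b : Fin n → ℝ} {α : ℝ} (hM : Mᵀ = M)
    (hMx : M *ᵥ x = x) (hdet : IsUnit M.det) (hx : x ⬝ᵥ x = 1)
    (hG : G = α • (M - xx x) - (2 : ℝ) • ((M - xx x) * B) + (2 : ℝ) • vecMulVec (M *ᵥ b) b) :
    ∑ i, ∑ j, (M * M)⁻¹ i j * G i j =
      α * (M⁻¹ - xx x).trace - 2 * (∑ i, ∑ j, (M⁻¹ - xx x) i j * B i j) +
        2 * ∑ i, ∑ j, M⁻¹ i j * b i * b j := by
  have hMi : (M⁻¹)ᵀ = M⁻¹ := by rw [transpose_nonsing_inv, hM]
  have h1 : M⁻¹ * M = 1 := nonsing_inv_mul _ hdet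
  have h2 : M⁻¹ *ᵥ x = x := by
    conv_lhs => rw [← hMx]
    rw [mulVec_mulVec, h1, one_mulVec]
  have h3 : M⁻¹ * xx x = xx x := by rw [xx_eq, mul_vecMulVec, h2]
  have h4 : (M * M)⁻¹ = M⁻¹ * M⁻¹ := mul_inv_rev _ _
  have h5 : ((M * M)⁻¹)ᵀ = (M * M)⁻¹ := by rw [h4, transpose_mul, hMi]
  have h6 : M⁻¹ * M⁻¹ * (M - xx x) = M⁻¹ - xx x := by
    rw [mul_assoc, mul_sub, h1, h3, mul_sub, mul_one, h3]
  have h7 : (M⁻¹ - xx x)ᵀ = M⁻¹ - xx x := by rw [transpose_sub, hMi, xx_symm]
  rw [ip_eq_trace h5, ip_eq_trace h7, h4, hG]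
  rw [mul_add, mul_sub, Matrix.mul_smul, Matrix.mul_smul, Matrix.mul_smul,
    ← mul_assoc (M⁻¹ * M⁻¹), h6, mul_vecMulVec,
    trace_add, trace_sub, trace_smul, trace_smul, trace_smul, smul_eq_mul, smul_eq_mul,
    smul_eq_mul, trace_vecMulVec]
  congr 2
  have h8 : (M⁻¹ * M⁻¹) *ᵥ (M *ᵥ b) = M⁻¹ *ᵥ b := by
    rw [mulVec_mulVec, mul_assoc, h1, mul_one]
  rw [h8]
  simp only [dotProduct, mulVec, Finset.sum_mul]
  exact Finset.sum_congr rfl fun i _ => Finset.sum_congr rfl fun j _ => by ring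

/-! ### the matrix `M = W + x xᵀ` -/

variable (h : IsSurface X)

lemma M_apply (hx : ‖x‖ = 1) (i j : Fin n) :
    (dat h).M x i j = hs (Hf X) i j x + Uf X x * (kd i j - x i * x j) + x i * x j := by
  show ‖x‖ * hs (Hf X) i j x + Uf X x * (kd i j - x i * x j / ‖x‖ ^ 2) + x i * x j / ‖x‖ ^ 2 = _
  rw [hx]; ring

lemma M_symm (hx : ‖x‖ = 1) : ((dat h).M x)ᵀ = (dat h).M x := by
  ext i j
  rw [transpose_apply, M_apply h hx, M_apply h hx,
    hs_symm (sm_Hf h.toIsMap) (ne_zero_of_one hx) i j, kd_comm i j]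
  ring

lemma M_x (hx : ‖x‖ = 1) : (dat h).M x *ᵥ (fun i => x i) = fun i => x i := by
  ext i
  have h1 := hs_x h.toIsMap (ne_zero_of_one hx) i
  have h2 := kd_mul i fun j => x j
  have h3 := sum_xx hx
  simp only [mulVec, dotProduct, M_apply h hx]
  have e : ∑ j, (hs (Hf X) i j x + Uf X x * (kd i j - x i * x j) + x i * x j) * x j =
      ∑ j, hs (Hf X) i j x * x j + Uf X x * (∑ j, kd i j * x j - x i * ∑ j, x j * x j) +
        x i * ∑ j, x j * x j := by
    simp only [Finset.mul_sum, ← Finset.sum_add_distrib, ← Finset.sum_sub_distrib]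
    exact Finset.sum_congr rfl fun j _ => by ring
  rw [e, h1, h2, h3]; ring

lemma M_posDef (hx : ‖x‖ = 1) : ((dat h).M x).PosDef := by
  refine Matrix.PosDef.of_dotProduct_mulVec_pos ?_ fun v hv => ?_
  · rw [Matrix.IsHermitian, conjTranspose_eq_transpose_of_trivial]
    exact M_symm h hx
  · have hsx := hs_x h.toIsMap (ne_zero_of_one hx)
    have h3 := sum_xx hx
    set c := ∑ i, x i * v i with hc
    set t : Fin n → ℝ := fun i => v i - c * x i with ht
    have hxt : ∑ i, x i * t i = 0 := by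
      have e : ∑ i, x i * t i = ∑ i, x i * v i - c * ∑ i, x i * x i := by
        rw [Finset.mul_sum, ← Finset.sum_sub_distrib]
        exact Finset.sum_congr rfl fun i _ => by rw [ht]; ring
      rw [e, h3, ← hc]; ring
    have hst : ∀ i, ∑ j, hs (Hf X) i j x * t j = ∑ j, hs (Hf X) i j x * v j := by
      intro i
      have e : ∑ j, hs (Hf X) i j x * t j =
          ∑ j, hs (Hf X) i j x * v j - c * ∑ j, hs (Hf X) i j x * x j := by
        rw [Finset.mul_sum, ← Finset.sum_sub_distrib]
        exact Finset.sum_congr rfl fun j _ => by rw [ht]; ring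
      rw [e, hsx i]; ring
    have hq : qf (fun i j => hs (Hf X) i j x) t t = ∑ i, v i * ∑ j, hs (Hf X) i j x * v j := by
      have e1 : qf (fun i j => hs (Hf X) i j x) t t = ∑ i, t i * ∑ j, hs (Hf X) i j x * t j := by
        unfold qf
        refine Finset.sum_congr rfl fun i _ => ?_
        rw [Finset.mul_sum]
        exact Finset.sum_congr rfl fun j _ => by ring
      rw [e1]
      simp only [hst]
      have e2 : ∑ i, t i * ∑ j, hs (Hf X) i j x * v j =
          ∑ i, v i * (∑ j, hs (Hf X) i j x * v j) - c * ∑ j, (∑ i, hs (Hf X) j i x * x i) * v j := by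
        have e3 : ∑ j, (∑ i, hs (Hf X) j i x * x i) * v j =
            ∑ i, x i * ∑ j, hs (Hf X) i j x * v j := by
          simp only [Finset.mul_sum, Finset.sum_mul]
          rw [Finset.sum_comm]
          exact Finset.sum_congr rfl fun i _ => Finset.sum_congr rfl fun j _ => by
            rw [hs_symm (sm_Hf h.toIsMap) (ne_zero_of_one hx) j i]; ring
        rw [e3, Finset.mul_sum, ← Finset.sum_sub_distrib]
        exact Finset.sum_congr rfl fun i _ => by rw [ht]; ring
      rw [e2]
      simp only [hsx]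
      simp
    have htt : ∑ i, t i ^ 2 = ∑ i, v i ^ 2 - c ^ 2 := by
      have e : ∑ i, t i ^ 2 = ∑ i, v i ^ 2 - 2 * c * (∑ i, x i * v i) + c ^ 2 * ∑ i, x i * x i := by
        simp only [Finset.mul_sum, ← Finset.sum_add_distrib, ← Finset.sum_sub_distrib]
        exact Finset.sum_congr rfl fun i _ => by rw [ht]; ring
      rw [e, h3, ← hc]; ring
    have key : star v ⬝ᵥ ((dat h).M x *ᵥ v) =
        (qf (fun i j => hs (Hf X) i j x) t t + Uf X x * ∑ i, t i ^ 2) + c ^ 2 := by
      rw [hq, htt]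
      simp only [star_trivial, dotProduct, mulVec, M_apply h hx]
      have e : ∀ i, ∑ j, (hs (Hf X) i j x + Uf X x * (kd i j - x i * x j) + x i * x j) * v j =
          ∑ j, hs (Hf X) i j x * v j + Uf X x * (v i - x i * c) + x i * c := by
        intro i
        have e2 := kd_mul i v
        have e3 : ∑ j, (hs (Hf X) i j x + Uf X x * (kd i j - x i * x j) + x i * x j) * v j =
            ∑ j, hs (Hf X) i j x * v j + Uf X x * (∑ j, kd i j * v j - x i * ∑ j, x j * v j) +
              x i * ∑ j, x j * v j := by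
          simp only [Finset.mul_sum, ← Finset.sum_add_distrib, ← Finset.sum_sub_distrib]
          exact Finset.sum_congr rfl fun j _ => by ring
        rw [e3, e2, ← hc]
      simp only [e]
      have e4 : ∑ i, v i * (∑ j, hs (Hf X) i j x * v j + Uf X x * (v i - x i * c) + x i * c) =
          ∑ i, v i * (∑ j, hs (Hf X) i j x * v j) + Uf X x * (∑ i, v i ^ 2 -
            c * ∑ i, x i * v i) + c * ∑ i, x i * v i := by
        simp only [Finset.mul_sum, mul_add, Finset.sum_add_distrib, ← Finset.sum_sub_distrib]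
        congr 1
        · congr 1
          refine Finset.sum_congr rfl fun i _ => by ring
        · exact Finset.sum_congr rfl fun i _ => by ring
      rw [e4, ← hc]; ring
    rw [key]
    by_cases h0 : t = 0
    · have hv2 : v = fun i => c * x i := by
        ext i
        have := congrFun h0 i
        simp only [ht, Pi.zero_apply] at this
        linarith
      have hc0 : c ≠ 0 := by
        rintro h0'
        apply hv
        rw [hv2, h0']
        ext i; simp
      rw [h0]
      have : 0 < c ^ 2 := by positivity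
      simpa [qf] using this
    · have := pos h hx t hxt h0
      positivity

lemma M_det_pos (hx : ‖x‖ = 1) : 0 < (dat h).dt x := (M_posDef h hx).det_pos

lemma M_unit (hx : ‖x‖ = 1) : IsUnit ((dat h).M x).det := (M_det_pos h hx).ne'.isUnit

end Vale.Agent.P366.Shell
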