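import Mathlib
import Vale.Agent.P366.H745.N1b

/-! Surfaces in Minkowski space: the integral of the null expansion. -/

open MeasureTheory Metric Filter Topology Set
open scoped ContDiff

noncomputable section
namespace Vale.Agent.P366.Shell

open Vale.Agent.P366 (sphI sphM pd Nc pd_Nc sum_Nc_sq)
open Vale.Agent.P366.H353.N
open Matrix

variable {n : ℕ} {X L : E n → Vec n} {x : E n} (h : IsSurface X)

lemma Minv_x (hx : ‖x‖ = 1) : ((dat h).M x)⁻¹ *ᵥ (fun i => x i) = fun i => x i := by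
  conv_lhs => rw [← M_x h hx]
  rw [mulVec_mulVec, nonsing_inv_mul _ (M_unit h hx), one_mulVec]

lemma b_apply (hx : ‖x‖ = 1) : (dat h).b x = ((dat h).M x)⁻¹ *ᵥ fun j => pd j (Uf X) x := by
  ext i
  show ∑ j, ((dat h).M x)⁻¹ i j * (‖x‖ * pd j (Uf X) x) = _
  simp only [mulVec, dotProduct, hx, one_mul]

lemma M_b (hx : ‖x‖ = 1) : (dat h).M x *ᵥ (dat h).b x = fun j => pd j (Uf X) x := by
  rw [b_apply h hx, mulVec_mulVec, mul_nonsing_inv _ (M_unit h hx), one_mulVec]

lemma x_b (hx : ‖x‖ = 1) : ∑ i, x i * (dat h).b x i = 0 := by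
  have h1 : (fun i => x i) ⬝ᵥ (((dat h).M x)⁻¹ *ᵥ fun j => pd j (Uf X) x) =
      (((dat h).M x)⁻¹ *ᵥ fun i => x i) ⬝ᵥ fun j => pd j (Uf X) x := by
    rw [dotProduct_mulVec, ← mulVec_transpose, transpose_nonsing_inv, M_symm h hx]
  rw [Minv_x h hx, ← b_apply h hx] at h1
  have h2 := (hom_Uf h.toIsMap).euler (sm_Uf h.toIsMap) (ne_zero_of_one hx)
  simp only [dotProduct] at h1
  rw [h1, h2]; simp

/-- `W` at a unit vector -/
lemma W_apply (hx : ‖x‖ = 1) (i j : Fin n) :
    ((dat h).M x - xx x) i j = hs (Hf X) i j x + Uf X x * (kd i j - x i * x j) := by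
  rw [Matrix.sub_apply, M_apply h hx, xx_apply]; ring

lemma W_x (hx : ‖x‖ = 1) (i : Fin n) : ∑ j, ((dat h).M x - xx x) i j * x j = 0 := by
  have h1 := congrFun (M_x h hx) i
  have h3 := sum_xx hx
  simp only [mulVec, dotProduct] at h1
  simp only [Matrix.sub_apply, xx_apply, sub_mul, Finset.sum_sub_distrib, h1, mul_assoc,
    ← Finset.mul_sum, h3]
  ring

lemma dX_succ (hx : ‖x‖ = 1) (i m : Fin n) :
    dd i X x m.succ = ((dat h).M x - xx x) i m + x m * pd i (Uf X) x := by
  rw [dd_eq, pd_X h hx, W_apply h hx]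

lemma dX_zero (x : E n) (i : Fin n) : dd i X x 0 = - pd i (Uf X) x := by
  rw [pd_Uf, dd_eq]; ring

/-- The other null normal at a unit vector. -/
lemma L_unit (hL : IsNormal X L) (hx : ‖x‖ = 1) :
    L x 0 = 1 + ∑ i, (dat h).b x i ^ 2 ∧ ∀ m : Fin n,
      L x m.succ = (1 - ∑ i, (dat h).b x i ^ 2) * x m - 2 * (dat h).b x m := by
  have hx0 := ne_zero_of_one hx
  have h3 := sum_xx hx
  obtain ⟨a, ha⟩ : ∃ a, a = ∑ m : Fin n, L x m.succ * x m := ⟨_, rfl⟩
  have hc : a + L x 0 = 2 := by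
    have := hL.cross x hx0
    rw [mink_kv] at this
    simp only [Nc_one hx] at this
    rw [ha]
    linarith
  set c : Fin n → ℝ := fun m => (a * x m - L x m.succ) / 2 with hcdef
  have hxc : ∑ m, x m * c m = 0 := by
    have e : ∑ m, x m * c m = (a * (∑ m, x m * x m) - ∑ m, L x m.succ * x m) / 2 := by
      rw [Finset.mul_sum, ← Finset.sum_sub_distrib, Finset.sum_div]
      exact Finset.sum_congr rfl fun m _ => by rw [hcdef]; ring
    rw [e, h3, ← ha]; ring
  have hMc : (dat h).M x *ᵥ c = fun j => pd j (Uf X) x := by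
    ext i
    have hn := hL.normal x hx0 i
    unfold mink at hn
    rw [dX_zero] at hn
    simp only [dX_succ h hx] at hn
    have e1 : ∑ m : Fin n, (((dat h).M x - xx x) i m + x m * pd i (Uf X) x) * L x m.succ =
        ∑ m, ((dat h).M x - xx x) i m * L x m.succ + pd i (Uf X) x * a := by
      rw [ha, Finset.mul_sum, ← Finset.sum_add_distrib]
      exact Finset.sum_congr rfl fun m _ => by ring
    rw [e1] at hn
    have e2 : ((dat h).M x *ᵥ c) i = a / 2 * (∑ m, ((dat h).M x - xx x) i m * x m) -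
        (∑ m, ((dat h).M x - xx x) i m * L x m.succ) / 2 + x i * ∑ m, x m * c m := by
      simp only [mulVec, dotProduct, Matrix.sub_apply, xx_apply]
      rw [Finset.mul_sum, Finset.mul_sum, Finset.sum_div, ← Finset.sum_sub_distrib,
        ← Finset.sum_add_distrib]
      exact Finset.sum_congr rfl fun m _ => by rw [hcdef]; ring
    rw [e2, W_x h hx, hxc]
    linear_combination (-1 / 2) * hn + (pd i (Uf X) x / 2) * hc
  have hcb : c = (dat h).b x := by
    rw [b_apply h hx, ← hMc, mulVec_mulVec, nonsing_inv_mul _ (M_unit h hx), one_mulVec]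
  have hnull := hL.null x hx0
  unfold mink at hnull
  have hLm : ∀ m : Fin n, L x m.succ = a * x m - 2 * c m := fun m => by rw [hcdef]; ring
  have e3 : ∑ m : Fin n, L x m.succ * L x m.succ = a ^ 2 + 4 * ∑ m, c m ^ 2 := by
    have e : ∑ m : Fin n, L x m.succ * L x m.succ =
        a ^ 2 * (∑ m, x m * x m) - 4 * a * (∑ m, x m * c m) + 4 * ∑ m, c m ^ 2 := by
      simp only [Finset.mul_sum, ← Finset.sum_add_distrib, ← Finset.sum_sub_distrib]
      exact Finset.sum_congr rfl fun m _ => by rw [hLm]; ring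
    rw [e, h3, hxc]; ring
  rw [e3] at hnull
  have hL0 : L x 0 = 2 - a := by linarith
  rw [hL0] at hnull
  have haN : a = 1 - ∑ m, c m ^ 2 := by linarith
  rw [← hcb]
  refine ⟨by rw [hL0, haN]; ring, fun m => by rw [hLm m, haN]⟩

section Ten

variable (T : Ten n) (hTA : T.A = (dat h).A) (hTb : T.b = (dat h).b)

include h hTb

lemma unit_of (hx : x ≠ 0) : ‖‖x‖⁻¹ • x‖ = 1 := by
  rw [norm_smul, norm_inv, norm_norm, inv_mul_cancel₀ (norm_ne_zero_iff.mpr hx)]

lemma L_eq (hL : IsNormal X L) (hx : x ≠ 0) :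
    L x 0 = 1 + ∑ i, T.b x i ^ 2 ∧ ∀ m : Fin n,
      L x m.succ = (1 - ∑ i, T.b x i ^ 2) * Nc m x - 2 * T.b x m := by
  have hr : 0 < ‖x‖⁻¹ := inv_pos.mpr (norm_pos_iff.mpr hx)
  have h1 := L_unit h hL (unit_of h T hTb hx)
  have h2 : L (‖x‖⁻¹ • x) = L x := hL.hom x hx _ hr
  have h3 : ∀ i, (dat h).b (‖x‖⁻¹ • x) i = T.b x i := fun i => by
    rw [← hTb]
    have := T.homb i x hx _ hr
    simpa using this
  have h4 : ∀ m, (‖x‖⁻¹ • x) m = Nc m x := fun m => by
    simp only [PiLp.smul_apply, smul_eq_mul, Nc]; ring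
  simpa only [h2, h3, h4] using h1

lemma T_tanb (hx : x ≠ 0) : ∑ i, Nc i x * T.b x i = 0 := by
  have := T.tanb x hx
  have e : ∑ i, Nc i x * T.b x i = (∑ i, x i * T.b x i) / ‖x‖ := by
    rw [Finset.sum_div]
    exact Finset.sum_congr rfl fun i _ => by unfold Nc; ring
  rw [e, this, zero_div]

lemma x_pd_b (hx : ‖x‖ = 1) (j : Fin n) :
    ∑ m, x m * pd j (fun y => T.b y m) x = - T.b x j := by
  have h0 := ne_zero_of_one hx
  have h1 : pd j (fun y => ∑ m, Nc m y * T.b y m) x = 0 := by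
    rw [pd_congr' (fun y hy => T_tanb h T hTb hy) h0 j, Vale.Agent.P366.pd_const]
  rw [pd_sum' _ (fun m => (sm_Nc m).mul (T.smb m)) h0] at h1
  have h2 : ∀ m, pd j (fun y => Nc m y * T.b y m) x =
      x m * pd j (fun y => T.b y m) x + (kd j m * T.b x m - x j * (x m * T.b x m)) := by
    intro m
    rw [pd_mul' (sm_Nc m) (T.smb m) h0, pd_Nc' h0, Nc_one hx, Nc_one hx, hx]
    ring
  have h3 := T.tanb x h0
  simp only [h2, Finset.sum_add_distrib, Finset.sum_sub_distrib, ← Finset.mul_sum, h3,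
    kd_mul j fun m => T.b x m] at h1
  linarith

lemma gram_XL (hL : IsNormal X L) (hx : ‖x‖ = 1) :
    gram X L x = (1 - ∑ i, T.b x i ^ 2) • ((dat h).M x - xx x) -
      (2 : ℝ) • (((dat h).M x - xx x) * Matrix.of fun m j => pd j (fun y => T.b y m) x) +
      (2 : ℝ) • vecMulVec ((dat h).M x *ᵥ (dat h).b x) (T.b x) := by
  have h0 := ne_zero_of_one hx
  ext i j
  set N : E n → ℝ := fun y => ∑ i, T.b y i ^ 2 with hN
  have sN : Sm N := Sm.sum _ fun i => (T.smb i).pow 2
  have d0 : dd j L x 0 = pd j N x := by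
    rw [dd_eq, pd_congr' (f := fun y => 1 + N y) (fun y hy => (L_eq h T hTb hL hy).1) h0 j,
      pd_add' (Sm.const 1) sN h0, Vale.Agent.P366.pd_const]
    ring
  have dm : ∀ m : Fin n, dd j L x m.succ = - pd j N x * x m + (1 - N x) * (kd j m - x j * x m) -
      2 * pd j (fun y => T.b y m) x := by
    intro m
    rw [dd_eq, pd_congr' (f := fun y => (1 - N y) * Nc m y - 2 * T.b y m)
      (fun y hy => (L_eq h T hTb hL hy).2 m) h0 j,
      pd_sub' (((Sm.const 1).sub sN).mul (sm_Nc m)) ((Sm.const 2).mul (T.smb m)) h0,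
      pd_mul' ((Sm.const 1).sub sN) (sm_Nc m) h0, pd_cmul' (T.smb m) 2 h0,
      pd_sub' (Sm.const 1) sN h0, Vale.Agent.P366.pd_const, pd_Nc' h0, Nc_one hx, Nc_one hx, hx]
    ring
  have hW := W_x h hx i
  have hb := x_pd_b h T hTb hx j
  have hxx := sum_xx hx
  show mink (dd i X x) (dd j L x) = _
  unfold mink
  rw [dX_zero, d0]
  simp only [dX_succ h hx, dm]
  rw [M_b h hx]
  simp only [Matrix.add_apply, Matrix.sub_apply, Matrix.smul_apply, Matrix.mul_apply,
    vecMulVec_apply, smul_eq_mul, Matrix.of_apply]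
  simp only [Matrix.sub_apply] at hW
  set U := pd i (Uf X) x
  have e : ∑ m, (((dat h).M x i m - xx x i m) + x m * U) *
      (-pd j N x * x m + (1 - N x) * (kd j m - x j * x m) - 2 * pd j (fun y => T.b y m) x) =
      - pd j N x * (∑ m, ((dat h).M x i m - xx x i m) * x m) +
      (1 - N x) * ((∑ m, kd j m * ((dat h).M x i m - xx x i m)) -
        x j * ∑ m, ((dat h).M x i m - xx x i m) * x m) -
      2 * (∑ m, ((dat h).M x i m - xx x i m) * pd j (fun y => T.b y m) x) -
      U * pd j N x * (∑ m, x m * x m) +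
      U * (1 - N x) * ((∑ m, kd j m * x m) - x j * ∑ m, x m * x m) -
      2 * U * ∑ m, x m * pd j (fun y => T.b y m) x := by
    simp only [Finset.mul_sum, ← Finset.sum_add_distrib, ← Finset.sum_sub_distrib]
    exact Finset.sum_congr rfl fun m _ => by ring
  rw [e, hW, hb, hxx, kd_mul j fun m => x m, kd_mul j fun m => ((dat h).M x i m - xx x i m)]
  ring

end Ten

lemma gram_XX (hx : ‖x‖ = 1) :
    gram X X x = ((dat h).M x - xx x) * ((dat h).M x - xx x) := by
  ext i j
  have hWi := W_x h hx i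
  have hWj := W_x h hx j
  have hxx := sum_xx hx
  have hs : ((dat h).M x - xx x)ᵀ = (dat h).M x - xx x := by
    rw [transpose_sub, M_symm h hx, xx_symm]
  show mink (dd i X x) (dd j X x) = _
  unfold mink
  rw [dX_zero, dX_zero]
  simp only [dX_succ h hx]
  rw [mul_apply]
  have e : ∑ m, (((dat h).M x - xx x) i m + x m * pd i (Uf X) x) *
      (((dat h).M x - xx x) j m + x m * pd j (Uf X) x) =
      ∑ m, ((dat h).M x - xx x) i m * ((dat h).M x - xx x) m j +
      pd j (Uf X) x * (∑ m, ((dat h).M x - xx x) i m * x m) +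
      pd i (Uf X) x * (∑ m, ((dat h).M x - xx x) j m * x m) +
      pd i (Uf X) x * pd j (Uf X) x * ∑ m, x m * x m := by
    simp only [Finset.mul_sum, ← Finset.sum_add_distrib]
    refine Finset.sum_congr rfl fun m _ => ?_
    have : ((dat h).M x - xx x) m j = ((dat h).M x - xx x) j m := by
      conv_lhs => rw [← hs, transpose_apply]
    rw [this]; ring
  rw [e, hWi, hWj, hxx]
  ring

lemma met_eq (hx : ‖x‖ = 1) : met X x = (dat h).M x * (dat h).M x := by
  have h1 : (dat h).M x * xx x = xx x := by rw [xx_eq, mul_vecMulVec]; congr 1; exact M_x h hx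
  have h2 : xx x * (dat h).M x = xx x := by
    have := congrArg transpose h1
    rw [transpose_mul, M_symm h hx, xx_symm] at this
    exact this
  have h3 : xx x * xx x = xx (n := n) x := by
    rw [xx_eq, vecMulVec_mul_vecMulVec]
    have : (fun i => x i) ⬝ᵥ (fun i => x i) = 1 := sum_xx hx
    ext i j
    simp only [vecMulVec_apply, smul_eq_mul, Pi.smul_apply]
    rw [this]; ring
  unfold met
  rw [gram_XX h hx, show (Matrix.of fun i j => x i * x j) = xx (n := n) x from rfl, sub_mul, mul_sub,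
    mul_sub, h1, h2, h3]
  abel

lemma dens_eq (hx : ‖x‖ = 1) : dens X x = (dat h).dt x := by
  have h1 : 0 < ((dat h).M x).det := M_det_pos h hx
  unfold dens
  rw [met_eq h hx, det_mul, ← sq, Real.sqrt_sq h1.le]
  rfl

end Vale.Agent.P366.Shell
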