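import Mathlib
import Vale.Agent.P366.H745.N1c

/-! Surfaces in Minkowski space: the integral of the null expansion. -/

open MeasureTheory Metric Filter Topology Set
open scoped ContDiff

noncomputable section
namespace Vale.Agent.P366.Shell

open Vale.Agent.P366 (sphI sphM pd Nc pd_Nc sum_Nc_sq)
open Vale.Agent.P366.H353.N
open Matrix

variable {n : ℕ} {X L : E n → Vec n} {x : E n} (h : IsSurface X)

lemma A_eq (hx : ‖x‖ = 1) (i j : Fin n) :
    (dat h).A x i j = (dat h).dt x * (((dat h).M x)⁻¹ - xx x) i j := by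
  have h1 : ((dat h).M x).adjugate = (dat h).dt x • ((dat h).M x)⁻¹ := by
    have h2 := mul_nonsing_inv _ (M_unit h hx)
    calc ((dat h).M x).adjugate = ((dat h).M x).adjugate * ((dat h).M x * ((dat h).M x)⁻¹) := by
          rw [h2, mul_one]
      _ = (dat h).dt x • ((dat h).M x)⁻¹ := by
          rw [← mul_assoc, adjugate_mul, Matrix.smul_mul, Matrix.one_mul]; rfl
  show ((dat h).M x).adjugate i j - (dat h).dt x * (x i * x j / ‖x‖ ^ 2) = _
  rw [h1, hx, Matrix.smul_apply, Matrix.sub_apply, xx_apply, smul_eq_mul]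
  ring

section Ten

variable (T : Ten n) (hTA : T.A = (dat h).A) (hTb : T.b = (dat h).b)

include hTA hTb

lemma theta_dens (hL : IsNormal X L) (hx : ‖x‖ = 1) :
    theta X L x * dens X x = (1 - ∑ i, T.b x i ^ 2) * H353.N.tr (T.A x) -
      2 * (∑ i, ∑ j, T.A x i j * pd i (fun y => T.b y j) x) + 2 * qf (T.A x) (T.b x) (T.b x) := by
  have hxx : (fun i => x i) ⬝ᵥ (fun i => x i) = 1 := sum_xx hx
  have h1 := alg (M_symm h hx) (M_x h hx) (M_unit h hx) hxx
    (b := T.b x) (B := Matrix.of fun m j => pd j (fun y => T.b y m) x)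
    (G := gram X L x) (α := 1 - ∑ i, T.b x i ^ 2) (by
      rw [gram_XL h T hTb hL hx, hTb])
  have h2 : theta X L x = ∑ i, ∑ j, ((dat h).M x * (dat h).M x)⁻¹ i j * gram X L x i j := by
    unfold theta
    rw [met_eq h hx]
  rw [h2, dens_eq h hx, h1, hTA]
  have hA := A_eq h hx
  have e1 : H353.N.tr ((dat h).A x) = (dat h).dt x * (((dat h).M x)⁻¹ - xx x).trace := by
    unfold H353.N.tr
    simp only [hA, ← Finset.mul_sum]
    rfl
  have hsym : ∀ i j, (((dat h).M x)⁻¹ - xx x) i j = (((dat h).M x)⁻¹ - xx x) j i := by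
    intro i j
    have : (((dat h).M x)⁻¹ - xx x)ᵀ = ((dat h).M x)⁻¹ - xx x := by
      rw [transpose_sub, transpose_nonsing_inv, M_symm h hx, xx_symm]
    conv_lhs => rw [← this, transpose_apply]
  have e2 : ∑ i, ∑ j, (dat h).A x i j * pd i (fun y => T.b y j) x = (dat h).dt x *
      ∑ i, ∑ j, (((dat h).M x)⁻¹ - xx x) i j * (Matrix.of fun m j => pd j (fun y => T.b y m) x) i j := by
    simp only [Finset.mul_sum, Matrix.of_apply, hA]
    rw [Finset.sum_comm]
    exact Finset.sum_congr rfl fun i _ => Finset.sum_congr rfl fun j _ => by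
      rw [hsym j i]; ring
  have e3 : qf ((dat h).A x) (T.b x) (T.b x) = (dat h).dt x *
      ∑ i, ∑ j, ((dat h).M x)⁻¹ i j * T.b x i * T.b x j := by
    have e4 : ∀ i, ∑ j, (dat h).A x i j * T.b x i * T.b x j =
        (dat h).dt x * (∑ j, ((dat h).M x)⁻¹ i j * T.b x i * T.b x j) -
          (dat h).dt x * x i * T.b x i * ∑ j, x j * T.b x j := by
      intro i
      simp only [Finset.mul_sum, ← Finset.sum_sub_distrib]
      exact Finset.sum_congr rfl fun j _ => by
        rw [hA, Matrix.sub_apply, xx_apply]; ring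
    unfold qf
    simp only [e4, T.tanb x (ne_zero_of_one hx), mul_zero, sub_zero, ← Finset.mul_sum]
  rw [e1, e2, e3]
  ring

/-- The integral of the null expansion. -/
theorem int_theta [Fact (3 ≤ n)] (hL : IsNormal X L) :
    SI (fun x => theta X L x * dens X x) =
      SI (fun x => H353.N.tr (T.A x) * (1 + ∑ i, T.b x i ^ 2)) := by
  rw [SI_congr fun x hx => theta_dens h T hTA hTb hL hx]
  have sA := T.smA
  have sb := T.smb
  have sN : Sm fun x => ∑ i, T.b x i ^ 2 := Sm.sum _ fun i => (sb i).pow 2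
  have sT : Sm fun x => H353.N.tr (T.A x) := Sm.sum _ fun i => sA i i
  have s1 : Sm fun x => ∑ i, ∑ j, T.A x i j * pd i (fun y => T.b y j) x :=
    Sm.sum _ fun i => Sm.sum _ fun j => (sA i j).mul ((sb j).pd i)
  have s2 : Sm fun x => qf (T.A x) (T.b x) (T.b x) :=
    Sm.sum _ fun i => Sm.sum _ fun j => ((sA i j).mul (sb i)).mul (sb j)
  have sF : ∀ i, Sm fun x => ∑ j, T.A x i j * T.b x j := fun i => Sm.sum _ fun j => (sA i j).mul (sb j)
  have hF : ∀ i, Hom 0 fun x => ∑ j, T.A x i j * T.b x j := fun i =>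
    Hom.sum _ fun j => ((T.homA i j).mul (T.homb j)).cast (by norm_num)
  have hdiv := SI_div sF hF
  have e0 : SI (fun x => ∑ i, (∑ j, T.A x i j * T.b x j) * x i) = SI (fun _ : E n => (0 : ℝ)) := by
    refine SI_congr fun x hx => ?_
    have h1 := T.tanA x (ne_zero_of_one hx)
    have e : ∑ i, (∑ j, T.A x i j * T.b x j) * x i = ∑ j, T.b x j * ∑ i, T.A x j i * x i := by
      simp only [Finset.mul_sum, Finset.sum_mul]
      rw [Finset.sum_comm]
      exact Finset.sum_congr rfl fun i _ => Finset.sum_congr rfl fun j _ => by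
        rw [T.symA x j i]; ring
    rw [e]
    simp only [h1, mul_zero, Finset.sum_const_zero]
  rw [e0, SI_const, mul_zero, mul_zero] at hdiv
  have e1 : SI (fun x => ∑ i, pd i (fun y => ∑ j, T.A y i j * T.b y j) x) =
      SI (fun x => (∑ i, ∑ j, T.A x i j * pd i (fun y => T.b y j) x) +
        (H353.N.tr (T.A x) * (∑ i, T.b x i ^ 2) - qf (T.A x) (T.b x) (T.b x))) := by
    refine SI_congr fun x hx => ?_
    have h0 := ne_zero_of_one hx
    have k1 : ∀ i, pd i (fun y => ∑ j, T.A y i j * T.b y j) x =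
        ∑ j, (T.A x i j * pd i (fun y => T.b y j) x + pd i (fun y => T.A y i j) x * T.b x j) := by
      intro i
      rw [pd_sum' _ (fun j => (sA i j).mul (sb j)) h0]
      exact Finset.sum_congr rfl fun j _ => pd_mul' (sA i j) (sb j) h0 i
    simp only [k1, Finset.sum_add_distrib]
    congr 1
    have k2 := T.divA x hx (T.b x) (T.tanb x h0)
    have k3 : ∑ i, ∑ j, pd i (fun y => T.A y i j) x * T.b x j =
        ∑ j, (∑ i, pd i (fun y => T.A y i j) x) * T.b x j := by
      rw [Finset.sum_comm]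
      exact Finset.sum_congr rfl fun j _ => by rw [Finset.sum_mul]
    rw [k3, k2]
    unfold qf
    simp only [sub_mul, Finset.sum_sub_distrib, Finset.mul_sum, Finset.sum_mul]
    congr 1
    · exact Finset.sum_congr rfl fun j _ => by ring
    · rw [Finset.sum_comm]
      exact Finset.sum_congr rfl fun i _ => Finset.sum_congr rfl fun j _ => by
        rw [T.symA x i j]
  rw [e1, SI_add s1.contOn ((sT.mul sN).sub s2).contOn] at hdiv
  have c1 := s1.contOn
  have e2 : SI (fun x => (1 - ∑ i, T.b x i ^ 2) * H353.N.tr (T.A x) -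
      2 * (∑ i, ∑ j, T.A x i j * pd i (fun y => T.b y j) x) + 2 * qf (T.A x) (T.b x) (T.b x)) =
      SI (fun x => (1 - ∑ i, T.b x i ^ 2) * H353.N.tr (T.A x) + 2 * qf (T.A x) (T.b x) (T.b x)) -
        2 * SI (fun x => ∑ i, ∑ j, T.A x i j * pd i (fun y => T.b y j) x) := by
    rw [← SI_cmul, ← SI_sub ((((Sm.const 1).sub sN).mul sT).add ((Sm.const 2).mul s2)).contOn
      ((Sm.const 2).mul s1).contOn]
    exact SI_congr fun x _ => by ring
  have e3 : SI (fun x => H353.N.tr (T.A x) * (1 + ∑ i, T.b x i ^ 2)) =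
      SI (fun x => (1 - ∑ i, T.b x i ^ 2) * H353.N.tr (T.A x) + 2 * qf (T.A x) (T.b x) (T.b x)) +
        2 * SI (fun x => H353.N.tr (T.A x) * (∑ i, T.b x i ^ 2) - qf (T.A x) (T.b x) (T.b x)) := by
    rw [← SI_cmul, ← SI_add ((((Sm.const 1).sub sN).mul sT).add ((Sm.const 2).mul s2)).contOn
      ((Sm.const 2).mul ((sT.mul sN).sub s2)).contOn]
    exact SI_congr fun x _ => by ring
  rw [e2, e3]
  linarith

/-- The inequality of the energy and the integral of `Phi`. -/
theorem Phi_le [Fact (3 ≤ n)] (hL : IsNormal X L) :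
    SI (dat h).Phi ≤ SI (fun x => theta X L x * dens X x) := by
  rw [int_theta h T hTA hTb hL]
  have sA := T.smA
  have sb := T.smb
  have sN : Sm fun x => ∑ i, T.b x i ^ 2 := Sm.sum _ fun i => (sb i).pow 2
  have sT : Sm fun x => H353.N.tr (T.A x) := Sm.sum _ fun i => sA i i
  have hPhi : (dat h).Phi = T.Phi := by
    funext x
    unfold Dat.Phi Ten.Phi
    rw [hTA, hTb]
  rw [hPhi]
  refine SI_mono T.sm_Phi.contOn (sT.mul ((Sm.const 1).add sN)).contOn fun x hx => ?_
  have h0 := ne_zero_of_one hx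
  have hq : 0 ≤ qf (T.A x) (T.b x) (T.b x) := by
    by_cases hb : T.b x = 0
    · rw [hb]; simp [qf]
    · exact (T.posA x hx _ (T.tanb x h0) hb).le
  unfold Ten.Phi
  nlinarith [hq]

end Ten

end Vale.Agent.P366.Shell
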