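import Mathlib
import Vale.Agent.P366.H745.N1a

/-! The action of the boosts on the light cone. -/

open MeasureTheory Metric Filter Topology Set
open scoped ContDiff

noncomputable section
namespace Vale.Agent.P366.Shell

open Vale.Agent.P366 (sphI sphM pd Nc pd_Nc sum_Nc_sq)
open Vale.Agent.P366.H353.N

variable {n : ℕ} {a : Fin n → ℝ} {z : E n}

/-- the time component of the unit vector with the space components `a` -/
def e0 (a : Fin n → ℝ) : ℝ := √(1 + ∑ i, a i ^ 2)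

lemma e0_sq (a : Fin n → ℝ) : e0 a ^ 2 = 1 + ∑ i, a i ^ 2 :=
  Real.sq_sqrt (by positivity)

lemma e0_pos (a : Fin n → ℝ) : 0 < e0 a := Real.sqrt_pos.mpr (by positivity)

lemma e0_neg (a : Fin n → ℝ) : e0 (-a) = e0 a := by unfold e0; simp

/-- the scalar product -/
def sp (a : Fin n → ℝ) (z : E n) : ℝ := ∑ i, a i * z i

/-- the coefficient of the boost -/
def cf (a : Fin n → ℝ) (z : E n) : ℝ := sp a z / (1 + e0 a) - ‖z‖

/-- the boost on the light cone -/
def psi (a : Fin n → ℝ) (z : E n) : E n := WithLp.toLp 2 fun i => z i + cf a z * a i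

lemma psi_apply (i : Fin n) : psi a z i = z i + cf a z * a i := rfl

lemma sp_neg (a : Fin n → ℝ) (z : E n) : sp (-a) z = - sp a z := by
  unfold sp; simp [Finset.sum_neg_distrib]

lemma sp_smul (a : Fin n → ℝ) (r : ℝ) (z : E n) : sp a (r • z) = r * sp a z := by
  unfold sp
  rw [Finset.mul_sum]
  exact Finset.sum_congr rfl fun i _ => by simp; ring

lemma sp_psi (a : Fin n → ℝ) (z : E n) : sp a (psi a z) = sp a z + cf a z * ∑ i, a i ^ 2 := by
  unfold sp
  rw [Finset.mul_sum, ← Finset.sum_add_distrib]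
  exact Finset.sum_congr rfl fun i _ => by rw [psi_apply]; ring

/-- `|a · z| ≤ |a| |z|` -/
lemma sp_sq_le (a : Fin n → ℝ) (z : E n) : sp a z ^ 2 ≤ (∑ i, a i ^ 2) * ‖z‖ ^ 2 := by
  have h := Finset.sum_mul_sq_le_sq_mul_sq Finset.univ a fun i => z i
  rw [← sum_sq z]
  simpa only [sp, ← sq] using h

lemma norm_psi_pos (hz : z ≠ 0) : 0 < e0 a * ‖z‖ - sp a z := by
  have h1 := sp_sq_le a z
  have h2 := e0_sq a
  have h3 := e0_pos a
  have h4 : 0 < ‖z‖ := norm_pos_iff.mpr hz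
  have h5 : sp a z ^ 2 < (e0 a * ‖z‖) ^ 2 := by
    rw [mul_pow, h2]
    nlinarith [sq_pos_of_pos h4]
  have h6 := abs_lt_of_sq_lt_sq h5 (by positivity)
  have := le_abs_self (sp a z)
  linarith [(abs_lt.mp h6).2]

lemma norm_psi_sq (a : Fin n → ℝ) (z : E n) : ‖psi a z‖ ^ 2 = (e0 a * ‖z‖ - sp a z) ^ 2 := by
  rw [← sum_sq (psi a z)]
  have e : ∑ i, psi a z i * psi a z i =
      ∑ i, z i * z i + 2 * cf a z * sp a z + cf a z ^ 2 * ∑ i, a i ^ 2 := by
    unfold sp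
    simp only [Finset.mul_sum, ← Finset.sum_add_distrib]
    exact Finset.sum_congr rfl fun i _ => by rw [psi_apply]; ring
  have h2 : ∑ i, a i ^ 2 = e0 a ^ 2 - 1 := by rw [e0_sq]; ring
  have h3 : (1 + e0 a) ≠ 0 := by have := e0_pos a; positivity
  rw [e, sum_sq, h2]
  unfold cf
  field_simp
  ring

lemma norm_psi (a : Fin n → ℝ) (hz : z ≠ 0) : ‖psi a z‖ = e0 a * ‖z‖ - sp a z := by
  have h := norm_psi_sq a z
  exact (sq_eq_sq₀ (norm_nonneg _) (norm_psi_pos hz).le).mp h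

lemma psi_ne (hz : z ≠ 0) : psi a z ≠ 0 := by
  rw [← norm_pos_iff, norm_psi a hz]; exact norm_psi_pos hz

lemma psi_neg_psi (a : Fin n → ℝ) (hz : z ≠ 0) : psi (-a) (psi a z) = z := by
  have h3 : (1 + e0 a) ≠ 0 := by have := e0_pos a; positivity
  have h2 : ∑ i, a i ^ 2 = e0 a ^ 2 - 1 := by rw [e0_sq]; ring
  have hc : cf (-a) (psi a z) = cf a z := by
    unfold cf
    rw [e0_neg, sp_neg, sp_psi, norm_psi a hz, h2]
    unfold cf
    field_simp
    ring
  ext i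
  rw [psi_apply, psi_apply, hc, Pi.neg_apply]
  ring

lemma cf_smul {r : ℝ} (hr : 0 < r) : cf a (r • z) = r * cf a z := by
  unfold cf
  rw [sp_smul, norm_smul, Real.norm_eq_abs, abs_of_pos hr]
  ring

lemma psi_smul {r : ℝ} (hr : 0 < r) : psi a (r • z) = r • psi a z := by
  ext i
  rw [psi_apply, cf_smul hr]
  simp only [PiLp.smul_apply, smul_eq_mul, psi_apply]
  ring

/-- the boost on the directions, extended as a map which preserves the norm -/
def phi (a : Fin n → ℝ) (z : E n) : E n := (‖z‖ / ‖psi a z‖) • psi a z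

lemma norm_phi (a : Fin n → ℝ) (hz : z ≠ 0) : ‖phi a z‖ = ‖z‖ := by
  have h1 : ‖psi a z‖ ≠ 0 := norm_ne_zero_iff.mpr (psi_ne hz)
  unfold phi
  rw [norm_smul, norm_div, norm_norm, norm_norm]
  field_simp

lemma phi_ne (hz : z ≠ 0) : phi a z ≠ 0 := by
  rw [← norm_pos_iff, norm_phi a hz]; exact norm_pos_iff.mpr hz

lemma phi_smul {r : ℝ} (hr : 0 < r) (z : E n) : phi a (r • z) = r • phi a z := by
  unfold phi
  rw [psi_smul hr, norm_smul, norm_smul, Real.norm_eq_abs, abs_of_pos hr, smul_smul, smul_smul,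
    mul_div_mul_left _ _ hr.ne', mul_comm]

lemma phi_neg_phi (a : Fin n → ℝ) (hz : z ≠ 0) : phi (-a) (phi a z) = z := by
  have h1 : 0 < ‖psi a z‖ := norm_pos_iff.mpr (psi_ne hz)
  have h0 : 0 < ‖z‖ := norm_pos_iff.mpr hz
  have hr : 0 < ‖z‖ / ‖psi a z‖ := by positivity
  have h2 : phi a z = (‖z‖ / ‖psi a z‖) • psi a z := rfl
  rw [h2, phi_smul hr]
  unfold phi
  rw [psi_neg_psi a hz, smul_smul]
  have : ‖z‖ / ‖psi a z‖ * (‖psi a z‖ / ‖z‖) = 1 := by field_simp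
  rw [this, one_smul]

lemma phi_phi_neg (a : Fin n → ℝ) (hz : z ≠ 0) : phi a (phi (-a) z) = z := by
  have := phi_neg_phi (-a) hz
  rwa [neg_neg] at this

/-- the ratio of the norms -/
lemma norm_psi_phi (a : Fin n → ℝ) (hz : z ≠ 0) :
    ‖z‖ / ‖psi a z‖ = (e0 a * ‖z‖ + sp a (phi a z)) / ‖z‖ := by
  have h1 : 0 < ‖psi a z‖ := norm_pos_iff.mpr (psi_ne hz)
  have h0 : 0 < ‖z‖ := norm_pos_iff.mpr hz
  have h2 := norm_psi (-a) (phi_ne (a := a) hz)
  have hr : 0 < ‖z‖ / ‖psi a z‖ := by positivity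
  rw [e0_neg, sp_neg, norm_phi a hz] at h2
  have h3 : psi (-a) (phi a z) = (‖z‖ / ‖psi a z‖) • z := by
    unfold phi
    rw [psi_smul hr, psi_neg_psi a hz]
  rw [h3, norm_smul, Real.norm_eq_abs, abs_of_pos hr] at h2
  rw [eq_div_iff h0.ne', h2]
  ring

/-! ### smoothness -/

lemma sm_sp (a : Fin n → ℝ) : Sm (sp a) :=
  Sm.sum _ fun i => (Sm.const (a i)).mul (Sm.coord i)

lemma sm_cf (a : Fin n → ℝ) : Sm (cf a) :=
  ((sm_sp a).div (Sm.const _) fun _ _ => by have := e0_pos a; positivity).sub Sm.norm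

lemma sm_psi (a : Fin n → ℝ) (i : Fin n) : Sm fun z => psi a z i :=
  (Sm.coord i).add ((sm_cf a).mul (Sm.const (a i)))

lemma sm_norm_psi (a : Fin n → ℝ) : Sm fun z => ‖psi a z‖ :=
  (((Sm.const (e0 a)).mul Sm.norm).sub (sm_sp a)).congr fun z hz => norm_psi a hz

lemma sm_ratio (a : Fin n → ℝ) : Sm fun z => ‖z‖ / ‖psi a z‖ :=
  Sm.norm.div (sm_norm_psi a) fun _ hz => norm_ne_zero_iff.mpr (psi_ne hz)

lemma sm_phi (a : Fin n → ℝ) (i : Fin n) : Sm fun z => phi a z i :=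
  (sm_ratio a).mul (sm_psi a i)

lemma hom_phi (a : Fin n → ℝ) (i : Fin n) : Hom 1 fun z => phi a z i := fun z _ r hr => by
  show phi a (r • z) i = _
  rw [phi_smul hr]; simp

lemma hom_ratio (a : Fin n → ℝ) : Hom 0 fun z => ‖z‖ / ‖psi a z‖ := fun z _ r hr => by
  show ‖r • z‖ / ‖psi a (r • z)‖ = _
  rw [psi_smul hr, norm_smul, norm_smul, Real.norm_eq_abs, abs_of_pos hr,
    mul_div_mul_left _ _ hr.ne']
  simp

lemma phi_cd (a : Fin n → ℝ) (hz : z ≠ 0) : ContDiffAt ℝ ∞ (phi a) z := by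
  rw [contDiffAt_euclidean]
  exact fun i => sm_phi a i z hz

lemma phi_diff (a : Fin n → ℝ) (hz : z ≠ 0) : DifferentiableAt ℝ (phi a) z :=
  (phi_cd a hz).differentiableAt (by simp)

/-- chain rule -/
lemma pd_comp {F : E n → E n} {g : E n → ℝ} (hF : DifferentiableAt ℝ F z)
    (hg : DifferentiableAt ℝ g (F z)) (j : Fin n) :
    pd j (fun y => g (F y)) z = ∑ k, pd j (fun y => F y k) z * pd k g (F z) := by
  unfold Vale.Agent.P366.pd
  have h := hg.hasFDerivAt.comp z hF.hasFDerivAt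
  rw [show (fun y => g (F y)) = g ∘ F from rfl, h.fderiv]
  rw [ContinuousLinearMap.comp_apply, Vale.Agent.P366.fderiv_eq_sum_pd]
  refine Finset.sum_congr rfl fun k _ => ?_
  have h1 : HasFDerivAt (fun y => F y k)
      ((EuclideanSpace.proj k : E n →L[ℝ] ℝ).comp (fderiv ℝ F z)) z :=
    (EuclideanSpace.proj k : E n →L[ℝ] ℝ).hasFDerivAt.comp z hF.hasFDerivAt
  rw [h1.fderiv]
  rfl

end Vale.Agent.P366.Shell
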