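import Mathlib
import Vale.Agent.P366.H707.N.Psi
import Vale.Agent.P366.H745.N2a

/-! The action of the boosts on the sphere: change of variables. -/

open MeasureTheory Metric Filter Topology Set
open scoped ContDiff

noncomputable section
namespace Vale.Agent.P366.Shell

open Vale.Agent.P366 (sphI sphM pd Nc pd_Nc sum_Nc_sq)
open Vale.Agent.P366.H353.N
open Vale.Agent.P366.H707.N (PB isOpen_PB integral_cone)
open Matrix

variable {n : ℕ} {a : Fin n → ℝ} {z : E n}

/-- the matrix of the derivative of `phi` -/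
def Mx (a : Fin n → ℝ) (z : E n) : Matrix (Fin n) (Fin n) ℝ :=
  Matrix.of fun k i => pd i (fun y => phi a y k) z

lemma Mx_apply (k i : Fin n) : Mx a z k i = pd i (fun y => phi a y k) z := rfl

lemma Mx_z (a : Fin n → ℝ) (hz : z ≠ 0) : Mx a z *ᵥ (fun i => z i) = fun i => phi a z i := by
  ext k
  have h := (hom_phi a k).euler (sm_phi a k) hz
  rw [Int.cast_one, one_mul] at h
  rw [← h]
  simp only [mulVec, dotProduct, Mx_apply]
  exact Finset.sum_congr rfl fun i _ => mul_comm _ _

lemma z_Mx (a : Fin n → ℝ) (hz : z ≠ 0) : (fun k => phi a z k) ᵥ* Mx a z = fun i => z i := by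
  ext i
  have e : ∀ y : E n, y ≠ 0 → (fun y => ∑ k, phi a y k * phi a y k) y = (fun y => ∑ k, y k * y k) y := by
    intro y hy
    show ∑ k, phi a y k * phi a y k = ∑ k, y k * y k
    rw [sum_sq, sum_sq, norm_phi a hy]
  have h := pd_congr' e hz i
  rw [pd_sum' _ (fun k => (sm_phi a k).mul (sm_phi a k)) hz,
    pd_sum' _ (fun k => (Sm.coord k).mul (Sm.coord k)) hz] at h
  have e1 : ∀ k, pd i (fun y => phi a y k * phi a y k) z = 2 * (phi a z k * Mx a z k i) := by
    intro k
    rw [pd_mul' (sm_phi a k) (sm_phi a k) hz, Mx_apply]; ring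
  have e2 : ∀ k, pd i (fun y : E n => y k * y k) z = 2 * (kd i k * z k) := by
    intro k
    rw [pd_mul' (Sm.coord k) (Sm.coord k) hz, pd_coord']; ring
  simp only [e1, e2, ← Finset.mul_sum, kd_mul i fun k => z k] at h
  simp only [vecMul, dotProduct]
  linarith

lemma Mx_mul (a : Fin n → ℝ) (hz : z ≠ 0) : Mx (-a) (phi a z) * Mx a z = 1 := by
  ext k j
  have h : pd j (fun y => phi (-a) (phi a y) k) z = kd j k := by
    rw [pd_congr' (f := fun y => y k) (fun y hy => by rw [phi_neg_phi a hy]) hz, pd_coord']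
  rw [pd_comp (F := phi a) (g := fun y => phi (-a) y k) (phi_diff a hz)
    ((sm_phi (-a) k).diff (phi_ne hz))] at h
  rw [mul_apply]
  simp only [Mx_apply]
  rw [show ∑ x, pd x (fun y => phi (-a) y k) (phi a z) * pd j (fun y => phi a y x) z =
    ∑ x, pd j (fun y => phi a y x) z * pd x (fun y => phi (-a) y k) (phi a z) from
    Finset.sum_congr rfl fun _ _ => mul_comm _ _, h]
  simp only [kd, Matrix.one_apply, eq_comm]

lemma Mx_unit (a : Fin n → ℝ) (hz : z ≠ 0) : IsUnit (Mx a z).det := by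
  have h := congrArg Matrix.det (Mx_mul a hz)
  rw [det_mul, det_one] at h
  exact IsUnit.of_mul_eq_one_right _ h

lemma Mx_smul {r : ℝ} (hr : 0 < r) (hz : z ≠ 0) : Mx a (r • z) = Mx a z := by
  ext k i
  have := (hom_phi a k).pd (sm_phi a k) i z hz r hr
  rw [Mx_apply, Mx_apply]
  simpa using this

lemma Mx_contOn (a : Fin n → ℝ) : ContinuousOn (fun z => |(Mx a z).det|) (sphere (0 : E n) 1) := by
  have : Sm fun z => (Mx a z).det := Sm.det fun k i => (sm_phi a k).pd i
  exact this.contOn.abs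

/-- Change of variables on the sphere. -/
theorem SI_phi [Fact (3 ≤ n)] (a : Fin n → ℝ) {G : E n → ℝ} (hG : ContinuousOn G (sphere 0 1)) :
    SI (fun x => |(Mx a x).det| * G (phi a x)) = SI G := by
  have hn3 := Fact.out (p := 3 ≤ n)
  have hn0 : (n : ℝ) ≠ 0 := by
    have : 0 < n := by omega
    positivity
  have hGphi : ContinuousOn (fun x => |(Mx a x).det| * G (phi a x)) (sphere (0 : E n) 1) := by
    refine (Mx_contOn a).mul (hG.comp (fun x hx => ?_) fun x hx => ?_)
    · have h0 : x ≠ 0 := ne_zero_of_one (by simpa using hx)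
      exact (phi_cd a h0).continuousAt.continuousWithinAt
    · have h1 : ‖x‖ = 1 := by simpa using hx
      simpa using (norm_phi a (ne_zero_of_one h1)).trans h1
  have h1 := integral_cone hG
  have h2 := integral_cone hGphi
  have hPB : ∀ z ∈ PB n, z ≠ 0 := fun z hz => norm_pos_iff.mp hz.1
  have himg : phi a '' PB n = PB n := by
    ext w
    constructor
    · rintro ⟨z, hz, rfl⟩
      have := norm_phi a (hPB z hz)
      exact ⟨by rw [this]; exact hz.1, by rw [this]; exact hz.2⟩
    · intro hw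
      have h3 := norm_phi (-a) (hPB w hw)
      exact ⟨phi (-a) w, ⟨by rw [h3]; exact hw.1, by rw [h3]; exact hw.2⟩, phi_phi_neg a (hPB w hw)⟩
  have hinj : InjOn (phi a) (PB n) := fun z hz w hw e => by
    rw [← phi_neg_phi a (hPB z hz), e, phi_neg_phi a (hPB w hw)]
  have hfd : ∀ z ∈ PB n, HasFDerivWithinAt (phi a) (fderiv ℝ (phi a) z) (PB n) z := fun z hz =>
    (phi_diff a (hPB z hz)).hasFDerivAt.hasFDerivWithinAt
  have h3 := integral_image_eq_integral_abs_det_fderiv_smul volume isOpen_PB.measurableSet hfd hinj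
    fun z => G (‖z‖⁻¹ • z)
  rw [himg, h1] at h3
  have h4 : ∫ z in PB n, |(fderiv ℝ (phi a) z).det| • G (‖phi a z‖⁻¹ • phi a z) =
      ∫ z in PB n, |(Mx a (‖z‖⁻¹ • z)).det| * G (phi a (‖z‖⁻¹ • z)) := by
    refine setIntegral_congr_fun isOpen_PB.measurableSet fun z hz => ?_
    have h0 := hPB z hz
    have hr : 0 < ‖z‖⁻¹ := inv_pos.mpr hz.1
    show |(fderiv ℝ (phi a) z).det| • G (‖phi a z‖⁻¹ • phi a z) =
      |(Mx a (‖z‖⁻¹ • z)).det| * G (phi a (‖z‖⁻¹ • z))
    rw [phi_smul hr, Mx_smul hr h0, norm_phi a h0, smul_eq_mul,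
      H707.N.det_fderiv (F := fun k y => phi a y k) (fun _ _ => rfl) (phi_diff a h0)]
    rfl
  rw [h4, h2] at h3
  field_simp at h3
  exact h3.symm

end Vale.Agent.P366.Shell
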