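import Mathlib
import Vale.Agent.P366.H745.N1b
import Vale.Agent.P366.H745.N2b

/-! Boosted surfaces. -/

open MeasureTheory Metric Filter Topology Set
open scoped ContDiff

noncomputable section
namespace Vale.Agent.P366.Shell

open Vale.Agent.P366 (sphI sphM pd Nc pd_Nc sum_Nc_sq)
open Vale.Agent.P366.H353.N
open Matrix

variable {n : ℕ} {a : Fin n → ℝ} {z x : E n} {X Z L : E n → Vec n}

/-! ### the boost -/

/-- the coefficient of the boost -/
def cv (a : Fin n → ℝ) (v : Vec n) : ℝ := (∑ i : Fin n, a i * v i.succ) / (1 + e0 a) + v 0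

/-- the boost -/
def bst (a : Fin n → ℝ) (v : Vec n) : Vec n :=
  Fin.cons (e0 a * v 0 + ∑ i : Fin n, a i * v i.succ) fun i => v i.succ + cv a v * a i

lemma bst_zero (v : Vec n) : bst a v 0 = e0 a * v 0 + ∑ i : Fin n, a i * v i.succ := rfl

lemma bst_succ (v : Vec n) (i : Fin n) : bst a v i.succ = v i.succ + cv a v * a i := rfl

lemma mink_bst (a : Fin n → ℝ) (v w : Vec n) : mink (bst a v) (bst a w) = mink v w := by
  have h2 : ∑ i, a i ^ 2 = e0 a ^ 2 - 1 := by rw [e0_sq]; ring
  have h3 : (1 + e0 a) ≠ 0 := by have := e0_pos a; positivity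
  unfold mink
  rw [bst_zero, bst_zero]
  simp only [bst_succ]
  have e : ∑ i : Fin n, (v i.succ + cv a v * a i) * (w i.succ + cv a w * a i) =
      ∑ i : Fin n, v i.succ * w i.succ + cv a w * (∑ i : Fin n, a i * v i.succ) +
        cv a v * (∑ i : Fin n, a i * w i.succ) + cv a v * cv a w * ∑ i, a i ^ 2 := by
    simp only [Finset.mul_sum, ← Finset.sum_add_distrib]
    exact Finset.sum_congr rfl fun i _ => by ring
  rw [e, h2]
  unfold cv
  field_simp
  ring

lemma cv_lin {ι : Type*} (s : Finset ι) (m : ι → ℝ) (v : ι → Vec n) :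
    cv a (fun d => ∑ k ∈ s, m k * v k d) = ∑ k ∈ s, m k * cv a (v k) := by
  unfold cv
  have e : ∑ i : Fin n, a i * ∑ k ∈ s, m k * v k i.succ =
      ∑ k ∈ s, m k * ∑ i : Fin n, a i * v k i.succ := by
    simp only [Finset.mul_sum]
    rw [Finset.sum_comm]
    exact Finset.sum_congr rfl fun k _ => Finset.sum_congr rfl fun i _ => by ring
  rw [e, Finset.sum_div, ← Finset.sum_add_distrib]
  exact Finset.sum_congr rfl fun k _ => by ring

lemma bst_lin {ι : Type*} (s : Finset ι) (m : ι → ℝ) (v : ι → Vec n) (c : Fin (n + 1)) :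
    bst a (fun d => ∑ k ∈ s, m k * v k d) c = ∑ k ∈ s, m k * bst a (v k) c := by
  refine Fin.cases ?_ (fun i => ?_) c
  · simp only [bst_zero]
    have e : ∑ i : Fin n, a i * ∑ k ∈ s, m k * v k i.succ =
        ∑ k ∈ s, m k * ∑ i : Fin n, a i * v k i.succ := by
      simp only [Finset.mul_sum]
      rw [Finset.sum_comm]
      exact Finset.sum_congr rfl fun k _ => Finset.sum_congr rfl fun i _ => by ring
    rw [e, Finset.mul_sum, ← Finset.sum_add_distrib]
    exact Finset.sum_congr rfl fun k _ => by ring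
  · simp only [bst_succ]
    rw [cv_lin, Finset.sum_mul, ← Finset.sum_add_distrib]
    exact Finset.sum_congr rfl fun k _ => by ring

lemma mink_lin_left {ι : Type*} (s : Finset ι) (m : ι → ℝ) (v : ι → Vec n) (w : Vec n) :
    mink (fun d => ∑ k ∈ s, m k * v k d) w = ∑ k ∈ s, m k * mink (v k) w := by
  unfold mink
  have e : ∑ i : Fin n, (∑ k ∈ s, m k * v k i.succ) * w i.succ =
      ∑ k ∈ s, m k * ∑ i : Fin n, v k i.succ * w i.succ := by
    simp only [Finset.mul_sum, Finset.sum_mul]
    rw [Finset.sum_comm]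
    exact Finset.sum_congr rfl fun k _ => Finset.sum_congr rfl fun i _ => by ring
  rw [e, Finset.sum_mul, ← Finset.sum_sub_distrib]
  exact Finset.sum_congr rfl fun k _ => by ring

lemma mink_comm (v w : Vec n) : mink v w = mink w v := by
  unfold mink
  rw [mul_comm (v 0)]
  congr 1
  exact Finset.sum_congr rfl fun i _ => mul_comm _ _

lemma mink_lin_right {ι : Type*} (s : Finset ι) (m : ι → ℝ) (v : ι → Vec n) (w : Vec n) :
    mink w (fun d => ∑ k ∈ s, m k * v k d) = ∑ k ∈ s, m k * mink w (v k) := by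
  rw [mink_comm, mink_lin_left]
  exact Finset.sum_congr rfl fun k _ => by rw [mink_comm]

lemma mink_smul_right (c : ℝ) (v w : Vec n) : mink v (c • w) = c * mink v w := by
  unfold mink
  simp only [Pi.smul_apply, smul_eq_mul, mul_sub, Finset.mul_sum]
  congr 1
  · exact Finset.sum_congr rfl fun i _ => by ring
  · ring

lemma mink_smul_left (c : ℝ) (v w : Vec n) : mink (c • v) w = c * mink v w := by
  rw [mink_comm, mink_smul_right, mink_comm]

/-- the ratio of the norms -/
def rt (a : Fin n → ℝ) (z : E n) : ℝ := ‖z‖ / ‖psi a z‖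

lemma rt_pos (hz : z ≠ 0) : 0 < rt a z :=
  div_pos (norm_pos_iff.mpr hz) (norm_pos_iff.mpr (psi_ne hz))

lemma rt_one (hx : ‖x‖ = 1) : rt a x = e0 a + sp a (phi a x) := by
  unfold rt
  rw [norm_psi_phi a (ne_zero_of_one hx), hx]; ring

lemma kv_smul {r : ℝ} (hr : 0 < r) (z : E n) : kv (r • z) = kv z := by
  ext c
  refine Fin.cases rfl (fun i => ?_) c
  show - (r • z) i / ‖r • z‖ = - z i / ‖z‖
  rw [norm_smul, Real.norm_eq_abs, abs_of_pos hr, PiLp.smul_apply, smul_eq_mul, ← mul_neg,
    mul_div_mul_left _ _ hr.ne']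

/-- boosts of null vectors -/
lemma bst_kv (a : Fin n → ℝ) {w : E n} (hw : w ≠ 0) :
    bst a (kv w) = (‖psi a w‖ / ‖w‖) • kv (psi a w) := by
  have h0 : ‖w‖ ≠ 0 := norm_ne_zero_iff.mpr hw
  have h1 : ‖psi a w‖ ≠ 0 := norm_ne_zero_iff.mpr (psi_ne hw)
  have h3 : (1 + e0 a) ≠ 0 := by have := e0_pos a; positivity
  have hs : ∑ i : Fin n, a i * kv w i.succ = - sp a w / ‖w‖ := by
    unfold sp
    rw [← Finset.sum_neg_distrib, Finset.sum_div]
    exact Finset.sum_congr rfl fun i _ => by
      show a i * (- w i / ‖w‖) = _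
      ring
  ext c
  refine Fin.cases ?_ (fun i => ?_) c
  · rw [bst_zero, hs]
    show e0 a * 1 + - sp a w / ‖w‖ = (‖psi a w‖ / ‖w‖) * 1
    rw [norm_psi a hw]
    field_simp
    ring
  · rw [bst_succ]
    show - w i / ‖w‖ + cv a (kv w) * a i = (‖psi a w‖ / ‖w‖) * (- psi a w i / ‖psi a w‖)
    unfold cv
    rw [hs]
    show - w i / ‖w‖ + (- sp a w / ‖w‖ / (1 + e0 a) + 1) * a i = _
    rw [psi_apply]
    unfold cf
    field_simp
    ring

lemma bst_kv_phi (a : Fin n → ℝ) (hz : z ≠ 0) : bst (-a) (kv (phi a z)) = rt a z • kv z := by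
  have hr := rt_pos (a := a) hz
  have h3 : psi (-a) (phi a z) = rt a z • z := by
    show psi (-a) (rt a z • psi a z) = _
    rw [psi_smul hr, psi_neg_psi a hz]
  rw [bst_kv (-a) (phi_ne hz), h3, kv_smul hr, norm_smul, Real.norm_eq_abs, abs_of_pos hr,
    norm_phi a hz]
  have h0 : ‖z‖ ≠ 0 := norm_ne_zero_iff.mpr hz
  rw [mul_div_assoc, div_self h0, mul_one]

/-! ### the boosted map -/

/-- the boosted map -/
def bm (a : Fin n → ℝ) (X : E n → Vec n) (z : E n) : Vec n := bst (-a) (X (phi a z))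

lemma sm_comp (h : IsMap X) (c : Fin (n + 1)) : Sm fun z => X (phi a z) c := fun z hz =>
  ContDiffAt.comp z (h.smooth c (phi a z) (phi_ne hz)) (phi_cd a hz)

lemma sm_bst {Y : E n → Vec n} (h : ∀ c, Sm fun z => Y z c) (c : Fin (n + 1)) :
    Sm fun z => bst a (Y z) c := by
  have s1 : Sm fun z => ∑ i : Fin n, a i * Y z i.succ := Sm.sum _ fun i => (Sm.const _).mul (h _)
  refine Fin.cases ?_ (fun i => ?_) c
  · exact ((Sm.const _).mul (h 0)).add s1
  · exact (h _).add (((s1.div (Sm.const _) fun _ _ => by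
      have := e0_pos a; positivity).add (h 0)).mul (Sm.const _))

lemma isMap_bm (h : IsMap X) : IsMap (bm a X) where
  smooth c := sm_bst (a := -a) (fun c => sm_comp (a := a) h c) c
  hom z hz r hr := by
    unfold bm
    rw [phi_smul hr, h.hom _ (phi_ne hz) r hr]

lemma pd_bst {Y : E n → Vec n} (h : ∀ c, Sm fun z => Y z c) (hz : z ≠ 0) (j : Fin n)
    (c : Fin (n + 1)) :
    pd j (fun y => bst a (Y y) c) z = bst a (fun d => pd j (fun y => Y y d) z) c := by
  have s1 : Sm fun z => ∑ i : Fin n, a i * Y z i.succ := Sm.sum _ fun i => (Sm.const _).mul (h _)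
  have p1 : pd j (fun z => ∑ i : Fin n, a i * Y z i.succ) z =
      ∑ i : Fin n, a i * pd j (fun y => Y y i.succ) z := by
    rw [pd_sum' _ (fun i => (Sm.const _).mul (h _)) hz]
    exact Finset.sum_congr rfl fun i _ => pd_cmul' (h _) _ hz j
  refine Fin.cases ?_ (fun i => ?_) c
  · show pd j (fun y => e0 a * Y y 0 + ∑ i : Fin n, a i * Y y i.succ) z = _
    rw [pd_add' ((Sm.const _).mul (h 0)) s1 hz, pd_cmul' (h 0) _ hz, p1]
    rfl
  · have e : (fun y => bst a (Y y) i.succ) = fun y => Y y i.succ +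
        (a i / (1 + e0 a) * (∑ i : Fin n, a i * Y y i.succ) + a i * Y y 0) := by
      funext y
      rw [bst_succ]
      unfold cv
      ring
    rw [e, pd_add' (h _) (((Sm.const _).mul s1).add ((Sm.const _).mul (h 0))) hz,
      pd_add' ((Sm.const _).mul s1) ((Sm.const _).mul (h 0)) hz, pd_cmul' s1 _ hz,
      pd_cmul' (h 0) _ hz, p1, bst_succ]
    unfold cv
    ring

lemma dd_bm (h : IsMap X) (hz : z ≠ 0) (j : Fin n) :
    dd j (bm a X) z = fun c => ∑ k, Mx a z k j * bst (-a) (dd k X (phi a z)) c := by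
  ext c
  rw [← bst_lin, dd_eq]
  show pd j (fun y => bst (-a) (X (phi a y)) c) z = _
  rw [pd_bst (fun c => sm_comp (a := a) h c) hz]
  congr 1
  ext d
  exact pd_comp (phi_diff a hz) ((h.sm d).diff (phi_ne hz)) j

lemma gram_bm (hX : IsMap X) (hZ : IsMap Z) (hz : z ≠ 0) :
    gram (bm a X) (bm a Z) z = (Mx a z)ᵀ * gram X Z (phi a z) * Mx a z := by
  ext i j
  show mink (dd i (bm a X) z) (dd j (bm a Z) z) = _
  rw [dd_bm hX hz, dd_bm hZ hz, mink_lin_left]
  simp only [mink_lin_right, mink_bst]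
  rw [mul_apply]
  simp only [mul_apply, transpose_apply]
  rw [show ∑ k, Mx a z k i * ∑ l, Mx a z l j * mink (dd k X (phi a z)) (dd l Z (phi a z)) =
    ∑ l, (∑ k, Mx a z k i * mink (dd k X (phi a z)) (dd l Z (phi a z))) * Mx a z l j from ?_]
  · rfl
  · simp only [Finset.mul_sum, Finset.sum_mul]
    rw [Finset.sum_comm]
    exact Finset.sum_congr rfl fun l _ => Finset.sum_congr rfl fun k _ => by ring

/-- products with a multiple of a normal field -/
lemma gram_mul {r : E n → ℝ} {Y W : E n → Vec n} (hr : Sm r) (hW : ∀ c, Sm fun z => W z c)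
    (e : ∀ y : E n, y ≠ 0 → Y y = r y • W y) (hz : z ≠ 0) (hn : ∀ i, mink (dd i X z) (W z) = 0) :
    gram X Y z = r z • gram X W z := by
  ext i j
  show mink (dd i X z) (dd j Y z) = r z * mink (dd i X z) (dd j W z)
  have e1 : dd j Y z = fun c => r z * dd j W z c + pd j r z * W z c := by
    ext c
    rw [dd_eq, dd_eq, pd_congr' (f := fun y => r y * W y c) (fun y hy => by rw [e y hy]; rfl) hz,
      pd_mul' hr (hW c) hz]
  have h1 := hn i
  unfold mink at h1 ⊢
  rw [e1]
  have e2 : ∑ m : Fin n, dd i X z m.succ * (r z * dd j W z m.succ + pd j r z * W z m.succ) =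
      r z * (∑ m : Fin n, dd i X z m.succ * dd j W z m.succ) +
        pd j r z * ∑ m : Fin n, dd i X z m.succ * W z m.succ := by
    simp only [Finset.mul_sum, ← Finset.sum_add_distrib]
    exact Finset.sum_congr rfl fun m _ => by ring
  rw [e2]
  linear_combination (pd j r z) * h1

lemma isMap_kv : IsMap (kv (n := n)) where
  smooth c := by
    refine Fin.cases ?_ (fun i => ?_) c
    · exact fun x _ => contDiffAt_const
    · intro x hx
      have : (fun y : E n => kv y i.succ) = fun y => - Nc i y := funext fun y => kv_succ y i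
      rw [this]
      exact (sm_Nc i).neg x hx
  hom z _ r hr := kv_smul hr z

lemma normal_bm (hX : IsMap X) (hz : z ≠ 0) (i : Fin n) (hn : ∀ k, mink (dd k X (phi a z)) (Z (phi a z)) = 0) :
    mink (dd i (bm a X) z) (bm a Z z) = 0 := by
  rw [dd_bm hX hz, mink_lin_left]
  unfold bm
  simp only [mink_bst, hn, mul_zero, Finset.sum_const_zero]

lemma kv_eq (a : Fin n → ℝ) (hz : z ≠ 0) : kv z = (rt a z)⁻¹ • bm a kv z := by
  unfold bm
  rw [bst_kv_phi a hz, smul_smul, inv_mul_cancel₀ (rt_pos hz).ne', one_smul]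

theorem isSurface_bm (h : IsSurface X) : IsSurface (bm a X) where
  toIsMap := isMap_bm h.toIsMap
  normal z hz i := by
    rw [kv_eq a hz, mink_smul_right, normal_bm h.toIsMap hz i fun k => h.normal _ (phi_ne hz) k,
      mul_zero]
  regular z hz v hv hvz := by
    have hr := rt_pos (a := a) hz
    have h1 : gram (bm a X) kv z = (rt a z)⁻¹ • ((Mx a z)ᵀ * gram X kv (phi a z) * Mx a z) := by
      rw [gram_mul (r := fun y => (rt a y)⁻¹) (W := bm a kv)
        ((sm_ratio a).inv fun y hy => (rt_pos hy).ne') (fun c => (isMap_bm isMap_kv).sm c)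
        (fun y hy => kv_eq a hy) hz
        (fun i => normal_bm h.toIsMap hz i fun k => h.normal _ (phi_ne hz) k),
        gram_bm h.toIsMap isMap_kv hz]
    set w := Mx a z *ᵥ v with hw
    have hw0 : w ≠ 0 := by
      intro h0
      apply hv
      have : (Mx a z)⁻¹ *ᵥ w = v := by
        rw [hw, mulVec_mulVec, nonsing_inv_mul _ (Mx_unit a hz), one_mulVec]
      rw [← this, h0, mulVec_zero]
    have hwz : ∑ i, w i * phi a z i = 0 := by
      have h2 : (fun k => phi a z k) ⬝ᵥ w = 0 := by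
        rw [hw, dotProduct_mulVec, z_Mx a hz, ← hvz]
        exact Finset.sum_congr rfl fun i _ => mul_comm _ _
      rw [← h2]
      exact Finset.sum_congr rfl fun i _ => mul_comm _ _
    have h3 := h.regular _ (phi_ne (a := a) hz) w hw0 hwz
    have h4 : ∑ i, ∑ j, gram (bm a X) kv z i j * v i * v j =
        (rt a z)⁻¹ * ∑ i, ∑ j, gram X kv (phi a z) i j * w i * w j := by
      have e1 : ∀ (P : Matrix (Fin n) (Fin n) ℝ) (u : Fin n → ℝ),
          ∑ i, ∑ j, P i j * u i * u j = u ⬝ᵥ (P *ᵥ u) := by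
        intro P u
        simp only [dotProduct, mulVec, Finset.mul_sum]
        exact Finset.sum_congr rfl fun i _ => Finset.sum_congr rfl fun j _ => by ring
      rw [e1, e1, h1, smul_mulVec, dotProduct_smul, smul_eq_mul, hw]
      congr 1
      rw [← mulVec_mulVec, ← mulVec_mulVec, dotProduct_mulVec, vecMul_transpose]
    rw [h4]
    exact mul_neg_of_pos_of_neg (inv_pos.mpr hr) h3

/-- the boosted null normal -/
def bl (a : Fin n → ℝ) (L : E n → Vec n) (z : E n) : Vec n := rt a z • bm a L z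

theorem isNormal_bl (hL : IsNormal X L) (hX : IsMap X) : IsNormal (bm a X) (bl a L) where
  smooth c := by
    have : Sm fun z => rt a z * bm a L z c := (sm_ratio a).mul ((isMap_bm hL.toIsMap).sm c)
    exact this
  hom z hz r hr := by
    unfold bl
    rw [(isMap_bm hL.toIsMap).hom z hz r hr]
    have := hom_ratio a z hz r hr
    rw [zpow_zero, one_mul] at this
    show rt a (r • z) • _ = _
    rw [show rt a (r • z) = rt a z from this]
  null z hz := by
    unfold bl bm
    rw [mink_smul_left, mink_smul_right, mink_bst, hL.null _ (phi_ne hz)]; ring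
  normal z hz i := by
    unfold bl
    rw [mink_smul_right, normal_bm hX hz i fun k => hL.normal _ (phi_ne hz) k, mul_zero]
  cross z hz := by
    have hr := (rt_pos (a := a) hz).ne'
    rw [kv_eq a hz]
    unfold bl bm
    rw [mink_smul_left, mink_smul_right, mink_bst, hL.cross _ (phi_ne hz)]
    field_simp

/-! ### area and null expansion of the boosted surface -/

lemma met_bm (hX : IsMap X) (hx : ‖x‖ = 1) :
    met (bm a X) x = (Mx a x)ᵀ * met X (phi a x) * Mx a x := by
  have h0 := ne_zero_of_one hx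
  have h1 := z_Mx a h0
  unfold met
  rw [gram_bm hX hX h0, mul_add, add_mul]
  congr 1
  have e : (Matrix.of fun i j => phi a x i * phi a x j) =
      vecMulVec (fun k => phi a x k) fun k => phi a x k := rfl
  have e2 : (Matrix.of fun i j => x i * x j) = vecMulVec (fun k => x k) fun k => x k := rfl
  rw [e, e2, mul_vecMulVec, vecMulVec_mul, h1, ← vecMul_transpose, transpose_transpose, h1]

lemma dens_bm (hX : IsMap X) (hx : ‖x‖ = 1) :
    dens (bm a X) x = |(Mx a x).det| * dens X (phi a x) := by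
  unfold dens
  rw [met_bm hX hx, det_mul, det_mul, det_transpose,
    show (Mx a x).det * (met X (phi a x)).det * (Mx a x).det =
      (Mx a x).det ^ 2 * (met X (phi a x)).det by ring,
    Real.sqrt_mul (sq_nonneg _), Real.sqrt_sq_eq_abs]

lemma met_symm (X : E n → Vec n) (x : E n) : (met X x)ᵀ = met X x := by
  ext i j
  show mink (dd j X x) (dd i X x) + x j * x i = mink (dd i X x) (dd j X x) + x i * x j
  rw [mink_comm]; ring

theorem theta_bm (hX : IsMap X) (hL : IsNormal X L) (hx : ‖x‖ = 1) :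
    theta (bm a X) (bl a L) x = rt a x * theta X L (phi a x) := by
  have h0 := ne_zero_of_one hx
  have h1 : gram (bm a X) (bl a L) x = rt a x • ((Mx a x)ᵀ * gram X L (phi a x) * Mx a x) := by
    rw [gram_mul (r := rt a) (Y := bl a L) (W := bm a L) (sm_ratio a) (fun c => (isMap_bm hL.toIsMap).sm c)
      (fun y _ => rfl) h0 (fun i => normal_bm hX h0 i fun k => hL.normal _ (phi_ne h0) k),
      gram_bm hX hL.toIsMap h0]
  have s1 : ((met (bm a X) x)⁻¹)ᵀ = (met (bm a X) x)⁻¹ := by
    rw [transpose_nonsing_inv, met_symm]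
  have s2 : ((met X (phi a x))⁻¹)ᵀ = (met X (phi a x))⁻¹ := by
    rw [transpose_nonsing_inv, met_symm]
  unfold theta
  rw [ip_eq_trace s1, ip_eq_trace s2, h1, met_bm hX hx]
  have hM := Mx_unit a h0
  have hMT : IsUnit (Mx a x)ᵀ.det := by rw [det_transpose]; exact hM
  set M := Mx a x
  set K := met X (phi a x)
  set B := gram X L (phi a x)
  rw [Matrix.mul_smul, trace_smul, smul_eq_mul, Matrix.mul_inv_rev, Matrix.mul_inv_rev]
  congr 1
  have e : M⁻¹ * (K⁻¹ * Mᵀ⁻¹) * (Mᵀ * B * M) = M⁻¹ * (K⁻¹ * B * M) := by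
    calc M⁻¹ * (K⁻¹ * Mᵀ⁻¹) * (Mᵀ * B * M) = M⁻¹ * (K⁻¹ * ((Mᵀ⁻¹ * Mᵀ) * B) * M) := by
          simp only [Matrix.mul_assoc]
      _ = _ := by rw [nonsing_inv_mul _ hMT, one_mul]
  rw [e, trace_mul_comm, Matrix.mul_assoc, mul_nonsing_inv _ hM, mul_one]

end Vale.Agent.P366.Shell
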