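import Mathlib
import Vale.Agent.P366.H353.N.Main
import Vale.Agent.P366.H381.NH0
import Vale.Agent.P366.H745.N1d
import Vale.Agent.P366.H745.N2c

/-! Surfaces in Minkowski space: the inequality. -/

open MeasureTheory Metric Filter Topology Set
open scoped ContDiff

noncomputable section
namespace Vale.Agent.P366.Shell

open Vale.Agent.P366 (sphI sphM pd Nc pd_Nc sum_Nc_sq)
open Vale.Agent.P366.H353.N

variable {n : ℕ} {X L : E n → Vec n} {x : E n} {a : Fin n → ℝ}

lemma sint_eq (f : E n → ℝ) : sint f = SI f := rfl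

lemma omega_eq (n : ℕ) : omega n = om n := rfl

/-- `θ_L` times the area element -/
def qq (X L : E n → Vec n) (x : E n) : ℝ := theta X L x * dens X x

section

variable [Fact (3 ≤ n)]

lemma qq_contOn (h : IsSurface X) (hL : IsNormal X L) : ContinuousOn (qq X L) (sphere (0 : E n) 1) := by
  obtain ⟨T, hTA, hTb, -⟩ := toTen (dat h)
  have sA := T.smA
  have sb := T.smb
  have sN : Sm fun x => ∑ i, T.b x i ^ 2 := Sm.sum _ fun i => (sb i).pow 2
  have sT : Sm fun x => H353.N.tr (T.A x) := Sm.sum _ fun i => sA i i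
  have s1 : Sm fun x => ∑ i, ∑ j, T.A x i j * pd i (fun y => T.b y j) x :=
    Sm.sum _ fun i => Sm.sum _ fun j => (sA i j).mul ((sb j).pd i)
  have s2 : Sm fun x => qf (T.A x) (T.b x) (T.b x) :=
    Sm.sum _ fun i => Sm.sum _ fun j => ((sA i j).mul (sb i)).mul (sb j)
  have s3 : Sm fun x => (1 - ∑ i, T.b x i ^ 2) * H353.N.tr (T.A x) -
      2 * (∑ i, ∑ j, T.A x i j * pd i (fun y => T.b y j) x) + 2 * qf (T.A x) (T.b x) (T.b x) :=
    ((((Sm.const 1).sub sN).mul sT).sub ((Sm.const 2).mul s1)).add ((Sm.const 2).mul s2)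
  exact s3.contOn.congr fun x hx => theta_dens h T hTA hTb hL (by simpa using hx)

lemma dens_contOn (h : IsSurface X) : ContinuousOn (dens X) (sphere (0 : E n) 1) := by
  obtain ⟨T, hTA, hTb, -⟩ := toTen (dat h)
  have hM : Sm fun x => ((dat h).M x).det := by
    have := fun i j => (Sm.norm.mul ((sm_Hf h.toIsMap).hs i j)).add ((sm_Uf h.toIsMap).mul
      ((Sm.const (kd i j)).sub (((Sm.coord i).mul (Sm.coord j)).div (Sm.norm.pow 2)
        fun y hy => pow_ne_zero 2 (norm_ne_zero_iff.mpr hy))))
    exact Sm.det (M := fun i j x => (dat h).W x i j + x i * x j / ‖x‖ ^ 2) fun i j =>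
      (this i j).add (((Sm.coord i).mul (Sm.coord j)).div (Sm.norm.pow 2)
        fun y hy => pow_ne_zero 2 (norm_ne_zero_iff.mpr hy))
  exact hM.contOn.congr fun x hx => dens_eq h (by simpa using hx)

omit [Fact (3 ≤ n)] in
lemma area_eq (h : IsSurface X) : area X = SI (dat h).dt := SI_congr fun _ hx => dens_eq h hx

lemma area_pos (h : IsSurface X) : 0 < area X := by
  have hc := dens_contOn h
  have hpos : ∀ x : E n, ‖x‖ = 1 → 0 < dens X x := fun x hx => by
    rw [dens_eq h hx]; exact M_det_pos h hx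
  have hn3 := Fact.out (p := 3 ≤ n)
  have hne : (sphere (0 : E n) 1).Nonempty :=
    ⟨EuclideanSpace.single (⟨0, by omega⟩ : Fin n) 1, by simp⟩
  obtain ⟨x0, hx0, hmin⟩ := (isCompact_sphere (0 : E n) 1).exists_isMinOn hne hc
  have h0 := hpos x0 (by simpa using hx0)
  have h1 : SI (fun _ : E n => dens X x0) ≤ SI (dens X) :=
    SI_mono continuousOn_const hc fun x hx => hmin (by simpa using hx)
  rw [SI_const] at h1
  have h2 := om_pos (n := n)
  show 0 < SI (dens X)
  have : 0 < om n * dens X x0 := by positivity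
  linarith

/-- The inequality in the frame of the parametrisation. -/
theorem base (h : IsSurface X) (hL : IsNormal X L) :
    0 ≤ SI (qq X L) ∧
      ((n : ℝ) - 1) ^ (n - 1) * om n * area X ^ (n - 2) ≤ SI (qq X L) ^ (n - 1) := by
  obtain ⟨T, hTA, hTb, -⟩ := toTen (dat h)
  have h1 := main (dat h)
  have h2 := Phi_le h T hTA hTb hL
  have h3 : 0 ≤ SI (dat h).Phi := by
    refine SI_nonneg fun x hx => ?_
    have h0 := ne_zero_of_one hx
    have hP : (dat h).Phi x = T.Phi x := by
      unfold Dat.Phi Ten.Phi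
      rw [hTA, hTb]
    have hA : ∀ v : Fin n → ℝ, 0 ≤ qf (T.A x) v v := by
      intro v
      have hxx := sum_xx hx
      set c := ∑ i, x i * v i with hc
      set t : Fin n → ℝ := fun i => v i - c * x i with ht
      have hxt : ∑ i, x i * t i = 0 := by
        have e : ∑ i, x i * t i = ∑ i, x i * v i - c * ∑ i, x i * x i := by
          rw [Finset.mul_sum, ← Finset.sum_sub_distrib]
          exact Finset.sum_congr rfl fun i _ => by rw [ht]; ring
        rw [e, hxx, ← hc]; ring
      have hq : qf (T.A x) v v = qf (T.A x) t t := by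
        have hAx := T.tanA x h0
        have e1 : ∀ u w : Fin n → ℝ, qf (T.A x) u w = ∑ i, u i * ∑ j, T.A x i j * w j := by
          intro u w
          unfold qf
          refine Finset.sum_congr rfl fun i _ => ?_
          rw [Finset.mul_sum]
          exact Finset.sum_congr rfl fun j _ => by ring
        have e2 : ∀ i, ∑ j, T.A x i j * t j = ∑ j, T.A x i j * v j := by
          intro i
          have e : ∑ j, T.A x i j * t j = ∑ j, T.A x i j * v j - c * ∑ j, T.A x i j * x j := by
            rw [Finset.mul_sum, ← Finset.sum_sub_distrib]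
            exact Finset.sum_congr rfl fun j _ => by rw [ht]; ring
          rw [e, hAx i]; ring
        rw [e1, e1]
        simp only [e2]
        have e3 : ∑ i, x i * ∑ j, T.A x i j * v j = 0 := by
          have e4 : ∑ i, x i * ∑ j, T.A x i j * v j = ∑ j, (∑ i, T.A x j i * x i) * v j := by
            simp only [Finset.mul_sum, Finset.sum_mul]
            rw [Finset.sum_comm]
            exact Finset.sum_congr rfl fun i _ => Finset.sum_congr rfl fun j _ => by
              rw [T.symA x j i]; ring
          rw [e4]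
          simp only [hAx, zero_mul, Finset.sum_const_zero]
        have e5 : ∑ i, t i * ∑ j, T.A x i j * v j = ∑ i, v i * (∑ j, T.A x i j * v j) -
            c * ∑ i, x i * ∑ j, T.A x i j * v j := by
          rw [Finset.mul_sum, ← Finset.sum_sub_distrib]
          exact Finset.sum_congr rfl fun i _ => by rw [ht]; ring
        rw [e5, e3]; ring
      rw [hq]
      by_cases h0t : t = 0
      · rw [h0t]; simp [qf]
      · exact (T.posA x hx t hxt h0t).le
    have hb := H353.N.D208.qf_le_tr (T.symA x) hA (T.b x)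
    have htr : 0 ≤ H353.N.tr (T.A x) := by
      unfold H353.N.tr
      refine Finset.sum_nonneg fun i _ => ?_
      have := hA (Pi.single i 1)
      simpa [qf, Pi.single_apply] using this
    show 0 ≤ (dat h).Phi x
    rw [hP]
    unfold Ten.Phi
    linarith
  refine ⟨h3.trans h2, ?_⟩
  rw [area_eq h]
  exact h1.trans (pow_le_pow_left₀ h3 h2 _)

/-- The integral of the boosted surface. -/
theorem SI_bm (h : IsSurface X) (hL : IsNormal X L) (a : Fin n → ℝ) :
    SI (qq (bm a X) (bl a L)) = SI (fun x => qq X L x * (e0 a + sp a x)) := by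
  have hc : ContinuousOn (fun x => qq X L x * (e0 a + sp a x)) (sphere (0 : E n) 1) :=
    (qq_contOn h hL).mul (continuousOn_const.add (sm_sp a).contOn)
  rw [← SI_phi a hc]
  refine SI_congr fun x hx => ?_
  unfold qq
  rw [theta_bm h.toIsMap hL hx, dens_bm h.toIsMap hx, rt_one hx]
  ring

/-- The area of the boosted surface. -/
theorem area_bm (h : IsSurface X) (a : Fin n → ℝ) : area (bm a X) = area X := by
  show SI (dens (bm a X)) = SI (dens X)
  rw [← SI_phi a (dens_contOn h)]
  exact SI_congr fun x hx => dens_bm h.toIsMap hx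

/-- The inequality in every frame. -/
theorem frame (h : IsSurface X) (hL : IsNormal X L) (a : Fin n → ℝ) :
    0 ≤ SI (fun x => qq X L x * (e0 a + sp a x)) ∧
      ((n : ℝ) - 1) ^ (n - 1) * om n * area X ^ (n - 2) ≤
        SI (fun x => qq X L x * (e0 a + sp a x)) ^ (n - 1) := by
  have := base (isSurface_bm (a := a) h) (isNormal_bl hL h.toIsMap)
  rwa [SI_bm h hL, area_bm h] at this

/-- The energy in every frame. -/
theorem frame_val (h : IsSurface X) (hL : IsNormal X L) (a : Fin n → ℝ) :
    e0 a * mom X L 0 - ∑ i : Fin n, a i * mom X L i.succ =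
      SI (fun x => qq X L x * (e0 a + sp a x)) / (2 * (n - 1) * om n) := by
  have hq := qq_contOn h hL
  set I := SI (fun x => qq X L x * (e0 a + sp a x)) with hI
  have k0 : mom X L 0 = SI (qq X L) / (2 * (n - 1) * om n) := by
    unfold mom
    rw [sint_eq, omega_eq]
    congr 1
    exact SI_congr fun x _ => by rw [kv_zero]; unfold qq; ring
  have k1 : ∀ i : Fin n, mom X L i.succ = - SI (fun x => qq X L x * x i) / (2 * (n - 1) * om n) := by
    intro i
    unfold mom
    rw [sint_eq, omega_eq, ← SI_neg]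
    congr 1
    exact SI_congr fun x hx => by rw [kv_succ, Nc_one hx]; unfold qq; ring
  have k2 : I = e0 a * SI (qq X L) + ∑ i : Fin n, a i * SI (fun x => qq X L x * x i) := by
    have c1 : ∀ i : Fin n, ContinuousOn (fun x => qq X L x * x i) (sphere (0 : E n) 1) :=
      fun i => hq.mul (Sm.coord i).contOn
    have c2 : SI (fun x => ∑ i : Fin n, a i * (qq X L x * x i)) =
        ∑ i : Fin n, a i * SI (fun x => qq X L x * x i) := by
      have : SI (fun x => ∑ i : Fin n, a i * (qq X L x * x i)) =
          ∑ i : Fin n, SI (fun x => a i * (qq X L x * x i)) := by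
        unfold SI
        exact integral_finsetSum _ fun i _ => int_sph (continuousOn_const.mul (c1 i))
      rw [this]
      exact Finset.sum_congr rfl fun i _ => SI_cmul _ _
    have c3 : ContinuousOn (fun x => e0 a * qq X L x) (sphere (0 : E n) 1) :=
      continuousOn_const.mul hq
    have c4 : ContinuousOn (fun x : E n => ∑ i : Fin n, a i * (qq X L x * x i))
        (sphere (0 : E n) 1) :=
      continuousOn_finsetSum _ fun i _ => continuousOn_const.mul (c1 i)
    rw [← c2, ← SI_cmul, ← SI_add c3 c4]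
    refine SI_congr fun x _ => ?_
    unfold sp
    rw [mul_add, Finset.mul_sum, mul_comm (qq X L x)]
    congr 1
    exact Finset.sum_congr rfl fun i _ => by ring
  rw [k0, k2]
  simp only [k1]
  rw [add_div, Finset.sum_div]
  have : ∑ i : Fin n, a i * (-SI (fun x => qq X L x * x i) / (2 * (n - 1) * om n)) =
      - ∑ i : Fin n, a i * SI (fun x => qq X L x * x i) / (2 * (n - 1) * om n) := by
    rw [← Finset.sum_neg_distrib]
    exact Finset.sum_congr rfl fun i _ => by ring
  rw [this]
  ring

/-- The power of the area radius. -/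
theorem pow_val (h : IsSurface X) :
    (1 / 2 * (area X / om n) ^ (((n : ℝ) - 2) / ((n : ℝ) - 1)) *
      (2 * (n - 1) * om n)) ^ (n - 1) = ((n : ℝ) - 1) ^ (n - 1) * om n * area X ^ (n - 2) := by
  have hn3 := Fact.out (p := 3 ≤ n)
  have hn : (3 : ℝ) ≤ n := by exact_mod_cast hn3
  have hA := area_pos h
  have hω := om_pos (n := n)
  have h2 : ((area X / om n) ^ (((n : ℝ) - 2) / ((n : ℝ) - 1))) ^ (n - 1) =
      (area X / om n) ^ (n - 2) := by
    rw [← Real.rpow_natCast, ← Real.rpow_natCast, ← Real.rpow_mul (by positivity)]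
    congr 1
    rw [Nat.cast_sub (by omega), Nat.cast_sub (by omega)]
    push_cast
    have : (n : ℝ) - 1 ≠ 0 := by linarith
    field_simp
  have h3 : (1 / 2 * (area X / om n) ^ (((n : ℝ) - 2) / ((n : ℝ) - 1)) *
    (2 * (n - 1) * om n)) = (n - 1) * (om n * (area X / om n) ^ (((n : ℝ) - 2) / ((n : ℝ) - 1))) := by
    ring
  rw [h3, mul_pow, mul_pow, h2, div_pow]
  have h4 : om n ^ (n - 1) = om n ^ (n - 2) * om n := by
    rw [← pow_succ]; congr 1; omega
  rw [h4]
  have : om n ^ (n - 2) ≠ 0 := (pow_pos hω _).ne'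
  field_simp

/-- The bound for the energy in every frame. -/
theorem frame' (h : IsSurface X) (hL : IsNormal X L) (a : Fin n → ℝ) :
    1 / 2 * (area X / omega n) ^ (((n : ℝ) - 2) / ((n : ℝ) - 1)) ≤
      e0 a * mom X L 0 - ∑ i : Fin n, a i * mom X L i.succ := by
  obtain ⟨h0, h1⟩ := frame h hL a
  have hn3 := Fact.out (p := 3 ≤ n)
  have hn : (3 : ℝ) ≤ n := by exact_mod_cast hn3
  have hω := om_pos (n := n)
  rw [frame_val h hL, omega_eq, le_div_iff₀ (by nlinarith)]
  rw [← pow_val h] at h1
  have hne : n - 1 ≠ 0 := by omega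
  have hA := area_pos h
  exact (pow_le_pow_iff_left₀ (by
    have : 0 < (n : ℝ) - 1 := by linarith
    positivity) h0 hne).mp h1

end

/-- From the bound in every frame to the bound for the mass. -/
theorem mass {m e : ℝ} {p : Fin n → ℝ} (hm : 0 < m)
    (h : ∀ a : Fin n → ℝ, m ≤ e0 a * e - ∑ i, a i * p i) :
    √(∑ i, p i ^ 2) < e ∧ m ≤ √(e ^ 2 - ∑ i, p i ^ 2) := by
  set P := √(∑ i, p i ^ 2) with hP
  have hPP : P ^ 2 = ∑ i, p i ^ 2 := Real.sq_sqrt (by positivity)
  have hP0 : 0 ≤ P := Real.sqrt_nonneg _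
  have he : m ≤ e := by
    have := h 0
    simpa [e0] using this
  have key : ∀ t : ℝ, e0 (fun i => t * p i) = √(1 + t ^ 2 * P ^ 2) := by
    intro t
    unfold e0
    congr 2
    rw [hPP, Finset.mul_sum]
    exact Finset.sum_congr rfl fun i _ => by ring
  have key2 : ∀ t : ℝ, ∑ i, t * p i * p i = t * P ^ 2 := by
    intro t
    rw [hPP, Finset.mul_sum]
    exact Finset.sum_congr rfl fun i _ => by ring
  have hlt : P < e := by
    by_contra hcon
    push Not at hcon
    have hPpos : 0 < P := by linarith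
    set t := 1 / m with ht
    have ht0 : 0 < t := by positivity
    have h1 := h fun i => t * p i
    rw [key, key2] at h1
    have h2 : √(1 + t ^ 2 * P ^ 2) ≤ t * P + 1 / (2 * (t * P)) := by
      have htP : 0 < t * P := by positivity
      rw [Real.sqrt_le_left (by positivity)]
      have : (t * P + 1 / (2 * (t * P))) ^ 2 = 1 + t ^ 2 * P ^ 2 + (1 / (2 * (t * P))) ^ 2 := by
        field_simp
        ring
      rw [this]
      have := sq_nonneg (1 / (2 * (t * P)))
      linarith
    have h3 : √(1 + t ^ 2 * P ^ 2) * e ≤ (t * P + 1 / (2 * (t * P))) * P := by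
      have h4 : 0 ≤ √(1 + t ^ 2 * P ^ 2) := Real.sqrt_nonneg _
      calc √(1 + t ^ 2 * P ^ 2) * e ≤ √(1 + t ^ 2 * P ^ 2) * P := by gcongr
        _ ≤ _ := by gcongr
    have h5 : (t * P + 1 / (2 * (t * P))) * P - t * P ^ 2 = m / 2 := by
      rw [ht]
      field_simp
      ring
    linarith
  refine ⟨hlt, ?_⟩
  have hd : 0 < e ^ 2 - P ^ 2 := by nlinarith
  rw [← hPP]
  set s := √(e ^ 2 - P ^ 2) with hs
  have hs0 : 0 < s := Real.sqrt_pos.mpr hd
  have hss : s ^ 2 = e ^ 2 - P ^ 2 := Real.sq_sqrt hd.le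
  have h1 := h fun i => 1 / s * p i
  rw [key, key2] at h1
  have h2 : √(1 + (1 / s) ^ 2 * P ^ 2) = e / s := by
    rw [show 1 + (1 / s) ^ 2 * P ^ 2 = (e / s) ^ 2 by
      field_simp
      rw [hss]; ring]
    exact Real.sqrt_sq (div_nonneg (by linarith) hs0.le)
  rw [h2] at h1
  have h3 : e / s * e - 1 / s * P ^ 2 = s := by
    field_simp
    rw [hss]
  linarith

/-- The inequality. -/
theorem ineq (hn : 3 ≤ n) (h : IsSurface X) (hL : IsNormal X L) :
    √(∑ i : Fin n, mom X L i.succ ^ 2) < mom X L 0 ∧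
      1 / 2 * (area X / omega n) ^ (((n : ℝ) - 2) / ((n : ℝ) - 1)) ≤
        √(mom X L 0 ^ 2 - ∑ i : Fin n, mom X L i.succ ^ 2) := by
  have : Fact (3 ≤ n) := ⟨hn⟩
  have hA := area_pos h
  have hω : 0 < omega n := by rw [omega_eq]; exact om_pos
  exact mass (p := fun i => mom X L i.succ) (by positivity) fun a => frame' h hL a

end Vale.Agent.P366.Shell
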