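import Mathlib
import Vale.Agent.P366.H381.NH0
import Vale.Agent.P366.H745.N1c

/-! Surfaces in Minkowski space: existence of the other null normal. -/

open MeasureTheory Metric Filter Topology Set
open scoped ContDiff

noncomputable section
namespace Vale.Agent.P366.Shell

open Vale.Agent.P366 (sphI sphM pd Nc pd_Nc sum_Nc_sq)
open Vale.Agent.P366.H353.N
open Matrix

variable {n : ℕ} {X : E n → Vec n} {x : E n}

/-- The other null normal exists. -/
theorem exists_normal [Fact (3 ≤ n)] (h : IsSurface X) : ∃ L, IsNormal X L := by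
  obtain ⟨T, hTA, hTb, -⟩ := toTen (dat h)
  have sN : Sm fun y => ∑ i, T.b y i ^ 2 := Sm.sum _ fun i => (T.smb i).pow 2
  set L : E n → Vec n := fun y => Fin.cons (1 + ∑ i, T.b y i ^ 2)
    fun m => (1 - ∑ i, T.b y i ^ 2) * Nc m y - 2 * T.b y m with hL
  have L0 : ∀ y, L y 0 = 1 + ∑ i, T.b y i ^ 2 := fun _ => rfl
  have Lm : ∀ y (m : Fin n), L y m.succ = (1 - ∑ i, T.b y i ^ 2) * Nc m y - 2 * T.b y m :=
    fun _ _ => rfl
  have hmap : IsMap L := by
    refine ⟨fun c => ?_, fun y hy r hr => ?_⟩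
    · refine Fin.cases ?_ (fun m => ?_) c
      · exact (Sm.const 1).add sN
      · exact (((Sm.const 1).sub sN).mul (sm_Nc m)).sub ((Sm.const 2).mul (T.smb m))
    · have h1 : ∀ i, T.b (r • y) i = T.b y i := fun i => by
        have := T.homb i y hy r hr
        simpa using this
      have h2 : ∀ i, Nc i (r • y) = Nc i y := fun i => by
        have := hom_Nc i y hy r hr
        simpa using this
      ext c
      refine Fin.cases ?_ (fun m => ?_) c
      · rw [L0, L0]; simp only [h1]
      · rw [Lm, Lm]; simp only [h1, h2]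
  have tan : ∀ y : E n, y ≠ 0 → ∑ i, Nc i y * T.b y i = 0 := fun y hy => T_tanb h T hTb hy
  have nn : ∀ y : E n, y ≠ 0 → ∑ i, Nc i y * Nc i y = 1 := fun y hy => by
    rw [← sum_Nc_sq hy]
    exact Finset.sum_congr rfl fun i _ => by ring
  -- unit vectors
  have unit : ∀ y : E n, ‖y‖ = 1 → ∀ i, mink (dd i X y) (L y) = 0 := by
    intro y hy i
    have h0 := ne_zero_of_one hy
    have hW := W_x h hy i
    have hxx := sum_xx hy
    have hb : ∑ m, y m * T.b y m = 0 := T.tanb y h0
    have hMb := congrFun (M_b h hy) i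
    simp only [mulVec, dotProduct] at hMb
    rw [← hTb] at hMb
    have hWb : ∑ m, ((dat h).M y - xx y) i m * T.b y m = pd i (Uf X) y := by
      have e : ∑ m, ((dat h).M y - xx y) i m * T.b y m =
          ∑ m, (dat h).M y i m * T.b y m - y i * ∑ m, y m * T.b y m := by
        rw [Finset.mul_sum, ← Finset.sum_sub_distrib]
        exact Finset.sum_congr rfl fun m _ => by rw [Matrix.sub_apply, xx_apply]; ring
      rw [e, hMb, hb]; ring
    unfold mink
    rw [dX_zero, L0]
    simp only [dX_succ h hy, Lm, Nc_one hy]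
    set N := ∑ i, T.b y i ^ 2
    have e : ∑ m, (((dat h).M y - xx y) i m + y m * pd i (Uf X) y) *
        ((1 - N) * y m - 2 * T.b y m) =
        (1 - N) * (∑ m, ((dat h).M y - xx y) i m * y m) -
        2 * (∑ m, ((dat h).M y - xx y) i m * T.b y m) +
        pd i (Uf X) y * (1 - N) * (∑ m, y m * y m) -
        2 * pd i (Uf X) y * ∑ m, y m * T.b y m := by
      simp only [Finset.mul_sum, ← Finset.sum_add_distrib, ← Finset.sum_sub_distrib]
      exact Finset.sum_congr rfl fun m _ => by ring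
    rw [e, hW, hWb, hxx, hb]
    ring
  refine ⟨L, ⟨hmap, fun y hy => ?_, fun y hy i => ?_, fun y hy => ?_⟩⟩
  · unfold mink
    rw [L0]
    simp only [Lm]
    set N := ∑ i, T.b y i ^ 2 with hN
    have e : ∑ m : Fin n, ((1 - N) * Nc m y - 2 * T.b y m) * ((1 - N) * Nc m y - 2 * T.b y m) =
        (1 - N) ^ 2 * (∑ m, Nc m y * Nc m y) - 4 * (1 - N) * (∑ m, Nc m y * T.b y m) +
          4 * ∑ m, T.b y m ^ 2 := by
      simp only [Finset.mul_sum, ← Finset.sum_add_distrib, ← Finset.sum_sub_distrib]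
      exact Finset.sum_congr rfl fun m _ => by ring
    rw [e, nn y hy, tan y hy, ← hN]
    ring
  · have hr : 0 < ‖y‖⁻¹ := inv_pos.mpr (norm_pos_iff.mpr hy)
    have hu : ‖‖y‖⁻¹ • y‖ = 1 := by
      rw [norm_smul, norm_inv, norm_norm, inv_mul_cancel₀ (norm_ne_zero_iff.mpr hy)]
    have h1 := unit _ hu i
    rw [hmap.hom y hy _ hr] at h1
    have h2 : dd i X (‖y‖⁻¹ • y) = ‖y‖ • dd i X y := by
      ext c
      have := (h.toIsMap.hm c).pd (h.toIsMap.sm c) i y hy _ hr
      rw [dd_eq, this]
      simp [dd_eq]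
    rw [h2] at h1
    have h3 : mink (‖y‖ • dd i X y) (L y) = ‖y‖ * mink (dd i X y) (L y) := by
      unfold mink
      simp only [Pi.smul_apply, smul_eq_mul, mul_sub, Finset.mul_sum]
      congr 1
      · exact Finset.sum_congr rfl fun _ _ => by ring
      · ring
    rw [h3] at h1
    exact (mul_eq_zero.mp h1).resolve_left (norm_ne_zero_iff.mpr hy)
  · rw [mink_kv, L0]
    simp only [Lm]
    set N := ∑ i, T.b y i ^ 2
    have e : ∑ m : Fin n, ((1 - N) * Nc m y - 2 * T.b y m) * Nc m y =
        (1 - N) * (∑ m, Nc m y * Nc m y) - 2 * (∑ m, Nc m y * T.b y m) := by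
      simp only [Finset.mul_sum, ← Finset.sum_sub_distrib]
      exact Finset.sum_congr rfl fun m _ => by ring
    rw [e, nn y hy, tan y hy]
    ring

end Vale.Agent.P366.Shell
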