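import Mathlib
import Vale.Agent.P366.H745.N2d
import Vale.Agent.P366.H745.N2e

/-! The inequality for the energy-momentum vector of a null shell in terms of the support function
and the time function. -/

open MeasureTheory Metric Filter Topology Set
open scoped ContDiff

noncomputable section
namespace Vale.Agent.P366.Shell

open Vale.Agent.P366 (sphI sphM pd Nc pd_Nc sum_Nc_sq)
open Vale.Agent.P366.H353.N

variable {n : ℕ} {x : E n}

/-- the surface with the support function `D.H` and the time function `- D.U` -/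
def surf (D : Dat n) (y : E n) : Vec n := Fin.cons (- D.U y) fun i => pd i D.H y + D.U y * Nc i y

lemma surf_zero (D : Dat n) (y : E n) : surf D y 0 = - D.U y := rfl

lemma surf_succ (D : Dat n) (y : E n) (i : Fin n) :
    surf D y i.succ = pd i D.H y + D.U y * Nc i y := rfl

lemma nn (hx : x ≠ 0) : ∑ i, Nc i x * Nc i x = 1 := by
  rw [← sum_Nc_sq hx]
  exact Finset.sum_congr rfl fun i _ => by ring

lemma isMap_surf (D : Dat n) : IsMap (surf D) where
  smooth c := by
    refine Fin.cases ?_ (fun i => ?_) c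
    · exact D.smU.neg
    · exact (D.smH.pd i).add (D.smU.mul (sm_Nc i))
  hom y hy r hr := by
    ext c
    refine Fin.cases ?_ (fun i => ?_) c
    · rw [surf_zero, surf_zero]
      have := D.homU y hy r hr
      rw [this]; simp
    · rw [surf_succ, surf_succ]
      have h1 := D.homU y hy r hr
      have h2 := (D.homH.pd D.smH i) y hy r hr
      have h3 := hom_Nc i y hy r hr
      rw [h1, h2, h3]
      norm_num

lemma hs_Nc (D : Dat n) (hx : x ≠ 0) (i : Fin n) : ∑ m, hs D.H i m x * x m = 0 := by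
  have h1 := (D.homH.pd D.smH i).euler (D.smH.pd i) hx
  rw [show ((1 - 1 : ℤ) : ℝ) * pd i D.H x = 0 by norm_num] at h1
  rw [← h1]
  refine Finset.sum_congr rfl fun j _ => ?_
  rw [hs_symm D.smH hx i j]
  unfold hs
  ring

lemma pd_surf (D : Dat n) (hx : x ≠ 0) (i m : Fin n) :
    dd i (surf D) x m.succ = hs D.H i m x + D.U x * ((kd i m - Nc i x * Nc m x) / ‖x‖) +
      pd i D.U x * Nc m x := by
  rw [dd_eq]
  show pd i (fun y => pd m D.H y + D.U y * Nc m y) x = _
  rw [pd_add' (D.smH.pd m) (D.smU.mul (sm_Nc m)) hx, pd_mul' D.smU (sm_Nc m) hx, pd_Nc' hx]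
  unfold hs
  ring

lemma pd_surf0 (D : Dat n) (x : E n) (i : Fin n) : dd i (surf D) x 0 = - pd i D.U x := by
  rw [dd_eq]
  exact pd_neg' i

theorem isSurface_surf (D : Dat n) : IsSurface (surf D) where
  toIsMap := isMap_surf D
  normal x hx i := by
    have h0 : ‖x‖ ≠ 0 := norm_ne_zero_iff.mpr hx
    rw [mink_kv, pd_surf0]
    simp only [pd_surf D hx]
    have e : ∑ m, (hs D.H i m x + D.U x * ((kd i m - Nc i x * Nc m x) / ‖x‖) +
        pd i D.U x * Nc m x) * Nc m x = (∑ m, hs D.H i m x * x m) / ‖x‖ +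
        D.U x / ‖x‖ * ((∑ m, kd i m * Nc m x) - Nc i x * ∑ m, Nc m x * Nc m x) +
        pd i D.U x * ∑ m, Nc m x * Nc m x := by
      rw [Finset.sum_div]
      simp only [Finset.mul_sum, ← Finset.sum_add_distrib, ← Finset.sum_sub_distrib]
      exact Finset.sum_congr rfl fun m _ => by
        have : x m / ‖x‖ = Nc m x := rfl
        rw [mul_div_assoc, this]; ring
    rw [e, hs_Nc D hx, nn hx, kd_mul]
    ring
  regular x hx v hv hvx := by
    have h0 : 0 < ‖x‖ := norm_pos_iff.mpr hx
    have hr : 0 < ‖x‖⁻¹ := inv_pos.mpr h0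
    have hu : ‖‖x‖⁻¹ • x‖ = 1 := by
      rw [norm_smul, norm_inv, norm_norm, inv_mul_cancel₀ h0.ne']
    have hxv : ∑ i, x i * v i = 0 := by
      rw [← hvx]; exact Finset.sum_congr rfl fun i _ => mul_comm _ _
    have hNv : ∑ i, Nc i x * v i = 0 := by
      have e : ∑ i, Nc i x * v i = (∑ i, x i * v i) / ‖x‖ := by
        rw [Finset.sum_div]
        exact Finset.sum_congr rfl fun i _ => by unfold Nc; ring
      rw [e, hxv, zero_div]
    have hpos := D.pos _ hu v (by
      have e : ∑ i, (‖x‖⁻¹ • x) i * v i = ‖x‖⁻¹ * ∑ i, x i * v i := by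
        rw [Finset.mul_sum]
        exact Finset.sum_congr rfl fun i _ => by simp; ring
      rw [e, hxv, mul_zero]) hv
    have hU : D.U (‖x‖⁻¹ • x) = D.U x := by
      have := D.homU x hx _ hr
      simpa using this
    have hH : ∀ i j, hs D.H i j (‖x‖⁻¹ • x) = ‖x‖ * hs D.H i j x := by
      intro i j
      have := D.homH.hs D.smH i j x hx _ hr
      rw [this]
      norm_num
    rw [hU] at hpos
    have hq : qf (fun i j => hs D.H i j (‖x‖⁻¹ • x)) v v = ‖x‖ * qf (fun i j => hs D.H i j x) v v := by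
      unfold qf
      simp only [Finset.mul_sum, hH]
      exact Finset.sum_congr rfl fun i _ => Finset.sum_congr rfl fun j _ => by ring
    rw [hq] at hpos
    have hk : ∀ j (m : Fin n), dd j kv x m.succ = - ((kd j m - Nc j x * Nc m x) / ‖x‖) := by
      intro j m
      rw [dd_eq, show (fun y : E n => kv y m.succ) = fun y => - Nc m y from funext fun y => kv_succ y m,
        pd_neg' j, pd_Nc' hx]
    have hk0 : ∀ j, dd j kv x 0 = 0 := by
      intro j
      rw [dd_eq, show (fun y : E n => kv y 0) = fun _ => (1 : ℝ) from funext fun y => kv_zero y,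
        Vale.Agent.P366.pd_const]
    have h4 : ∀ i, ∑ j, gram (surf D) kv x i j * v i * v j =
        - (v i * ∑ m : Fin n, dd i (surf D) x m.succ * v m) / ‖x‖ := by
      intro i
      have e1 : ∀ j, gram (surf D) kv x i j * v i * v j =
          - (∑ m : Fin n, v i * (dd i (surf D) x m.succ * ((kd m j - Nc m x * Nc j x) * v j))) / ‖x‖ := by
        intro j
        show mink (dd i (surf D) x) (dd j kv x) * v i * v j = _
        unfold mink
        simp only [hk, hk0, mul_zero, sub_zero]
        rw [Finset.sum_mul, Finset.sum_mul, ← Finset.sum_neg_distrib, Finset.sum_div]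
        exact Finset.sum_congr rfl fun m _ => by rw [kd_comm j m]; ring
      simp only [e1]
      rw [← Finset.sum_div, Finset.sum_neg_distrib, Finset.sum_comm, Finset.mul_sum]
      congr 2
      refine Finset.sum_congr rfl fun m _ => ?_
      rw [← Finset.mul_sum, ← Finset.mul_sum]
      congr 2
      have := kd_mul m v
      simp only [sub_mul, Finset.sum_sub_distrib, this, mul_assoc, ← Finset.mul_sum, hNv]
      ring
    simp only [h4]
    have h5 : ∑ i, v i * ∑ m : Fin n, dd i (surf D) x m.succ * v m =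
        qf (fun i j => hs D.H i j x) v v + D.U x / ‖x‖ * ∑ i, v i ^ 2 := by
      have e2 : ∀ i, v i * ∑ m : Fin n, dd i (surf D) x m.succ * v m =
          (∑ m, hs D.H i m x * v i * v m) + D.U x / ‖x‖ * v i ^ 2 := by
        intro i
        have e3 : ∑ m : Fin n, dd i (surf D) x m.succ * v m =
            (∑ m, hs D.H i m x * v m) + D.U x / ‖x‖ * (∑ m, kd i m * v m) +
              (pd i D.U x - D.U x / ‖x‖ * Nc i x) * ∑ m, Nc m x * v m := by
          rw [Finset.mul_sum, Finset.mul_sum, ← Finset.sum_add_distrib, ← Finset.sum_add_distrib]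
          exact Finset.sum_congr rfl fun m _ => by rw [pd_surf D hx]; ring
        rw [e3, kd_mul, hNv, mul_zero, add_zero, mul_add, Finset.mul_sum]
        congr 1
        · exact Finset.sum_congr rfl fun m _ => by ring
        · ring
      simp only [e2, Finset.sum_add_distrib, ← Finset.mul_sum]
      rfl
    have h6 : ∑ i, - (v i * ∑ m : Fin n, dd i (surf D) x m.succ * v m) / ‖x‖ =
        - (∑ i, v i * ∑ m : Fin n, dd i (surf D) x m.succ * v m) / ‖x‖ := by
      rw [← Finset.sum_neg_distrib, Finset.sum_div]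
    rw [h6, h5]
    have h7 : 0 < qf (fun i j => hs D.H i j x) v v + D.U x / ‖x‖ * ∑ i, v i ^ 2 := by
      have e : ‖x‖ * qf (fun i j => hs D.H i j x) v v + D.U x * ∑ i, v i ^ 2 =
          ‖x‖ * (qf (fun i j => hs D.H i j x) v v + D.U x / ‖x‖ * ∑ i, v i ^ 2) := by
        field_simp
      rw [e] at hpos
      exact pos_of_mul_pos_right hpos h0.le
    rw [neg_div]
    exact neg_neg_of_pos (div_pos h7 h0)

lemma Uf_surf (D : Dat n) : Uf (surf D) = D.U := by
  funext y
  unfold Uf
  rw [surf_zero, neg_neg]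

lemma Hf_surf (D : Dat n) (hx : x ≠ 0) : Hf (surf D) x = D.H x := by
  unfold Hf
  rw [surf_zero]
  simp only [surf_succ]
  have h1 := D.homH.euler D.smH hx
  rw [Int.cast_one, one_mul] at h1
  have h2 : ∑ i, x i * (D.U x * Nc i x) = D.U x * ‖x‖ := by
    have e : ∑ i, x i * (D.U x * Nc i x) = D.U x * ‖x‖ * ∑ i, Nc i x * Nc i x := by
      rw [Finset.mul_sum]
      exact Finset.sum_congr rfl fun i _ => by rw [← norm_Nc i hx]; ring
    rw [e, nn hx, mul_one]
  simp only [mul_add, Finset.sum_add_distrib, h1, h2]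
  ring

lemma hs_surf (D : Dat n) (hx : x ≠ 0) (i j : Fin n) : hs (Hf (surf D)) i j x = hs D.H i j x := by
  unfold hs
  exact pd_congr' (fun y hy => pd_congr' (fun z hz => Hf_surf D hz) hy j) hx i

lemma M_surf (D : Dat n) (hx : x ≠ 0) : (dat (isSurface_surf D)).M x = D.M x := by
  ext i j
  show ‖x‖ * hs (Hf (surf D)) i j x + Uf (surf D) x * (kd i j - x i * x j / ‖x‖ ^ 2) +
    x i * x j / ‖x‖ ^ 2 = ‖x‖ * hs D.H i j x + D.U x * (kd i j - x i * x j / ‖x‖ ^ 2) +
    x i * x j / ‖x‖ ^ 2
  rw [hs_surf D hx, Uf_surf]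

lemma dt_surf (D : Dat n) (hx : x ≠ 0) : (dat (isSurface_surf D)).dt x = D.dt x := by
  unfold Dat.dt
  rw [M_surf D hx]

lemma A_surf (D : Dat n) (hx : x ≠ 0) (i j : Fin n) :
    (dat (isSurface_surf D)).A x i j = D.A x i j := by
  unfold Dat.A
  rw [M_surf D hx, dt_surf D hx]

lemma b_surf (D : Dat n) (hx : x ≠ 0) (i : Fin n) :
    (dat (isSurface_surf D)).b x i = D.b x i := by
  unfold Dat.b
  rw [M_surf D hx, show (dat (isSurface_surf D)).U = D.U from Uf_surf D]

/-- **The energy-momentum vector of a null shell**: the inequality in every frame. -/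
theorem shell_frame [Fact (3 ≤ n)] (D : Dat n) (T : Ten n) (hTA : T.A = D.A) (hTb : T.b = D.b)
    {q : E n → ℝ} (hq : ∀ x : E n, ‖x‖ = 1 → q x = (1 - ∑ i, T.b x i ^ 2) * H353.N.tr (T.A x) -
      2 * (∑ i, ∑ j, T.A x i j * pd i (fun y => T.b y j) x) + 2 * qf (T.A x) (T.b x) (T.b x))
    (a : Fin n → ℝ) :
    1 / 2 * (SI D.dt / om n) ^ (((n : ℝ) - 2) / ((n : ℝ) - 1)) ≤
      (e0 a * SI q + ∑ i, a i * SI (fun x => q x * x i)) / (2 * ((n : ℝ) - 1) * om n) := by
  set h := isSurface_surf D with hdef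
  obtain ⟨L, hL⟩ := exists_normal h
  obtain ⟨T', hTA', hTb', -⟩ := toTen (dat h)
  have hA : ∀ y : E n, y ≠ 0 → ∀ i j, T'.A y i j = T.A y i j := fun y hy i j => by
    rw [hTA', hTA]; exact A_surf D hy i j
  have hb : ∀ y : E n, y ≠ 0 → ∀ i, T'.b y i = T.b y i := fun y hy i => by
    rw [hTb', hTb]; exact b_surf D hy i
  have hqq : ∀ x : E n, ‖x‖ = 1 → qq (surf D) L x = q x := by
    intro x hx
    have h0 := ne_zero_of_one hx
    rw [hq x hx]
    unfold qq
    rw [theta_dens h T' hTA' hTb' hL hx]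
    have e1 : ∀ i j, pd i (fun y => T'.b y j) x = pd i (fun y => T.b y j) x := fun i j =>
      pd_congr' (fun y hy => hb y hy j) h0 i
    have e2 : T'.A x = T.A x := funext fun i => funext fun j => hA x h0 i j
    have e3 : T'.b x = T.b x := funext fun i => hb x h0 i
    simp only [e1, e2, e3]
  have hfr := frame' h hL a
  have k0 : mom (surf D) L 0 = SI q / (2 * ((n : ℝ) - 1) * om n) := by
    unfold mom
    rw [sint_eq, omega_eq]
    congr 1
    refine SI_congr fun x hx => ?_
    rw [kv_zero, ← hqq x hx]; unfold qq; ring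
  have k1 : ∀ i : Fin n, mom (surf D) L i.succ =
      - SI (fun x => q x * x i) / (2 * ((n : ℝ) - 1) * om n) := by
    intro i
    unfold mom
    rw [sint_eq, omega_eq, ← SI_neg]
    congr 1
    refine SI_congr fun x hx => ?_
    rw [kv_succ, Nc_one hx, ← hqq x hx]; unfold qq; ring
  have k2 : area (surf D) = SI D.dt := by
    rw [area_eq h]
    exact SI_congr fun x hx => dt_surf D (ne_zero_of_one hx)
  rw [k0, k2, omega_eq] at hfr
  simp only [k1] at hfr
  have e : e0 a * (SI q / (2 * ((n : ℝ) - 1) * om n)) -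
      ∑ i, a i * (-SI (fun x => q x * x i) / (2 * ((n : ℝ) - 1) * om n)) =
      (e0 a * SI q + ∑ i, a i * SI (fun x => q x * x i)) / (2 * ((n : ℝ) - 1) * om n) := by
    rw [add_div, Finset.sum_div, ← mul_div_assoc, sub_eq_add_neg, ← Finset.sum_neg_distrib]
    congr 1
    exact Finset.sum_congr rfl fun i _ => by ring
  rwa [e] at hfr

end Vale.Agent.P366.Shell
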