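import Mathlib
import Vale.Agent.P366.H353.Basic

/-! Null shells: the integral identities (leaf B). -/

open MeasureTheory Metric Filter Topology Set
open scoped ContDiff

noncomputable section
namespace Vale.Agent.P366.H353

open Vale.Agent.P366 (sphI sphM pd E)

namespace B745

variable {f q p : E 3 → ℝ} {k l : ℤ} {x : E 3}

/-- third derivatives commute -/
lemma third (hf : Sm f) (hx : x ≠ 0) (j : Fin 3) :
    ∑ i, pd i (hs f i j) x = pd j (lap f) x := by
  have h1 : pd j (lap f) x = ∑ i, pd j (hs f i i) x :=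
    pd_sum' _ (fun i => hf.hs i i) hx j
  rw [h1]
  refine Finset.sum_congr rfl fun i _ => ?_
  have h2 : pd i (hs f i j) x = pd i (hs f j i) x :=
    pd_congr' (fun y hy => hs_symm hf hy i j) hx i
  rw [h2]
  exact hs_symm (hf.pd i) hx i j

/-- the divergence of the cofactor field -/
lemma div_cof (hf : Sm f) (hq : Sm q) (hx : x ≠ 0) :
    ∑ i, pd i (fun y => lap f y * pd i q y - ∑ j, hs f i j y * pd j q y) x =
      lap f x * lap q x - ∑ i, ∑ j, hs f i j x * hs q i j x := by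
  have h1 : ∀ i, pd i (fun y => lap f y * pd i q y - ∑ j, hs f i j y * pd j q y) x =
      lap f x * hs q i i x + pd i (lap f) x * pd i q x -
        (∑ j, hs f i j x * hs q i j x + ∑ j, pd i (hs f i j) x * pd j q x) := by
    intro i
    rw [pd_sub' (hf.lap.mul (hq.pd i)) (Sm.sum _ fun j => (hf.hs i j).mul (hq.pd j)) hx,
      pd_mul' hf.lap (hq.pd i) hx, pd_sum' _ (fun j => (hf.hs i j).mul (hq.pd j)) hx,
      ← Finset.sum_add_distrib]
    congr 1
    refine Finset.sum_congr rfl fun j _ => ?_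
    rw [pd_mul' (hf.hs i j) (hq.pd j) hx]
    rfl
  have h2 : ∑ i, ∑ j, pd i (hs f i j) x * pd j q x = ∑ j, pd j (lap f) x * pd j q x := by
    rw [Finset.sum_comm]
    refine Finset.sum_congr rfl fun j _ => ?_
    rw [← Finset.sum_mul, third hf hx j]
  rw [Finset.sum_congr rfl fun i _ => h1 i, Finset.sum_sub_distrib, Finset.sum_add_distrib,
    Finset.sum_add_distrib, h2, ← Finset.mul_sum]
  simp only [lap]
  ring

/-- `U ∇q` is a smooth field. -/
lemma div_U (hf : Sm f) (hq : Sm q) (hx : x ≠ 0) :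
    ∑ i, pd i (fun y => f y * pd i q y) x = f x * lap q x + ∑ i, pd i f x * pd i q x := by
  rw [Finset.sum_congr rfl fun i _ => pd_mul' hf (hq.pd i) hx i, Finset.sum_add_distrib,
    ← Finset.mul_sum]
  rfl

/-- the divergence of a product -/
lemma div_mul {F : Fin 3 → E 3 → ℝ} (hf : Sm f) (hF : ∀ i, Sm (F i)) (hx : x ≠ 0) :
    ∑ i, pd i (fun y => f y * F i y) x = f x * ∑ i, pd i (F i) x + ∑ i, pd i f x * F i x := by
  rw [Finset.sum_congr rfl fun i _ => pd_mul' hf (hF i) hx i, Finset.sum_add_distrib,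
    ← Finset.mul_sum]

lemma cofS (hf : Sm f) (hq : Sm q) (i : Fin 3) :
    Sm (fun y => lap f y * pd i q y - ∑ j, hs f i j y * pd j q y) :=
  (hf.lap.mul (hq.pd i)).sub (Sm.sum _ fun j => (hf.hs i j).mul (hq.pd j))

lemma cofH (hf : Sm f) (hq : Sm q) (hk : Hom k f) (hl : Hom l q) (i : Fin 3) :
    Hom (k + l - 3) (fun y => lap f y * pd i q y - ∑ j, hs f i j y * pd j q y) :=
  (((hk.lap hf).mul (hl.pd hq i)).cast (by ring)).sub
    (Hom.sum _ fun j => ((hk.hs hf i j).mul (hl.pd hq j)).cast (by ring))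

lemma xg (hq : Q q) (hx : x ≠ 0) : ∑ i, x i * pd i q x = 0 := by
  rw [hq.hom.euler hq.sm hx]; simp

lemma gx (hq : Q q) (hx : x ≠ 0) : ∑ i, pd i q x * x i = 0 := by
  rw [← xg hq hx]
  exact Finset.sum_congr rfl fun i _ => mul_comm _ _

/-- `Hess q . x = - ∇ q` -/
lemma hx_eq (hq : Q q) (hx : x ≠ 0) (i : Fin 3) : ∑ j, x j * hs q i j x = - pd i q x := by
  have h := (hq.hom.pd hq.sm i).euler (hq.sm.pd i) hx
  rw [show (((0 : ℤ) - 1 : ℤ) : ℝ) = -1 by norm_num] at h
  rw [Finset.sum_congr rfl fun j _ => by rw [hs_symm hq.sm hx i j]]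
  rw [show - pd i q x = -1 * pd i q x by ring, ← h]
  rfl

lemma norm_sq3 (hx : ‖x‖ = 1) : ∑ i, x i ^ 2 = 1 := by
  have h := EuclideanSpace.real_norm_sq_eq x
  rw [hx] at h
  linarith

end B745

open B745

theorem int_L (D : Dat) {q : E 3 → ℝ} (hq : Q q) : S2 (D.L q) = 0 := by
  have h1 := S2_div (k := -2)
    (F := fun i y => lap D.H y * pd i q y - ∑ j, hs D.H i j y * pd j q y)
    (fun i => cofS D.smH hq.sm i) (fun i => (cofH D.smH hq.sm D.homH hq.hom i).cast (by ring))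
  have h2 := S2_div (k := -1) (F := fun i y => D.U y * pd i q y)
    (fun i => D.smU.mul (hq.sm.pd i)) (fun i => (D.homU.mul (hq.hom.pd hq.sm i)).cast (by ring))
  rw [S2_congr fun x hx => div_cof D.smH hq.sm (ne_zero_of_one hx)] at h1
  rw [S2_congr fun x hx => div_U D.smU hq.sm (ne_zero_of_one hx)] at h2
  have e3 : S2 (fun x => ∑ i, D.U x * pd i q x * x i) = S2 (fun _ => (0 : ℝ)) :=
    S2_congr fun x hx => by
      have := gx hq (ne_zero_of_one hx)
      rw [Finset.sum_congr rfl fun i _ => mul_assoc _ _ _, ← Finset.mul_sum, this, mul_zero]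
  rw [e3, S2_const] at h2
  have c1 : Sm fun x => lap D.H x * lap q x - ∑ i, ∑ j, hs D.H i j x * hs q i j x :=
    (D.smH.lap.mul hq.sm.lap).sub (Sm.sum _ fun i => Sm.sum _ fun j =>
      (D.smH.hs i j).mul (hq.sm.hs i j))
  have c2 : Sm fun x => D.U x * lap q x + ∑ i, pd i D.U x * pd i q x :=
    (D.smU.mul hq.sm.lap).add (Sm.sum _ fun i => (D.smU.pd i).mul (hq.sm.pd i))
  have e : S2 (D.L q) = S2 (fun x => (lap D.H x * lap q x - ∑ i, ∑ j, hs D.H i j x * hs q i j x) +
      (D.U x * lap q x + ∑ i, pd i D.U x * pd i q x)) := S2_congr fun x _ => by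
    unfold Dat.L
    ring
  rw [e, S2_add c1.contOn c2.contOn, h1, h2]
  norm_num

theorem energy (D : Dat) {q : E 3 → ℝ} (hq : Q q) :
    S2 (fun x => q x * D.L q x) =
      - S2 (fun x => qf (D.A x) (fun i => pd i q x) (fun i => pd i q x)) := by
  have h1 := S2_div (k := -2)
    (F := fun i y => q y * (lap D.H y * pd i q y - ∑ j, hs D.H i j y * pd j q y))
    (fun i => hq.sm.mul (cofS D.smH hq.sm i))
    (fun i => (hq.hom.mul (cofH D.smH hq.sm D.homH hq.hom i)).cast (by ring))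
  have h2 := S2_div (k := -1) (F := fun i y => q y * (D.U y * pd i q y))
    (fun i => hq.sm.mul (D.smU.mul (hq.sm.pd i)))
    (fun i => (hq.hom.mul (D.homU.mul (hq.hom.pd hq.sm i))).cast (by ring))
  rw [S2_congr fun x hx => div_mul hq.sm (fun i => cofS D.smH hq.sm i) (ne_zero_of_one hx),
    S2_congr fun x hx => by rw [div_cof D.smH hq.sm (ne_zero_of_one hx)]] at h1
  rw [S2_congr fun x hx => div_mul hq.sm (fun i => D.smU.mul (hq.sm.pd i)) (ne_zero_of_one hx),
    S2_congr fun x hx => by rw [div_U D.smU hq.sm (ne_zero_of_one hx)]] at h2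
  have e3 : S2 (fun x => ∑ i, q x * (D.U x * pd i q x) * x i) = S2 (fun _ => (0 : ℝ)) :=
    S2_congr fun x hx => by
      have := gx hq (ne_zero_of_one hx)
      rw [Finset.sum_congr rfl fun i _ => show q x * (D.U x * pd i q x) * x i =
        (q x * D.U x) * (pd i q x * x i) by ring, ← Finset.mul_sum, this, mul_zero]
  rw [e3, S2_const] at h2
  have c1 : Sm fun x => q x * (lap D.H x * lap q x - ∑ i, ∑ j, hs D.H i j x * hs q i j x) +
      ∑ i, pd i q x * (lap D.H x * pd i q x - ∑ j, hs D.H i j x * pd j q x) :=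
    (hq.sm.mul ((D.smH.lap.mul hq.sm.lap).sub (Sm.sum _ fun i => Sm.sum _ fun j =>
      (D.smH.hs i j).mul (hq.sm.hs i j)))).add
        (Sm.sum _ fun i => (hq.sm.pd i).mul (cofS D.smH hq.sm i))
  have c2 : Sm fun x => q x * (D.U x * lap q x + ∑ i, pd i D.U x * pd i q x) +
      ∑ i, pd i q x * (D.U x * pd i q x) :=
    (hq.sm.mul ((D.smU.mul hq.sm.lap).add (Sm.sum _ fun i => (D.smU.pd i).mul (hq.sm.pd i)))).add
      (Sm.sum _ fun i => (hq.sm.pd i).mul (D.smU.mul (hq.sm.pd i)))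
  have c3 : Sm fun x => q x * D.L q x := by
    refine hq.sm.mul ?_
    exact (((D.smH.lap.mul hq.sm.lap).sub (Sm.sum _ fun i => Sm.sum _ fun j =>
      (D.smH.hs i j).mul (hq.sm.hs i j))).add (D.smU.mul hq.sm.lap)).add
        (Sm.sum _ fun i => (D.smU.pd i).mul (hq.sm.pd i))
  have c4 : ContinuousOn (fun x => qf (D.A x) (fun i => pd i q x) (fun i => pd i q x))
      (sphere (0 : E 3) 1) := by
    have sW : ∀ i j, Sm fun x => D.W x i j := fun i j =>
      (D.smH.hs i j).add (D.smU.mul ((Sm.const _).sub ((Sm.coord i).mul (Sm.coord j))))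
    refine Sm.contOn (Sm.sum _ fun i => Sm.sum _ fun j => ?_)
    refine Sm.mul (Sm.mul ?_ (hq.sm.pd i)) (hq.sm.pd j)
    exact ((Sm.sum _ fun i => sW i i).mul ((Sm.const _).sub
      ((Sm.coord i).mul (Sm.coord j)))).sub (sW i j)
  have e : S2 (fun x => (q x * (lap D.H x * lap q x - ∑ i, ∑ j, hs D.H i j x * hs q i j x) +
      ∑ i, pd i q x * (lap D.H x * pd i q x - ∑ j, hs D.H i j x * pd j q x)) +
      (q x * (D.U x * lap q x + ∑ i, pd i D.U x * pd i q x) +
      ∑ i, pd i q x * (D.U x * pd i q x))) =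
      S2 (fun x => q x * D.L q x + qf (D.A x) (fun i => pd i q x) (fun i => pd i q x)) := by
    refine S2_congr fun x hx => ?_
    have g0 := gx hq (ne_zero_of_one hx)
    have n1 := norm_sq3 hx
    simp only [Dat.L, qf, Dat.A, Dat.W, tr3, lap, pr, kd, Fin.sum_univ_three, Fin.isValue,
      if_true, (by decide : (0 : Fin 3) ≠ 1), (by decide : (0 : Fin 3) ≠ 2),
      (by decide : (1 : Fin 3) ≠ 0), (by decide : (1 : Fin 3) ≠ 2), (by decide : (2 : Fin 3) ≠ 0),
      (by decide : (2 : Fin 3) ≠ 1), if_false] at g0 n1 ⊢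
    linear_combination (D.U x * (pd 0 q x ^ 2 + pd 1 q x ^ 2 + pd 2 q x ^ 2 -
      (pd 0 q x * x 0 + pd 1 q x * x 1 + pd 2 q x * x 2) ^ 2)) * n1 +
      ((hs D.H 0 0 x + hs D.H 1 1 x + hs D.H 2 2 x + D.U x) *
        (pd 0 q x * x 0 + pd 1 q x * x 1 + pd 2 q x * x 2)) * g0
  rw [S2_add c1.contOn c2.contOn, h1, h2, S2_add c3.contOn c4] at e
  simp at e
  linarith

theorem bochner {q : E 3 → ℝ} (hq : Q q) : S2 (fun x => det2 (Zb q x)) = S2 (gsq q) / 2 := by
  have h1 := S2_div (k := -3)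
    (F := fun i y => lap q y * pd i q y - ∑ j, hs q i j y * pd j q y)
    (fun i => cofS hq.sm hq.sm i) (fun i => (cofH hq.sm hq.sm hq.hom hq.hom i).cast (by ring))
  rw [S2_congr fun x hx => div_cof hq.sm hq.sm (ne_zero_of_one hx)] at h1
  have e1 : S2 (fun x => ∑ i, (lap q x * pd i q x - ∑ j, hs q i j x * pd j q x) * x i) =
      S2 (gsq q) := S2_congr fun x hx => by
    have g0 := gx hq (ne_zero_of_one hx)
    have hh := fun i => hx_eq hq (ne_zero_of_one hx) i
    have k0 := hh 0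
    have k1 := hh 1
    have k2 := hh 2
    have s10 := hs_symm hq.sm (ne_zero_of_one hx) 1 0
    have s20 := hs_symm hq.sm (ne_zero_of_one hx) 2 0
    have s21 := hs_symm hq.sm (ne_zero_of_one hx) 2 1
    simp only [gsq, lap, Fin.sum_univ_three] at *
    rw [s10, s20, s21] at *
    linear_combination (hs q 0 0 x + hs q 1 1 x + hs q 2 2 x) * g0 - pd 0 q x * k0 -
      pd 1 q x * k1 - pd 2 q x * k2
  rw [e1] at h1
  have c1 : Sm fun x => lap q x * lap q x - ∑ i, ∑ j, hs q i j x * hs q i j x :=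
    (hq.sm.lap.mul hq.sm.lap).sub (Sm.sum _ fun i => Sm.sum _ fun j =>
      (hq.sm.hs i j).mul (hq.sm.hs i j))
  have e2 : S2 (fun x => det2 (Zb q x)) = S2 (fun x => (1 / 2) *
      ((lap q x * lap q x - ∑ i, ∑ j, hs q i j x * hs q i j x) + 2 * gsq q x)) := 
    S2_congr fun x hx => by
      have g0 := gx hq (ne_zero_of_one hx)
      have hh := fun i => hx_eq hq (ne_zero_of_one hx) i
      have n1 := norm_sq3 hx
      have k0 := hh 0
      have k1 := hh 1
      have k2 := hh 2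
      have s10 := hs_symm hq.sm (ne_zero_of_one hx) 1 0
      have s20 := hs_symm hq.sm (ne_zero_of_one hx) 2 0
      have s21 := hs_symm hq.sm (ne_zero_of_one hx) 2 1
      simp only [gsq, lap, det2, Zb, tr3, ip3, Fin.sum_univ_three] at *
      rw [s10, s20, s21] at *
      linear_combination (2 * (hs q 0 0 x + hs q 1 1 x + hs q 2 2 x) +
        (pd 0 q x * x 0 + pd 1 q x * x 1 + pd 2 q x * x 2)) * g0 -
        (pd 0 q x ^ 2 + pd 1 q x ^ 2 + pd 2 q x ^ 2) * n1 - 2 * (pd 0 q x * k0 +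
          pd 1 q x * k1 + pd 2 q x * k2)
  rw [e2, S2_cmul, S2_add c1.contOn ((Sm.const 2).mul hq.sm.gsq).contOn, h1, S2_cmul]
  norm_num
  ring

end Vale.Agent.P366.H353
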