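import Mathlib
import Vale.Agent.P366.H381.NH0
import Vale.Agent.P366.H745.N1b

/-! Equality case: derivatives of the determinant and of the trace of the cofactor matrix. -/

open MeasureTheory Metric Filter Topology Set
open scoped ContDiff

noncomputable section
namespace Vale.Agent.P366.Shell

open Vale.Agent.P366.H353.N (MC.hasDerivAt_det)
open Vale.Agent.P366.H353.N
open Matrix

namespace Var

variable {n : ℕ} {x : Fin n → ℝ} {M : Matrix (Fin n) (Fin n) ℝ} {t : ℝ}

/-- the projection -/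
def P (x : Fin n → ℝ) : Matrix (Fin n) (Fin n) ℝ := 1 - xx x

/-- the family `M + t P` -/
def N (M : Matrix (Fin n) (Fin n) ℝ) (x : Fin n → ℝ) (t : ℝ) : Matrix (Fin n) (Fin n) ℝ :=
  M + t • P x

/-- the trace of the cofactor matrix on the plane -/
def sg (A : Matrix (Fin n) (Fin n) ℝ) : ℝ := A.adjugate.trace - A.det

/-- the derivative of `sg` -/
def kk (A : Matrix (Fin n) (Fin n) ℝ) : ℝ :=
  A.det * ((A⁻¹.trace - 1) ^ 2 - ((A⁻¹ * A⁻¹).trace - 1))

lemma N_zero : N M x 0 = M := by simp [N]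

lemma P_x (hx : x ⬝ᵥ x = 1) : P x *ᵥ x = 0 := by
  unfold P
  rw [sub_mulVec, one_mulVec, xx_eq]
  ext i
  simp only [Pi.sub_apply, Pi.zero_apply, vecMulVec, mulVec, dotProduct, Matrix.of_apply]
  have : ∑ j, x i * x j * x j = x i * (x ⬝ᵥ x) := by
    simp only [dotProduct, Finset.mul_sum]
    exact Finset.sum_congr rfl fun j _ => by ring
  rw [this, hx]; ring

lemma N_x (hx : x ⬝ᵥ x = 1) (hM : M *ᵥ x = x) (t : ℝ) : N M x t *ᵥ x = x := by
  unfold N
  rw [add_mulVec, smul_mulVec, P_x hx, hM]; simp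

lemma P_symm (x : Fin n → ℝ) : (P x)ᵀ = P x := by
  unfold P
  rw [transpose_sub, transpose_one, xx_symm]

lemma N_symm (hM : Mᵀ = M) (t : ℝ) : (N M x t)ᵀ = N M x t := by
  unfold N
  rw [transpose_add, transpose_smul, hM, P_symm]

lemma adj_x {A : Matrix (Fin n) (Fin n) ℝ} (hA : A *ᵥ x = x) : A.adjugate *ᵥ x = A.det • x := by
  conv_lhs => rw [← hA]
  rw [mulVec_mulVec, adjugate_mul, smul_mulVec, one_mulVec]

/-- `tr (B P) = tr B - x · B x` -/
lemma trace_P (B : Matrix (Fin n) (Fin n) ℝ) (x : Fin n → ℝ) :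
    (B * P x).trace = B.trace - x ⬝ᵥ (B *ᵥ x) := by
  unfold P
  rw [mul_sub, mul_one, trace_sub, xx_eq, mul_vecMulVec, trace_vecMulVec, dotProduct_comm]

lemma N_deriv (M : Matrix (Fin n) (Fin n) ℝ) (x : Fin n → ℝ) (t : ℝ) (i j : Fin n) :
    HasDerivAt (fun t => N M x t i j) (P x i j) t := by
  have h : (fun t => N M x t i j) = fun t => M i j + t * P x i j := by
    funext t; simp [N]
  rw [h]
  simpa using ((hasDerivAt_id t).mul_const (P x i j)).const_add (M i j)

theorem hasDerivAt_det (hx : x ⬝ᵥ x = 1) (hM : M *ᵥ x = x) (t : ℝ) :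
    HasDerivAt (fun t => (N M x t).det) (sg (N M x t)) t := by
  have h1 := MC.hasDerivAt_det (N := fun s => N M x s) (N' := P x) (t := t)
    (fun i j => N_deriv M x t i j)
  have h2 : ((N M x t).adjugate * P x).trace = sg (N M x t) := by
    rw [trace_P, adj_x (N_x hx hM t), dotProduct_smul, hx]
    simp [sg]
  rw [h2] at h1
  exact h1

/-- the entries of the adjugate are differentiable -/
lemma adj_diff (M : Matrix (Fin n) (Fin n) ℝ) (x : Fin n → ℝ) (t : ℝ) (i j : Fin n) :
    ∃ d, HasDerivAt (fun s => (N M x s).adjugate i j) d t := by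
  have h1 := MC.hasDerivAt_det (N := fun s => (N M x s).updateRow j (Pi.single i 1))
    (N' := (P x).updateRow j 0) (t := t) (by
      intro a b
      by_cases ha : a = j
      · subst ha
        simp only [Matrix.updateRow_self]
        exact hasDerivAt_const _ _
      · simp only [Matrix.updateRow_ne ha]
        exact N_deriv M x t a b)
  refine ⟨(((N M x t).updateRow j (Pi.single i 1)).adjugate * (P x).updateRow j 0).trace, ?_⟩
  simp only [Matrix.adjugate_apply]
  exact h1

lemma adj_eq {A : Matrix (Fin n) (Fin n) ℝ} (h : A.det ≠ 0) : A.adjugate = A.det • A⁻¹ := by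
  rw [Matrix.inv_def, Ring.inverse_eq_inv', smul_smul, mul_inv_cancel₀ h, one_smul]

lemma inv_x {A : Matrix (Fin n) (Fin n) ℝ} (h : A.det ≠ 0) (hA : A *ᵥ x = x) : A⁻¹ *ᵥ x = x := by
  conv_lhs => rw [← hA]
  rw [mulVec_mulVec, nonsing_inv_mul _ h.isUnit, one_mulVec]

lemma sg_eq {A : Matrix (Fin n) (Fin n) ℝ} (h : A.det ≠ 0) : sg A = A.det * (A⁻¹.trace - 1) := by
  unfold sg
  rw [adj_eq h, trace_smul, smul_eq_mul]; ring

theorem hasDerivAt_sg (hx : x ⬝ᵥ x = 1) (hM : M *ᵥ x = x) (hdet : (N M x t).det ≠ 0) :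
    HasDerivAt (fun t => sg (N M x t)) (kk (N M x t)) t := by
  choose d hd using fun i j => adj_diff M x t i j
  set A := N M x t with hA
  have h1 : P x * A.adjugate + A * Matrix.of d = sg A • (1 : Matrix (Fin n) (Fin n) ℝ) := by
    ext i j
    have h2 : HasDerivAt (fun s => (N M x s * (N M x s).adjugate) i j)
        (∑ k, (P x i k * A.adjugate k j + A i k * d k j)) t := by
      simp only [Matrix.mul_apply]
      exact HasDerivAt.fun_sum fun k _ => (N_deriv M x t i k).mul (hd k j)
    have h3 : HasDerivAt (fun s => (N M x s * (N M x s).adjugate) i j)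
        (sg A * (1 : Matrix (Fin n) (Fin n) ℝ) i j) t := by
      simp only [Matrix.mul_adjugate, Matrix.smul_apply, smul_eq_mul]
      exact (hasDerivAt_det hx hM t).mul_const _
    have h4 := h2.unique h3
    rw [Matrix.add_apply, Matrix.mul_apply, Matrix.mul_apply, ← Finset.sum_add_distrib,
      Matrix.smul_apply, smul_eq_mul]
    simpa using h4
  have h5 : (Matrix.of d).trace = sg A * (A⁻¹).trace - (A⁻¹ * (P x * A.adjugate)).trace := by
    have h6 : Matrix.of d = sg A • A⁻¹ - A⁻¹ * (P x * A.adjugate) := by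
      have h7 : A * Matrix.of d = sg A • (1 : Matrix (Fin n) (Fin n) ℝ) - P x * A.adjugate := by
        rw [← h1]; simp
      calc Matrix.of d = A⁻¹ * (A * Matrix.of d) := by
            rw [← Matrix.mul_assoc, Matrix.nonsing_inv_mul _ hdet.isUnit, Matrix.one_mul]
        _ = _ := by rw [h7, Matrix.mul_sub, Matrix.mul_smul, Matrix.mul_one]
    rw [h6, Matrix.trace_sub, Matrix.trace_smul, smul_eq_mul]
  have h8 : HasDerivAt (fun s => sg (N M x s)) ((Matrix.of d).trace - sg A) t := by
    have h9 : HasDerivAt (fun s => (N M x s).adjugate.trace) (Matrix.of d).trace t := by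
      simp only [Matrix.trace, Matrix.diag_apply, Matrix.of_apply]
      exact HasDerivAt.fun_sum fun i _ => hd i i
    exact h9.sub (hasDerivAt_det hx hM t)
  have hinvx : A⁻¹ *ᵥ x = x := inv_x hdet (N_x hx hM t)
  have h10 : (A⁻¹ * (P x * A.adjugate)).trace = A.det * ((A⁻¹ * A⁻¹).trace - 1) := by
    rw [adj_eq hdet, Matrix.mul_smul, Matrix.mul_smul, Matrix.trace_smul, smul_eq_mul,
      ← Matrix.mul_assoc, Matrix.trace_mul_comm, ← Matrix.mul_assoc, trace_P,
      ← Matrix.mulVec_mulVec, hinvx, hinvx, hx]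
  have h11 : kk A = (Matrix.of d).trace - sg A := by
    rw [h5, h10, sg_eq hdet]
    unfold kk
    ring
  rw [h11]
  exact h8

/-! ### the pointwise rigidity -/

/-- `tr (B²) - (tr B)² / (n - 1)` for `B = A⁻¹ - x xᵀ` is the square of the norm of the trace free
part. -/
lemma umbilic {A : Matrix (Fin n) (Fin n) ℝ} {c : ℝ} (hn : (n : ℝ) - 1 ≠ 0) (hx : x ⬝ᵥ x = 1)
    (hs : Aᵀ = A) (hA : A *ᵥ x = x) (hc : A.trace - 1 = c * (n - 1)) :
    ∑ i, ∑ j, (A i j - xx x i j - c * P x i j) ^ 2 =
      ((A * A).trace - 1) - (A.trace - 1) ^ 2 / (n - 1) := by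
  set B := A - xx x - c • P x with hB
  have hBs : Bᵀ = B := by
    rw [hB, transpose_sub, transpose_sub, transpose_smul, hs, xx_symm, P_symm]
  have e1 : ∑ i, ∑ j, (A i j - xx x i j - c * P x i j) ^ 2 = (B * B).trace := by
    rw [← ip_eq_trace hBs]
    exact Finset.sum_congr rfl fun i _ => Finset.sum_congr rfl fun j _ => by
      rw [hB, Matrix.sub_apply, Matrix.sub_apply, Matrix.smul_apply, smul_eq_mul]; ring
  have hxA : x ᵥ* A = x := by rw [← mulVec_transpose, hs, hA]
  have hAxx : A * xx x = xx x := by rw [xx_eq, mul_vecMulVec, hA]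
  have hxxA : xx x * A = xx x := by rw [xx_eq, vecMulVec_mul, hxA]
  have hxxxx : xx x * xx x = xx x := by
    rw [xx_eq, vecMulVec_mul_vecMulVec]
    ext i j
    simp only [vecMulVec_apply, Pi.smul_apply, smul_eq_mul]
    rw [hx]; ring
  have htx : (xx x).trace = 1 := by rw [xx_eq, trace_vecMulVec, hx]
  have e2 : B * B = A * A - xx x - (2 * c) • (A - xx x) + (c ^ 2) • (1 - xx x) := by
    rw [hB]
    unfold P
    simp only [sub_mul, mul_sub, Matrix.mul_smul, Matrix.smul_mul, hAxx, hxxA, hxxxx, mul_one,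
      one_mul]
    module
  rw [e1, e2, trace_add, trace_sub, trace_sub, trace_smul, trace_smul, trace_sub, trace_sub,
    trace_one, htx, Fintype.card_fin]
  simp only [smul_eq_mul]
  have h1 : A.trace = c * (n - 1) + 1 := by linarith
  rw [h1]
  field_simp
  ring

end Var

end Vale.Agent.P366.Shell
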