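import Mathlib
import Vale.Agent.P366.H353.N.Main
import Vale.Agent.P366.H296.N.Par
import Vale.Agent.P366.H208.ND
import Vale.Agent.P366.H745.Eq1

/-! Equality case: the first variation in the direction of a function. -/

open MeasureTheory Metric Filter Topology Set
open scoped ContDiff

noncomputable section
namespace Vale.Agent.P366.Shell

open Vale.Agent.P366 (sphI sphM pd)
open Vale.Agent.P366.H353.N
open Matrix

namespace Var

variable {n : ℕ} (D : Dat n) {φ : E n → ℝ} {x : E n} {t : ℝ}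

/-- the matrix of the perturbed data -/
def NN (φ : E n → ℝ) (t : ℝ) (x : E n) : Matrix (Fin n) (Fin n) ℝ := N (D.M x) x (t * φ x)

lemma dot_xx (hx : ‖x‖ = 1) : (x : Fin n → ℝ) ⬝ᵥ x = 1 := Shell.sum_xx hx

lemma DM_x (hx : ‖x‖ = 1) : D.M x *ᵥ (x : Fin n → ℝ) = x := by
  ext i
  exact D.M_x (ne_zero_of_one hx) i

lemma DM_symm (x : E n) : (D.M x)ᵀ = D.M x := by
  ext i j
  exact D.M_symm x j i

/-- the quadratic form of `M` -/
def qM (x : E n) (v : Fin n → ℝ) : ℝ := ∑ i, ∑ j, D.M x i j * v i * v j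

lemma qM_eq (x : E n) (v : Fin n → ℝ) : qM D x v = v ⬝ᵥ (D.M x *ᵥ v) := by
  unfold qM
  simp only [dotProduct, mulVec, Finset.mul_sum]
  exact Finset.sum_congr rfl fun i _ => Finset.sum_congr rfl fun j _ => by ring

/-- uniform positivity -/
lemma exists_delta [Fact (3 ≤ n)] : ∃ δ : ℝ, 0 < δ ∧ ∀ x : E n, ‖x‖ = 1 → ∀ v : Fin n → ℝ,
    δ * ∑ i, v i ^ 2 ≤ qM D x v := by
  have hn3 := Fact.out (p := 3 ≤ n)
  have hK : IsCompact (sphere (0 : E n) 1 ×ˢ sphere (0 : E n) 1) :=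
    (isCompact_sphere _ _).prod (isCompact_sphere _ _)
  have hne : (sphere (0 : E n) 1 ×ˢ sphere (0 : E n) 1).Nonempty :=
    ⟨(EuclideanSpace.single (⟨0, by omega⟩ : Fin n) 1, EuclideanSpace.single (⟨0, by omega⟩ : Fin n) 1),
      by simp⟩
  have hc : ContinuousOn (fun p : E n × E n => qM D p.1 p.2) (sphere (0 : E n) 1 ×ˢ sphere (0 : E n) 1) := by
    unfold qM
    refine continuousOn_finsetSum _ fun i _ => continuousOn_finsetSum _ fun j _ => ?_
    have h1 : ContinuousOn (fun p : E n × E n => D.M p.1 i j)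
        (sphere (0 : E n) 1 ×ˢ sphere (0 : E n) 1) :=
      (D.smM i j).contOn.comp continuous_fst.continuousOn fun p hp => hp.1
    have h2 : ∀ k : Fin n, ContinuousOn (fun p : E n × E n => p.2 k)
        (sphere (0 : E n) 1 ×ˢ sphere (0 : E n) 1) := fun k =>
      ((EuclideanSpace.proj (𝕜 := ℝ) k).continuous.comp continuous_snd).continuousOn
    exact (h1.mul (h2 i)).mul (h2 j)
  obtain ⟨p0, hp0, hmin⟩ := hK.exists_isMinOn hne hc
  have h0 : ‖p0.1‖ = 1 := by simpa using hp0.1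
  have h1 : ‖p0.2‖ = 1 := by simpa using hp0.2
  refine ⟨qM D p0.1 p0.2, ?_, fun x hx v => ?_⟩
  · rw [qM_eq]
    have hv : (p0.2 : Fin n → ℝ) ≠ 0 := by
      intro h
      have : p0.2 = 0 := by ext i; exact congrFun h i
      rw [this] at h1; simp at h1
    have := (D.M_posDef_one h0).dotProduct_mulVec_pos hv
    simpa using this
  · set r2 := ∑ i, v i ^ 2 with hr2
    have hr2n : 0 ≤ r2 := Finset.sum_nonneg fun i _ => sq_nonneg _
    by_cases hz : r2 = 0
    · have hv : v = 0 := by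
        ext i
        have := (Finset.sum_eq_zero_iff_of_nonneg fun i _ => sq_nonneg (v i)).mp hz i (Finset.mem_univ _)
        simpa using this
      rw [hz, hv]; simp [qM]
    · have hr2p : 0 < r2 := lt_of_le_of_ne hr2n (Ne.symm hz)
      set r := √r2 with hr
      have hrp : 0 < r := Real.sqrt_pos.mpr hr2p
      have hrr : r ^ 2 = r2 := Real.sq_sqrt hr2n
      set w : E n := WithLp.toLp 2 fun i => v i / r with hw
      have hw1 : ‖w‖ = 1 := by
        have h : ‖w‖ ^ 2 = 1 := by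
          rw [← Shell.sum_sq w]
          have : ∑ i, w i * w i = (∑ i, v i ^ 2) / r ^ 2 := by
            rw [Finset.sum_div]
            exact Finset.sum_congr rfl fun i _ => by
              show v i / r * (v i / r) = _
              field_simp
          rw [this, ← hr2, hrr, div_self hz]
        have h2 : 0 ≤ ‖w‖ := norm_nonneg _
        nlinarith
      have h3 := hmin (show (x, w) ∈ sphere (0 : E n) 1 ×ˢ sphere (0 : E n) 1 by simp [hx, hw1])
      have h4 : qM D x w = qM D x v / r2 := by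
        unfold qM
        rw [Finset.sum_div]
        refine Finset.sum_congr rfl fun i _ => ?_
        rw [Finset.sum_div]
        refine Finset.sum_congr rfl fun j _ => ?_
        show D.M x i j * (v i / r) * (v j / r) = _
        rw [← hrr]
        field_simp
      have h5 : qM D p0.1 p0.2 ≤ qM D x w := h3
      rw [h4, le_div_iff₀ hr2p] at h5
      exact h5

/-- the quadratic form of the perturbed matrix -/
lemma qN_eq (x : E n) (s : ℝ) (v : Fin n → ℝ) :
    v ⬝ᵥ (N (D.M x) x s *ᵥ v) = qM D x v + s * (∑ i, v i ^ 2 - (∑ i, x i * v i) ^ 2) := by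
  unfold N P
  rw [add_mulVec, smul_mulVec, sub_mulVec, one_mulVec, dotProduct_add, dotProduct_smul,
    dotProduct_sub, ← qM_eq, xx_eq]
  have h1 : v ⬝ᵥ v = ∑ i, v i ^ 2 := by
    simp only [dotProduct]
    exact Finset.sum_congr rfl fun i _ => by ring
  have h2 : v ⬝ᵥ (vecMulVec x.ofLp x.ofLp *ᵥ v) = (∑ i, x i * v i) ^ 2 := by
    have : vecMulVec x.ofLp x.ofLp *ᵥ v = fun i => x i * ∑ j, x j * v j := by
      ext i
      simp only [mulVec, dotProduct, vecMulVec_apply, Finset.mul_sum]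
      exact Finset.sum_congr rfl fun j _ => by ring
    rw [this]
    simp only [dotProduct, sq]
    rw [Finset.sum_mul]
    exact Finset.sum_congr rfl fun i _ => by ring
  rw [h1, h2, smul_eq_mul]

variable {D}

/-- positivity of the perturbed matrix -/
lemma qN_ge {δ : ℝ} (hδ : ∀ x : E n, ‖x‖ = 1 → ∀ v : Fin n → ℝ, δ * ∑ i, v i ^ 2 ≤ qM D x v)
    (hx : ‖x‖ = 1) {s : ℝ} (hs : |s| ≤ δ / 2) (v : Fin n → ℝ) :
    δ / 2 * ∑ i, v i ^ 2 ≤ v ⬝ᵥ (N (D.M x) x s *ᵥ v) := by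
  rw [qN_eq]
  have h1 := hδ x hx v
  have hr2n : 0 ≤ ∑ i, v i ^ 2 := Finset.sum_nonneg fun i _ => sq_nonneg _
  have hcs : (∑ i, x i * v i) ^ 2 ≤ ∑ i, v i ^ 2 := by
    have h2 := Finset.sum_mul_sq_le_sq_mul_sq Finset.univ (fun i => x i) v
    have h3 : ∑ i, x i ^ 2 = 1 := by
      rw [← Shell.sum_xx hx]; exact Finset.sum_congr rfl fun i _ => by ring
    rw [h3, one_mul] at h2
    exact h2
  have h4 : -(δ / 2) ≤ s := (abs_le.mp hs).1
  have h5 : 0 ≤ ∑ i, v i ^ 2 - (∑ i, x i * v i) ^ 2 := by linarith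
  have h6 : -(δ / 2) * (∑ i, v i ^ 2 - (∑ i, x i * v i) ^ 2) ≤
      s * (∑ i, v i ^ 2 - (∑ i, x i * v i) ^ 2) := by gcongr
  have h7 : 0 ≤ δ / 2 := (abs_nonneg s).trans hs
  nlinarith [sq_nonneg (∑ i, x i * v i)]

lemma N_posDef {δ : ℝ} (hδ0 : 0 < δ)
    (hδ : ∀ x : E n, ‖x‖ = 1 → ∀ v : Fin n → ℝ, δ * ∑ i, v i ^ 2 ≤ qM D x v)
    (hx : ‖x‖ = 1) {s : ℝ} (hs : |s| ≤ δ / 2) : (N (D.M x) x s).PosDef := by
  refine Matrix.PosDef.of_dotProduct_mulVec_pos ?_ fun v hv => ?_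
  · rw [Matrix.IsHermitian, conjTranspose_eq_transpose_of_trivial]
    exact N_symm (DM_symm D x) s
  · have h1 := qN_ge hδ hx hs v
    have h2 : 0 < ∑ i, v i ^ 2 := by
      have h3 : 0 ≤ ∑ i, v i ^ 2 := Finset.sum_nonneg fun i _ => sq_nonneg _
      refine lt_of_le_of_ne h3 fun h => hv ?_
      ext i
      have := (Finset.sum_eq_zero_iff_of_nonneg fun i _ => sq_nonneg (v i)).mp h.symm i
        (Finset.mem_univ _)
      simpa using this
    have h4 : star v = v := by simp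
    rw [h4]
    have : 0 < δ / 2 * ∑ i, v i ^ 2 := by positivity
    linarith

/-- bound for the inverse -/
lemma inv_le {δ : ℝ} (hδ0 : 0 < δ)
    (hδ : ∀ x : E n, ‖x‖ = 1 → ∀ v : Fin n → ℝ, δ * ∑ i, v i ^ 2 ≤ qM D x v)
    (hx : ‖x‖ = 1) {s : ℝ} (hs : |s| ≤ δ / 2) (w : Fin n → ℝ) :
    ∑ i, ((N (D.M x) x s)⁻¹ *ᵥ w) i ^ 2 ≤ (2 / δ) ^ 2 * ∑ i, w i ^ 2 := by
  set A := N (D.M x) x s with hA
  have hu : IsUnit A.det := (N_posDef hδ0 hδ hx hs).det_pos.ne'.isUnit
  set y := A⁻¹ *ᵥ w with hy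
  have h1 := qN_ge hδ hx hs y
  have h2 : A *ᵥ y = w := by rw [hy, mulVec_mulVec, mul_nonsing_inv _ hu, one_mulVec]
  rw [← hA, h2] at h1
  have h3 := Finset.sum_mul_sq_le_sq_mul_sq Finset.univ y w
  have h4 : y ⬝ᵥ w = ∑ i, y i * w i := rfl
  rw [h4] at h1
  set Y := ∑ i, y i ^ 2
  set W := ∑ i, w i ^ 2
  have hY : 0 ≤ Y := Finset.sum_nonneg fun i _ => sq_nonneg _
  have hW : 0 ≤ W := Finset.sum_nonneg fun i _ => sq_nonneg _
  have h5 : (δ / 2 * Y) ^ 2 ≤ Y * W := by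
    have h6 : 0 ≤ δ / 2 * Y := by positivity
    calc (δ / 2 * Y) ^ 2 ≤ (∑ i, y i * w i) ^ 2 := by gcongr
      _ ≤ Y * W := h3
  by_cases h0 : Y = 0
  · rw [h0]; positivity
  · have hYp : 0 < Y := lt_of_le_of_ne hY (Ne.symm h0)
    have h7 : (δ / 2) ^ 2 * Y ≤ W := by
      have : Y * ((δ / 2) ^ 2 * Y) ≤ Y * W := by nlinarith
      exact le_of_mul_le_mul_left this hYp
    have h8 : (2 / δ) ^ 2 * ((δ / 2) ^ 2 * Y) = Y := by field_simp
    rw [← h8]
    gcongr

end Var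

end Vale.Agent.P366.Shell
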