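import Mathlib
import Vale.Agent.P366.H745.Eq2

/-! Equality case: the first variation in the direction of a function. -/

open MeasureTheory Metric Filter Topology Set
open scoped ContDiff

noncomputable section
namespace Vale.Agent.P366.Shell

open Vale.Agent.P366 (sphI sphM pd)
open Vale.Agent.P366.H353.N
open Matrix

namespace Var

variable {n : ℕ} {D : Dat n} {φ : E n → ℝ} {x : E n} {t : ℝ}

/-- the perturbed data -/
def pert (D : Dat n) (hφ : Q φ) (t : ℝ) (hp : ∀ x : E n, ‖x‖ = 1 → ∀ v : Fin n → ℝ,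
    ∑ i, x i * v i = 0 → v ≠ 0 → 0 < qf (fun i j => hs D.H i j x) v v +
      (D.U x + t * φ x) * ∑ i, v i ^ 2) : Dat n where
  H := D.H
  U := fun x => D.U x + t * φ x
  smH := D.smH
  smU := D.smU.add ((Sm.const t).mul hφ.sm)
  homH := D.homH
  homU := D.homU.add (hφ.hom.cmul t)
  pos := hp

lemma qM_tan (hx : ‖x‖ = 1) {v : Fin n → ℝ} (hv : ∑ i, x i * v i = 0) :
    qM D x v = qf (fun i j => hs D.H i j x) v v + D.U x * ∑ i, v i ^ 2 := by
  have e : ∀ i, ∑ j, D.M x i j * v i * v j =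
      ∑ j, hs D.H i j x * v i * v j + D.U x * (v i * ∑ j, kd i j * v j) +
        (1 - D.U x) * (x i * v i) * ∑ j, x j * v j := by
    intro i
    simp only [Finset.mul_sum, ← Finset.sum_add_distrib]
    refine Finset.sum_congr rfl fun j _ => ?_
    show (‖x‖ * hs D.H i j x + D.U x * (kd i j - x i * x j / ‖x‖ ^ 2) + x i * x j / ‖x‖ ^ 2) *
      v i * v j = _
    rw [hx]; ring
  unfold qM qf
  simp only [e, hv, mul_zero, add_zero, kd_mul, Finset.sum_add_distrib, ← Finset.mul_sum]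
  congr 2
  exact Finset.sum_congr rfl fun i _ => by ring

lemma pert_M (hφ : Q φ) (t : ℝ) (hp) (hx : ‖x‖ = 1) : (pert D hφ t hp).M x = NN D φ t x := by
  ext i j
  show ‖x‖ * hs D.H i j x + (D.U x + t * φ x) * (kd i j - x i * x j / ‖x‖ ^ 2) +
    x i * x j / ‖x‖ ^ 2 = (N (D.M x) x (t * φ x)) i j
  unfold N P
  rw [Matrix.add_apply, Matrix.smul_apply, Matrix.sub_apply, xx_apply, Matrix.one_apply,
    smul_eq_mul]
  show _ = ‖x‖ * hs D.H i j x + D.U x * (kd i j - x i * x j / ‖x‖ ^ 2) +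
    x i * x j / ‖x‖ ^ 2 + _
  rw [hx]
  unfold kd
  ring

lemma trA_eq (D : Dat n) (hx : ‖x‖ = 1) : H353.N.tr (D.A x) = sg (D.M x) := by
  unfold H353.N.tr sg
  have h : ∀ i, D.A x i i = (D.M x).adjugate i i - (D.M x).det * (x i * x i) := fun i => by
    show (D.M x).adjugate i i - (D.M x).det * (x i * x i / ‖x‖ ^ 2) = _
    rw [hx]; ring
  simp only [h, Finset.sum_sub_distrib, ← Finset.mul_sum, Shell.sum_xx hx, mul_one]
  rfl

/-- positivity of the trace -/
lemma sg_pos [Fact (3 ≤ n)] (D : Dat n) (hx : ‖x‖ = 1) : 0 < sg (D.M x) := by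
  have hn3 := Fact.out (p := 3 ≤ n)
  have hx0 := ne_zero_of_one hx
  have hdet : (D.M x).det ≠ 0 := D.det_ne hx0
  rw [sg_eq hdet]
  refine mul_pos (D.dt_pos hx0) ?_
  have hP := (D.M_posDef_one hx).inv
  have hAx : (D.M x)⁻¹ *ᵥ (x : Fin n → ℝ) = x := inv_x hdet (DM_x D hx)
  -- the trace over the plane
  have hs : ((D.M x)⁻¹)ᵀ = (D.M x)⁻¹ := by rw [transpose_nonsing_inv, DM_symm]
  have hnn : ∀ v : Fin n → ℝ, (∑ i, x i * v i) ^ 2 ≤ v ⬝ᵥ ((D.M x)⁻¹ *ᵥ v) := by
    intro v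
    set c := ∑ i, x i * v i with hc
    have h1 := hP.posSemidef.dotProduct_mulVec_nonneg (v - c • (x : Fin n → ℝ))
    have hxv : (x : Fin n → ℝ) ⬝ᵥ v = c := rfl
    have hvx : v ⬝ᵥ (x : Fin n → ℝ) = c := by rw [dotProduct_comm]; exact hxv
    have hxA : (x : Fin n → ℝ) ⬝ᵥ ((D.M x)⁻¹ *ᵥ v) = c := by
      rw [dotProduct_mulVec, ← mulVec_transpose, hs, hAx, hxv]
    rw [star_trivial, mulVec_sub, mulVec_smul, hAx, sub_dotProduct, dotProduct_sub, dotProduct_sub,
      smul_dotProduct, smul_dotProduct, dotProduct_smul, dotProduct_smul, hxA, hvx,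
      dot_xx hx] at h1
    simp only [smul_eq_mul] at h1
    nlinarith
  -- sum over the basis
  have hdiag : ∀ i, x i ^ 2 ≤ (D.M x)⁻¹ i i := by
    intro i
    have h1 := hnn (Pi.single i 1)
    simpa [Pi.single_apply] using h1
  have htr : (1 : ℝ) ≤ (D.M x)⁻¹.trace := by
    have h1 : ∑ i, x i ^ 2 ≤ ∑ i, (D.M x)⁻¹ i i := Finset.sum_le_sum fun i _ => hdiag i
    have h2 : ∑ i, x i ^ 2 = 1 := by
      rw [← Shell.sum_xx hx]; exact Finset.sum_congr rfl fun i _ => by ring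
    rw [h2] at h1
    exact h1
  rcases htr.lt_or_eq with h | h
  · linarith
  · exfalso
    -- equality forces a tangential null vector
    have hall : ∀ i, (D.M x)⁻¹ i i = x i ^ 2 := by
      have h2 : ∑ i, x i ^ 2 = 1 := by
        rw [← Shell.sum_xx hx]; exact Finset.sum_congr rfl fun i _ => by ring
      have h3 : ∑ i, ((D.M x)⁻¹ i i - x i ^ 2) = 0 := by
        rw [Finset.sum_sub_distrib, h2]
        show (D.M x)⁻¹.trace - 1 = 0
        linarith
      intro i
      have := (Finset.sum_eq_zero_iff_of_nonneg fun i _ => sub_nonneg.mpr (hdiag i)).mp h3 i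
        (Finset.mem_univ i)
      linarith
    -- pick an index `i` with `x i ^ 2 < 1`
    obtain ⟨i, hi⟩ : ∃ i, x i ^ 2 < 1 := by
      by_contra hcon
      push Not at hcon
      have h2 : ∑ i, x i ^ 2 = 1 := by
        rw [← Shell.sum_xx hx]; exact Finset.sum_congr rfl fun i _ => by ring
      have h3 : ∑ _i : Fin n, (1 : ℝ) ≤ ∑ i, x i ^ 2 := Finset.sum_le_sum fun i _ => hcon i
      rw [h2] at h3
      simp only [Finset.sum_const, Finset.card_univ, Fintype.card_fin, nsmul_eq_mul, mul_one] at h3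
      have : (3 : ℝ) ≤ n := by exact_mod_cast hn3
      linarith
    set v : Fin n → ℝ := Pi.single i 1 - x i • (x : Fin n → ℝ) with hv
    have hv0 : v ≠ 0 := by
      intro h0
      have h1 := congrFun h0 i
      simp only [hv, Pi.sub_apply, Pi.single_eq_same, Pi.smul_apply, smul_eq_mul, Pi.zero_apply] at h1
      nlinarith
    have h1 := hP.dotProduct_mulVec_pos hv0
    have hxA : ∀ w : Fin n → ℝ, (x : Fin n → ℝ) ⬝ᵥ ((D.M x)⁻¹ *ᵥ w) = (x : Fin n → ℝ) ⬝ᵥ w := by
      intro w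
      rw [dotProduct_mulVec, ← mulVec_transpose, hs, hAx]
    rw [star_trivial, hv, mulVec_sub, mulVec_smul, hAx, sub_dotProduct, dotProduct_sub,
      dotProduct_sub, smul_dotProduct, smul_dotProduct, dotProduct_smul, dotProduct_smul, hxA,
      dot_xx hx] at h1
    have e1 : (Pi.single i (1 : ℝ)) ⬝ᵥ ((D.M x)⁻¹ *ᵥ Pi.single i 1) = (D.M x)⁻¹ i i := by
      simp
    have e2 : (Pi.single i (1 : ℝ)) ⬝ᵥ (x : Fin n → ℝ) = x i := by simp
    have e3 : (x : Fin n → ℝ) ⬝ᵥ (Pi.single i (1 : ℝ)) = x i := by simp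
    rw [e1, e2, e3, hall i] at h1
    simp only [smul_eq_mul] at h1
    nlinarith

/-! ### continuity -/

lemma NN_cont (hφ : Q φ) {S : Set ℝ} :
    ContinuousOn (fun p : ℝ × E n => NN D φ p.1 p.2) (S ×ˢ sphere (0 : E n) 1) := by
  refine continuousOn_pi.2 fun i => continuousOn_pi.2 fun j => ?_
  have hc : ∀ k : Fin n, ContinuousOn (fun p : ℝ × E n => p.2 k) (S ×ˢ sphere (0 : E n) 1) :=
    fun k => ((EuclideanSpace.proj (𝕜 := ℝ) k).continuous.comp continuous_snd).continuousOn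
  have hM : ContinuousOn (fun p : ℝ × E n => D.M p.2 i j) (S ×ˢ sphere (0 : E n) 1) :=
    (D.smM i j).contOn.comp continuous_snd.continuousOn fun p hp => hp.2
  have hf : ContinuousOn (fun p : ℝ × E n => φ p.2) (S ×ˢ sphere (0 : E n) 1) :=
    hφ.sm.contOn.comp continuous_snd.continuousOn fun p hp => hp.2
  have h1 : ContinuousOn (fun p : ℝ × E n => D.M p.2 i j +
      p.1 * φ p.2 * ((1 : Matrix (Fin n) (Fin n) ℝ) i j - p.2 i * p.2 j)) (S ×ˢ sphere (0 : E n) 1) :=
    hM.add ((continuous_fst.continuousOn.mul hf).mul (continuousOn_const.sub ((hc i).mul (hc j))))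
  refine h1.congr fun p _ => ?_
  simp only [NN, N, P, Matrix.add_apply, Matrix.smul_apply, Matrix.sub_apply, xx_apply, smul_eq_mul]

lemma det_cont (hφ : Q φ) {S : Set ℝ} :
    ContinuousOn (fun p : ℝ × E n => (NN D φ p.1 p.2).det) (S ×ˢ sphere (0 : E n) 1) :=
  (Continuous.matrix_det continuous_id).comp_continuousOn (NN_cont hφ)

lemma adj_cont (hφ : Q φ) {S : Set ℝ} :
    ContinuousOn (fun p : ℝ × E n => (NN D φ p.1 p.2).adjugate) (S ×ˢ sphere (0 : E n) 1) :=
  (Continuous.matrix_adjugate continuous_id).comp_continuousOn (NN_cont hφ)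

lemma sg_cont (hφ : Q φ) {S : Set ℝ} :
    ContinuousOn (fun p : ℝ × E n => sg (NN D φ p.1 p.2)) (S ×ˢ sphere (0 : E n) 1) :=
  ((Continuous.matrix_trace continuous_id).comp_continuousOn (adj_cont hφ)).sub (det_cont hφ)

/-- `kk` without the inverse -/
lemma kk_eq {A : Matrix (Fin n) (Fin n) ℝ} (h : A.det ≠ 0) :
    kk A = (sg A ^ 2 - (A.adjugate * A.adjugate).trace + A.det ^ 2) / A.det := by
  unfold kk
  rw [sg_eq h, adj_eq h, Matrix.smul_mul, Matrix.mul_smul, smul_smul, Matrix.trace_smul,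
    smul_eq_mul]
  field_simp
  ring

lemma kk_cont (hφ : Q φ) {S : Set ℝ} (hdet : ∀ p ∈ S ×ˢ sphere (0 : E n) 1,
    (NN D φ p.1 p.2).det ≠ 0) :
    ContinuousOn (fun p : ℝ × E n => kk (NN D φ p.1 p.2)) (S ×ˢ sphere (0 : E n) 1) := by
  have h1 : ContinuousOn (fun p : ℝ × E n => (sg (NN D φ p.1 p.2) ^ 2 -
      ((NN D φ p.1 p.2).adjugate * (NN D φ p.1 p.2).adjugate).trace + (NN D φ p.1 p.2).det ^ 2) /
      (NN D φ p.1 p.2).det) (S ×ˢ sphere (0 : E n) 1) := by
    refine ContinuousOn.div ((((sg_cont hφ).pow 2).sub ?_).add ((det_cont hφ).pow 2))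
      (det_cont hφ) hdet
    exact (Continuous.matrix_trace continuous_id).comp_continuousOn
      ((adj_cont hφ).mul (adj_cont hφ))
  exact h1.congr fun p hp => kk_eq (hdet p hp)

end Var

end Vale.Agent.P366.Shell
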