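import Mathlib
import Vale.Agent.P366.H745.Eq3

/-! Equality case: the first variation in the direction of a function. -/

open MeasureTheory Metric Filter Topology Set
open scoped ContDiff

noncomputable section
namespace Vale.Agent.P366.Shell

open Vale.Agent.P366 (sphI sphM pd)
open Vale.Agent.P366.H353.N
open Matrix

namespace Var

variable {n : ℕ} {D : Dat n} {φ : E n → ℝ} {x : E n} {t : ℝ}

/-- the perturbed integral of `Phi` -/
lemma Phi_le [Fact (3 ≤ n)] {δ : ℝ} (hδ0 : 0 < δ)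
    (hδ : ∀ x : E n, ‖x‖ = 1 → ∀ v : Fin n → ℝ, δ * ∑ i, v i ^ 2 ≤ qM D x v)
    (hb : ∀ x : E n, x ≠ 0 → ∀ i, pd i D.U x = 0) (hφ : Q φ) (hp) (hx : ‖x‖ = 1)
    (hs : |t * φ x| ≤ δ / 2) :
    (pert D hφ t hp).Phi x ≤ sg (NN D φ t x) +
      sg (NN D φ t x) * ((2 / δ) ^ 2 * gsq φ x) * t ^ 2 := by
  have hx0 := ne_zero_of_one hx
  set D' := pert D hφ t hp with hD'
  have hM : D'.M x = NN D φ t x := pert_M hφ t hp hx
  have htr := trA_eq D' hx
  rw [hM] at htr
  have hbx := D'.b_x hx0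
  have hq : 0 ≤ qf (D'.A x) (D'.b x) (D'.b x) := by
    by_cases h0 : D'.b x = 0
    · rw [h0]; simp [qf]
    · exact (D'.A_posDef hx _ hbx h0).le
  have hgrad : ∀ j, pd j D'.U x = t * pd j φ x := by
    intro j
    show pd j (fun x => D.U x + t * φ x) x = _
    rw [pd_add' D.smU ((Sm.const t).mul hφ.sm) hx0, pd_cmul' hφ.sm t hx0, hb x hx0]
    ring
  have hbe : D'.b x = t • ((NN D φ t x)⁻¹ *ᵥ fun j => pd j φ x) := by
    ext i
    show ∑ j, (D'.M x)⁻¹ i j * (‖x‖ * pd j D'.U x) = _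
    simp only [hM, hx, one_mul, hgrad, Pi.smul_apply, mulVec, dotProduct, smul_eq_mul,
      Finset.mul_sum]
    exact Finset.sum_congr rfl fun j _ => by ring
  have hb2 : ∑ i, D'.b x i ^ 2 ≤ (2 / δ) ^ 2 * gsq φ x * t ^ 2 := by
    have h1 := inv_le hδ0 hδ hx hs fun j => pd j φ x
    have h2 : ∑ i, D'.b x i ^ 2 = t ^ 2 * ∑ i, ((NN D φ t x)⁻¹ *ᵥ fun j => pd j φ x) i ^ 2 := by
      rw [hbe, Finset.mul_sum]
      exact Finset.sum_congr rfl fun i _ => by
        simp only [Pi.smul_apply, smul_eq_mul]; ring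
    rw [h2]
    have h3 : t ^ 2 * ∑ i, ((NN D φ t x)⁻¹ *ᵥ fun j => pd j φ x) i ^ 2 ≤
        t ^ 2 * ((2 / δ) ^ 2 * ∑ i, (pd i φ x) ^ 2) := by
      have : 0 ≤ t ^ 2 := sq_nonneg t
      gcongr
      exact h1
    unfold gsq
    linarith
  have hsg : 0 ≤ sg (NN D φ t x) := by
    rw [← hM]; exact (sg_pos D' hx).le
  show H353.N.tr (D'.A x) + (H353.N.tr (D'.A x) * ∑ i, D'.b x i ^ 2 -
    qf (D'.A x) (D'.b x) (D'.b x)) ≤ _
  rw [htr]
  nlinarith [mul_le_mul_of_nonneg_left hb2 hsg]

/-- the integral over the sphere of a bounded function -/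
lemma SI_le_const [Fact (3 ≤ n)] {f : E n → ℝ} {C : ℝ} (hf : ContinuousOn f (sphere (0 : E n) 1))
    (h : ∀ x : E n, ‖x‖ = 1 → f x ≤ C) : SI f ≤ om n * C := by
  rw [← SI_const]
  exact SI_mono hf continuousOn_const h

/-- the first variation -/
theorem variation [Fact (3 ≤ n)] (D : Dat n) (hb : ∀ x : E n, x ≠ 0 → ∀ i, pd i D.U x = 0)
    (heq : ((n : ℝ) - 1) ^ (n - 1) * om n * SI D.dt ^ (n - 2) = SI (fun x => sg (D.M x)) ^ (n - 1))
    (hφ : Q φ) :
    ((n : ℝ) - 1) * SI D.dt * SI (fun x => φ x * kk (D.M x)) =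
      ((n : ℝ) - 2) * SI (fun x => sg (D.M x)) * SI (fun x => φ x * sg (D.M x)) := by
  have hn3 := Fact.out (p := 3 ≤ n)
  have hn : (3 : ℝ) ≤ n := by exact_mod_cast hn3
  obtain ⟨δ, hδ0, hδ⟩ := exists_delta D
  -- bounds
  obtain ⟨C0, hC0⟩ := (isCompact_sphere (0 : E n) 1).exists_bound_of_continuousOn hφ.sm.contOn
  obtain ⟨G0, hG0⟩ := (isCompact_sphere (0 : E n) 1).exists_bound_of_continuousOn hφ.sm.gsq.contOn
  set C := |C0| + 1 with hC
  have hCpos : 0 < C := by positivity
  set ε := δ / 2 / C with hε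
  have hεpos : 0 < ε := by positivity
  have hsm : ∀ t ∈ Icc (-ε) ε, ∀ x : E n, ‖x‖ = 1 → |t * φ x| ≤ δ / 2 := by
    intro t ht x hx
    have h1 : |φ x| ≤ C := by
      have := hC0 x (by simpa using hx)
      rw [Real.norm_eq_abs] at this
      have h2 := le_abs_self C0
      rw [hC]; linarith
    have h2 : |t| ≤ ε := abs_le.mpr ht
    rw [abs_mul]
    calc |t| * |φ x| ≤ ε * C := by gcongr
      _ = δ / 2 := by rw [hε]; field_simp
  have hp : ∀ t ∈ Icc (-ε) ε, ∀ x : E n, ‖x‖ = 1 → ∀ v : Fin n → ℝ, ∑ i, x i * v i = 0 → v ≠ 0 →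
      0 < qf (fun i j => hs D.H i j x) v v + (D.U x + t * φ x) * ∑ i, v i ^ 2 := by
    intro t ht x hx v hv hv0
    have h1 := (N_posDef hδ0 hδ hx (hsm t ht x hx)).dotProduct_mulVec_pos hv0
    rw [star_trivial, qN_eq, qM_tan hx hv, hv] at h1
    linarith
  have hdetpos : ∀ t ∈ Icc (-ε) ε, ∀ x : E n, ‖x‖ = 1 → 0 < (NN D φ t x).det := fun t ht x hx =>
    (N_posDef hδ0 hδ hx (hsm t ht x hx)).det_pos
  -- bound of `sg`
  obtain ⟨S0, hS0⟩ := H296.N.unif_bound (g := fun t x => sg (NN D φ t x)) (a := -ε) (b := ε)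
    (sg_cont hφ)
  set K := om n * (|S0| * ((2 / δ) ^ 2 * |G0|)) with hK
  set v : ℝ → ℝ := fun t => SI fun x => (NN D φ t x).det with hv
  set s : ℝ → ℝ := fun t => SI fun x => sg (NN D φ t x) with hs
  have hNN0 : ∀ x, NN D φ 0 x = D.M x := fun x => by
    unfold NN; rw [zero_mul, N_zero]
  have hv0 : v 0 = SI D.dt := by
    rw [hv]; simp only [hNN0]; rfl
  have hs0 : s 0 = SI fun x => sg (D.M x) := by
    rw [hs]; simp only [hNN0]
  -- derivatives
  have h0mem : (0 : ℝ) ∈ Ioo (-ε) ε := ⟨by linarith, hεpos⟩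
  have hf : ContinuousOn (fun p : ℝ × E n => φ p.2) (Icc (-ε) ε ×ˢ sphere (0 : E n) 1) :=
    hφ.sm.contOn.comp continuous_snd.continuousOn fun p hp => hp.2
  have dv : HasDerivAt v (SI fun x => φ x * sg (D.M x)) 0 := by
    have := H296.N.SI_hasDerivAt (g := fun t x => (NN D φ t x).det)
      (g' := fun t x => φ x * sg (NN D φ t x)) (a := -ε) (b := ε) (det_cont hφ)
      (hf.mul (sg_cont hφ)) (fun t _ x hx => by
        have h1 := hasDerivAt_det (dot_xx hx) (DM_x D hx) (t * φ x)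
        have h2 : HasDerivAt (fun t : ℝ => t * φ x) (φ x) t := by
          simpa using (hasDerivAt_id t).mul_const (φ x)
        have h3 := HasDerivAt.comp t h1 h2
        rw [mul_comm] at h3
        exact h3) h0mem
    simpa only [hNN0] using this
  have ds : HasDerivAt s (SI fun x => φ x * kk (D.M x)) 0 := by
    have := H296.N.SI_hasDerivAt (g := fun t x => sg (NN D φ t x))
      (g' := fun t x => φ x * kk (NN D φ t x)) (a := -ε) (b := ε) (sg_cont hφ)
      (hf.mul (kk_cont hφ fun p hp => (hdetpos p.1 hp.1 p.2 (by simpa using hp.2)).ne'))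
      (fun t ht x hx => by
        have h1 := hasDerivAt_sg (t := t * φ x) (dot_xx hx) (DM_x D hx)
          (hdetpos t ⟨ht.1.le, ht.2.le⟩ x hx).ne'
        have h2 : HasDerivAt (fun t : ℝ => t * φ x) (φ x) t := by
          simpa using (hasDerivAt_id t).mul_const (φ x)
        have h3 := HasDerivAt.comp t h1 h2
        rw [mul_comm] at h3
        exact h3) h0mem
    simpa only [hNN0] using this
  -- the inequality
  have hineq : ∀ t ∈ Icc (-ε) ε,
      0 ≤ (s t + K * t ^ 2) ^ (n - 1) - ((n : ℝ) - 1) ^ (n - 1) * om n * v t ^ (n - 2) := by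
    intro t ht
    set D' := pert D hφ t (hp t ht) with hD'
    have h1 := main D'
    have e1 : SI D'.dt = v t := SI_congr fun x hx => by
      show (D'.M x).det = _
      rw [pert_M hφ t _ hx]
    have hcN : ContinuousOn (fun x => sg (NN D φ t x)) (sphere (0 : E n) 1) :=
      H296.N.slice_cont (g := fun t x => sg (NN D φ t x)) (sg_cont hφ) ht
    have h2 : SI D'.Phi ≤ s t + K * t ^ 2 := by
      obtain ⟨T, hTA, hTb, -⟩ := toTen D'
      have hPhi : D'.Phi = T.Phi := by
        funext x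
        unfold Dat.Phi Ten.Phi
        rw [hTA, hTb]
      have hc1 : ContinuousOn (fun x => sg (NN D φ t x) * ((2 / δ) ^ 2 * gsq φ x) * t ^ 2)
          (sphere (0 : E n) 1) :=
        (hcN.mul (continuousOn_const.mul hφ.sm.gsq.contOn)).mul continuousOn_const
      have h3 : SI D'.Phi ≤ SI fun x => sg (NN D φ t x) +
          sg (NN D φ t x) * ((2 / δ) ^ 2 * gsq φ x) * t ^ 2 := by
        rw [hPhi]
        refine SI_mono T.sm_Phi.contOn (hcN.add hc1) fun x hx => ?_
        rw [← hPhi]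
        exact Phi_le hδ0 hδ hb hφ (hp t ht) hx (hsm t ht x hx)
      rw [SI_add hcN hc1] at h3
      have h4 : SI (fun x => sg (NN D φ t x) * ((2 / δ) ^ 2 * gsq φ x) * t ^ 2) ≤
          om n * (|S0| * ((2 / δ) ^ 2 * |G0|) * t ^ 2) := by
        refine SI_le_const hc1 fun x hx => ?_
        have h5 : |sg (NN D φ t x)| ≤ |S0| :=
          (hS0 t ht x (by simpa using hx)).trans (le_abs_self _)
        have h6 : |gsq φ x| ≤ |G0| := (hG0 x (by simpa using hx)).trans (le_abs_self _)
        have h7 : sg (NN D φ t x) * ((2 / δ) ^ 2 * gsq φ x) ≤ |S0| * ((2 / δ) ^ 2 * |G0|) := by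
          have h8 : sg (NN D φ t x) * ((2 / δ) ^ 2 * gsq φ x) ≤
              |sg (NN D φ t x)| * ((2 / δ) ^ 2 * |gsq φ x|) := by
            have := le_abs_self (sg (NN D φ t x) * ((2 / δ) ^ 2 * gsq φ x))
            rw [abs_mul, abs_mul, abs_of_nonneg (sq_nonneg (2 / δ))] at this
            exact this
          refine h8.trans ?_
          gcongr
        have h9 : 0 ≤ t ^ 2 := sq_nonneg t
        exact mul_le_mul_of_nonneg_right h7 h9
      have h10 : om n * (|S0| * ((2 / δ) ^ 2 * |G0|) * t ^ 2) = K * t ^ 2 := by rw [hK]; ring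
      rw [h10] at h4
      linarith
    have h3 : 0 ≤ SI D'.Phi := by
      have hD : 0 < SI D'.dt := by
        rw [e1]
        have hc := H296.N.slice_cont (g := fun t x => (NN D φ t x).det) (det_cont hφ) ht
        have hnn : ∀ x : E n, ‖x‖ = 1 → 0 ≤ (NN D φ t x).det := fun x hx => (hdetpos t ht x hx).le
        have h4 : 0 ≤ v t := SI_nonneg hnn
        refine lt_of_le_of_ne h4 fun h5 => ?_
        have hx1 : ‖(EuclideanSpace.single (⟨0, by omega⟩ : Fin n) 1 : E n)‖ = 1 := by simp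
        have h6 := SI_eq_zero hc hnn h5.symm hx1
        exact (hdetpos t ht _ hx1).ne' h6
      refine SI_nonneg fun x hx => ?_
      obtain ⟨T, hTA, hTb, -⟩ := toTen D'
      have hx0 := ne_zero_of_one hx
      have hA : ∀ w : Fin n → ℝ, 0 ≤ qf (D'.A x) w w := by
        intro w
        have hq := (H353.N.D208.qf_le_tr (A := D'.A x) (fun i j => D'.A_symm x i j))
        by_contra hcon
        push Not at hcon
        -- decompose
        set c := ∑ i, x i * w i with hc
        set u : Fin n → ℝ := fun i => w i - c * x i with hu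
        have hxu : ∑ i, x i * u i = 0 := by
          have e : ∑ i, x i * u i = ∑ i, x i * w i - c * ∑ i, x i * x i := by
            rw [Finset.mul_sum, ← Finset.sum_sub_distrib]
            exact Finset.sum_congr rfl fun i _ => by rw [hu]; ring
          rw [e, Shell.sum_xx hx, ← hc]; ring
        have e1 : ∀ a b : Fin n → ℝ, qf (D'.A x) a b = ∑ i, a i * ∑ j, D'.A x i j * b j := by
          intro a b
          unfold qf
          refine Finset.sum_congr rfl fun i _ => ?_
          rw [Finset.mul_sum]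
          exact Finset.sum_congr rfl fun j _ => by ring
        have e2 : ∀ i, ∑ j, D'.A x i j * u j = ∑ j, D'.A x i j * w j := by
          intro i
          have e : ∑ j, D'.A x i j * u j = ∑ j, D'.A x i j * w j - c * ∑ j, D'.A x i j * x j := by
            rw [Finset.mul_sum, ← Finset.sum_sub_distrib]
            exact Finset.sum_congr rfl fun j _ => by rw [hu]; ring
          rw [e, D'.A_x hx0]; ring
        have e3 : ∑ i, x i * ∑ j, D'.A x i j * w j = 0 := by
          have e4 : ∑ i, x i * ∑ j, D'.A x i j * w j = ∑ j, (∑ i, D'.A x j i * x i) * w j := by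
            simp only [Finset.mul_sum, Finset.sum_mul]
            rw [Finset.sum_comm]
            exact Finset.sum_congr rfl fun i _ => Finset.sum_congr rfl fun j _ => by
              rw [D'.A_symm x j i]; ring
          rw [e4]
          simp only [D'.A_x hx0, zero_mul, Finset.sum_const_zero]
        have e5 : qf (D'.A x) u u = qf (D'.A x) w w := by
          rw [e1, e1]
          simp only [e2]
          have e6 : ∑ i, u i * ∑ j, D'.A x i j * w j = ∑ i, w i * (∑ j, D'.A x i j * w j) -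
              c * ∑ i, x i * ∑ j, D'.A x i j * w j := by
            rw [Finset.mul_sum, ← Finset.sum_sub_distrib]
            exact Finset.sum_congr rfl fun i _ => by rw [hu]; ring
          rw [e6, e3]; ring
        rw [← e5] at hcon
        by_cases h0 : u = 0
        · rw [h0] at hcon; simp [qf] at hcon
        · exact absurd (D'.A_posDef hx u hxu h0) (not_lt.mpr hcon.le)
      have h4 := H353.N.D208.qf_le_tr (A := D'.A x) (fun i j => D'.A_symm x i j) hA (D'.b x)
      have h5 : 0 ≤ H353.N.tr (D'.A x) := by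
        rw [trA_eq D' hx]; exact (sg_pos D' hx).le
      show 0 ≤ H353.N.tr (D'.A x) + (H353.N.tr (D'.A x) * ∑ i, D'.b x i ^ 2 -
        qf (D'.A x) (D'.b x) (D'.b x))
      linarith
    have h4 := pow_le_pow_left₀ h3 h2 (n - 1)
    rw [e1] at h1
    linarith
  -- the minimum
  set F : ℝ → ℝ := fun t => (s t + K * t ^ 2) ^ (n - 1) -
    ((n : ℝ) - 1) ^ (n - 1) * om n * v t ^ (n - 2) with hF
  have hF0 : F 0 = 0 := by
    rw [hF]
    simp only [hs0, hv0]
    rw [heq]; ring
  have hmin : IsLocalMin F 0 := by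
    filter_upwards [Icc_mem_nhds h0mem.1 h0mem.2] with t ht
    rw [hF0]
    exact hineq t ht
  have dK : HasDerivAt (fun t : ℝ => K * t ^ 2) 0 0 := by
    simpa using ((hasDerivAt_pow 2 (0 : ℝ)).const_mul K)
  have dF : HasDerivAt F (((n - 1 : ℕ) : ℝ) * (s 0 + K * 0 ^ 2) ^ (n - 1 - 1) *
      ((SI fun x => φ x * kk (D.M x)) + 0) -
      ((n : ℝ) - 1) ^ (n - 1) * om n * (((n - 2 : ℕ) : ℝ) * v 0 ^ (n - 2 - 1) *
        (SI fun x => φ x * sg (D.M x)))) 0 :=
    ((ds.add dK).pow (n - 1)).sub ((dv.pow (n - 2)).const_mul _)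
  have hz := hmin.hasDerivAt_eq_zero dF
  rw [hs0, hv0] at hz
  set S := SI fun x => sg (D.M x) with hS
  set V := SI D.dt with hV
  set a := SI fun x => φ x * kk (D.M x)
  set b := SI fun x => φ x * sg (D.M x)
  have hSpos : 0 < S := by
    have hc : ContinuousOn (fun x => sg (D.M x)) (sphere (0 : E n) 1) := by
      have := H296.N.slice_cont (g := fun t x => sg (NN D φ t x)) (sg_cont hφ)
        (Ioo_subset_Icc_self h0mem)
      simpa only [hNN0] using this
    have hnn : ∀ x : E n, ‖x‖ = 1 → 0 ≤ sg (D.M x) := fun x hx => (sg_pos D hx).le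
    refine lt_of_le_of_ne (SI_nonneg hnn) fun h5 => ?_
    have hx1 : ‖(EuclideanSpace.single (⟨0, by omega⟩ : Fin n) 1 : E n)‖ = 1 := by simp
    have h6 := SI_eq_zero hc hnn h5.symm hx1
    exact (sg_pos D hx1).ne' h6
  have c1 : ((n - 1 : ℕ) : ℝ) = (n : ℝ) - 1 := by rw [Nat.cast_sub (by omega)]; simp
  have c2 : ((n - 2 : ℕ) : ℝ) = (n : ℝ) - 2 := by rw [Nat.cast_sub (by omega)]; norm_num
  rw [c1, c2, show n - 1 - 1 = n - 2 by omega, show n - 2 - 1 = n - 3 by omega] at hz
  have hz' : ((n : ℝ) - 1) * S ^ (n - 2) * a =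
      ((n : ℝ) - 1) ^ (n - 1) * om n * (((n : ℝ) - 2) * V ^ (n - 3) * b) := by
    have : (S + K * 0 ^ 2) = S := by ring
    rw [this] at hz
    linarith
  have p1 : S ^ (n - 1) = S ^ (n - 2) * S := by rw [← pow_succ]; congr 1; omega
  have p2 : V ^ (n - 2) = V ^ (n - 3) * V := by rw [← pow_succ]; congr 1; omega
  have hSn : 0 < S ^ (n - 1) := by positivity
  have key : S ^ (n - 1) * (((n : ℝ) - 1) * V * a) = S ^ (n - 1) * (((n : ℝ) - 2) * S * b) := by
    have l1 : S ^ (n - 1) * (((n : ℝ) - 1) * V * a) = (((n : ℝ) - 1) * S ^ (n - 2) * a) * (S * V) := by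
      rw [p1]; ring
    have l2 : S ^ (n - 1) * (((n : ℝ) - 2) * S * b) =
        (((n : ℝ) - 1) ^ (n - 1) * om n * (((n : ℝ) - 2) * V ^ (n - 3) * b)) * (S * V) := by
      rw [← heq, p2]; ring
    rw [l1, l2, hz']
  exact mul_left_cancel₀ hSn.ne' key

end Var

end Vale.Agent.P366.Shell
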