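import Mathlib
import Vale.Agent.P366.H745.Eq4

/-! Equality case: only round spheres. -/

open MeasureTheory Metric Filter Topology Set
open scoped ContDiff

noncomputable section
namespace Vale.Agent.P366.Shell

open Vale.Agent.P366 (sphI sphM pd Nc)
open Vale.Agent.P366.H353.N
open Matrix

namespace Var

variable {n : ℕ} {x : E n}

/-- `kk` without the inverse -/
def K1 (A : Matrix (Fin n) (Fin n) ℝ) : ℝ :=
  (sg A ^ 2 - (A.adjugate * A.adjugate).trace + A.det ^ 2) / A.det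

lemma sm_sg (D : Dat n) : Sm fun x => sg (D.M x) :=
  (Sm.sum _ fun i => H353.N.MC.sm_adj D.smM i i).sub (H353.N.MC.sm_det D.smM)

lemma sm_K1 (D : Dat n) : Sm fun x => K1 (D.M x) := by
  have ha := fun i j => H353.N.MC.sm_adj D.smM i j
  have h0 : Sm fun x => ∑ i : Fin n, ∑ k : Fin n,
      (D.M x).adjugate i k * (D.M x).adjugate k i :=
    Sm.sum _ fun i => Sm.sum _ fun k => (ha i k).mul (ha k i)
  have h1 : Sm fun x => ((D.M x).adjugate * (D.M x).adjugate).trace :=
    h0.congr fun x _ => by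
      simp only [Matrix.trace, Matrix.diag_apply, Matrix.mul_apply]
  exact ((((sm_sg D).pow 2).sub h1).add ((H353.N.MC.sm_det D.smM).pow 2)).div
    (H353.N.MC.sm_det D.smM) fun x hx => D.det_ne hx

lemma hom_M (D : Dat n) (F : Matrix (Fin n) (Fin n) ℝ → ℝ) : Hom 0 fun x => F (D.M x) :=
  fun x hx r hr => by
    show F (D.M (r • x)) = _
    rw [D.M_smul hx hr]; simp

/-- Equality forces the second fundamental form to be a multiple of the metric. -/
theorem umb [Fact (3 ≤ n)] (D : Dat n) (hb : ∀ x : E n, x ≠ 0 → ∀ i, pd i D.U x = 0)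
    (heq : ((n : ℝ) - 1) ^ (n - 1) * om n * SI D.dt ^ (n - 2) = SI (fun x => sg (D.M x)) ^ (n - 1)) :
    ∃ r : ℝ, 0 < r ∧ ∀ x : E n, ‖x‖ = 1 → D.M x = xx x + r • P x := by
  have hn3 := Fact.out (p := 3 ≤ n)
  have hn : (3 : ℝ) ≤ n := by exact_mod_cast hn3
  set S := SI fun x => sg (D.M x) with hS
  set V := SI D.dt with hV
  have csg := (sm_sg D).contOn
  have cdt : ContinuousOn D.dt (sphere (0 : E n) 1) := (H353.N.MC.sm_det D.smM).contOn
  have hx1 : ‖(EuclideanSpace.single (⟨0, by omega⟩ : Fin n) 1 : E n)‖ = 1 := by simp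
  have hSpos : 0 < S := by
    have hnn : ∀ x : E n, ‖x‖ = 1 → 0 ≤ sg (D.M x) := fun x hx => (sg_pos D hx).le
    refine lt_of_le_of_ne (SI_nonneg hnn) fun h5 => ?_
    exact (sg_pos D hx1).ne' (SI_eq_zero csg hnn h5.symm hx1)
  have hVpos : 0 < V := by
    have hnn : ∀ x : E n, ‖x‖ = 1 → 0 ≤ D.dt x := fun x hx => (D.dt_pos (ne_zero_of_one hx)).le
    refine lt_of_le_of_ne (SI_nonneg hnn) fun h5 => ?_
    exact (D.dt_pos (ne_zero_of_one hx1)).ne' (SI_eq_zero cdt hnn h5.symm hx1)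
  set φ : E n → ℝ := fun x => ((n : ℝ) - 1) * V * K1 (D.M x) - ((n : ℝ) - 2) * S * sg (D.M x) with hφ
  have hQ : Q φ := ⟨((Sm.const _).mul (sm_K1 D)).sub ((Sm.const _).mul (sm_sg D)),
    hom_M D fun A => ((n : ℝ) - 1) * V * K1 A - ((n : ℝ) - 2) * S * sg A⟩
  have hkk : ∀ x : E n, ‖x‖ = 1 → kk (D.M x) = K1 (D.M x) := fun x hx =>
    kk_eq (D.det_ne (ne_zero_of_one hx))
  have hvar := variation D hb heq hQ
  have hφ0 : ∀ x : E n, ‖x‖ = 1 → φ x = 0 := by
    have hI : SI (fun x => φ x ^ 2) = 0 := by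
      have e1 : SI (fun x => φ x * kk (D.M x)) = SI (fun x => φ x * K1 (D.M x)) :=
        SI_congr fun x hx => by rw [hkk x hx]
      rw [e1] at hvar
      have e2 : SI (fun x => φ x ^ 2) = ((n : ℝ) - 1) * V * SI (fun x => φ x * K1 (D.M x)) -
          ((n : ℝ) - 2) * S * SI (fun x => φ x * sg (D.M x)) := by
        have c1 : ContinuousOn (fun x => ((n : ℝ) - 1) * V * (φ x * K1 (D.M x)))
          (sphere (0 : E n) 1) := continuousOn_const.mul (hQ.sm.mul (sm_K1 D)).contOn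
        have c2 : ContinuousOn (fun x => ((n : ℝ) - 2) * S * (φ x * sg (D.M x)))
          (sphere (0 : E n) 1) := continuousOn_const.mul (hQ.sm.mul (sm_sg D)).contOn
        have e3 := SI_sub c1 c2
        have e4 := SI_cmul (n := n) (((n : ℝ) - 1) * V) fun x => φ x * K1 (D.M x)
        have e5 := SI_cmul (n := n) (((n : ℝ) - 2) * S) fun x => φ x * sg (D.M x)
        have e6 : SI (fun x => φ x ^ 2) = SI fun x => ((n : ℝ) - 1) * V * (φ x * K1 (D.M x)) -
            ((n : ℝ) - 2) * S * (φ x * sg (D.M x)) := SI_congr fun x _ => by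
          show φ x ^ 2 = _
          have : φ x = ((n : ℝ) - 1) * V * K1 (D.M x) - ((n : ℝ) - 2) * S * sg (D.M x) := rfl
          rw [pow_two]
          nth_rw 2 [this]
          ring
        rw [e6, e3, e4, e5]
      rw [e2]
      linarith
    intro x hx
    have := SI_eq_zero (f := fun x => φ x ^ 2) (hQ.sm.pow 2).contOn (fun x _ => sq_nonneg _) hI hx
    exact pow_eq_zero_iff (two_ne_zero) |>.1 this
  -- pointwise
  have hpt : ∀ x : E n, ‖x‖ = 1 →
      ((n : ℝ) - 1) * V * (((D.M x)⁻¹.trace - 1) ^ 2 - (((D.M x)⁻¹ * (D.M x)⁻¹).trace - 1)) =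
        ((n : ℝ) - 2) * S * ((D.M x)⁻¹.trace - 1) := by
    intro x hx
    have h1 := hφ0 x hx
    have hdet : (D.M x).det ≠ 0 := D.det_ne (ne_zero_of_one hx)
    simp only [hφ] at h1
    rw [← hkk x hx, sg_eq hdet] at h1
    unfold kk at h1
    have h2 : (D.M x).det * (((n : ℝ) - 1) * V * (((D.M x)⁻¹.trace - 1) ^ 2 -
        (((D.M x)⁻¹ * (D.M x)⁻¹).trace - 1)) - ((n : ℝ) - 2) * S * ((D.M x)⁻¹.trace - 1)) = 0 := by
      linarith
    have h3 := (mul_eq_zero.mp h2).resolve_left hdet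
    linarith
  have hum : ∀ x : E n, ‖x‖ = 1 → ∑ i, ∑ j, ((D.M x)⁻¹ i j - xx x i j -
      (((D.M x)⁻¹.trace - 1) / (n - 1)) * P x i j) ^ 2 =
      (((D.M x)⁻¹ * (D.M x)⁻¹).trace - 1) - ((D.M x)⁻¹.trace - 1) ^ 2 / (n - 1) := by
    intro x hx
    have hdet : (D.M x).det ≠ 0 := D.det_ne (ne_zero_of_one hx)
    have hn1 : (n : ℝ) - 1 ≠ 0 := by linarith
    refine umbilic hn1 (dot_xx hx) ?_ (inv_x hdet (DM_x D hx)) ?_
    · rw [transpose_nonsing_inv, DM_symm]
    · field_simp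
  have hτ : ∀ x : E n, ‖x‖ = 1 → 0 < (D.M x)⁻¹.trace - 1 := by
    intro x hx
    have hdet : (D.M x).det ≠ 0 := D.det_ne (ne_zero_of_one hx)
    have h1 := sg_pos D hx
    rw [sg_eq hdet] at h1
    exact pos_of_mul_pos_right h1 (D.dt_pos (ne_zero_of_one hx)).le
  have hge : ∀ x : E n, ‖x‖ = 1 → S ≤ V * ((D.M x)⁻¹.trace - 1) := by
    intro x hx
    have h1 := hpt x hx
    have h2 := hum x hx
    have h3 := hτ x hx
    have hn1 : 0 < (n : ℝ) - 1 := by linarith
    have hn2 : 0 < (n : ℝ) - 2 := by linarith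
    set τ := (D.M x)⁻¹.trace - 1
    set β := ((D.M x)⁻¹ * (D.M x)⁻¹).trace - 1
    have h4 : 0 ≤ β - τ ^ 2 / (n - 1) := by
      rw [← h2]
      exact Finset.sum_nonneg fun i _ => Finset.sum_nonneg fun j _ => sq_nonneg _
    have h5 : ((n : ℝ) - 2) * S * τ ≤ ((n : ℝ) - 2) * (V * τ) * τ := by
      have h6 : ((n : ℝ) - 1) * V * (τ ^ 2 - β) ≤ ((n : ℝ) - 1) * V * (τ ^ 2 - τ ^ 2 / (n - 1)) := by
        have : 0 < ((n : ℝ) - 1) * V := by positivity
        exact mul_le_mul_of_nonneg_left (by linarith) this.le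
      have h7 : ((n : ℝ) - 1) * V * (τ ^ 2 - τ ^ 2 / (n - 1)) = ((n : ℝ) - 2) * (V * τ) * τ := by
        field_simp
        ring
      linarith
    have h8 : 0 < ((n : ℝ) - 2) * τ := by positivity
    have h9 : (((n : ℝ) - 2) * τ) * S ≤ (((n : ℝ) - 2) * τ) * (V * τ) := by linarith
    exact le_of_mul_le_mul_left h9 h8
  -- equality
  have heqV : ∀ x : E n, ‖x‖ = 1 → V * ((D.M x)⁻¹.trace - 1) = S := by
    intro x hx
    have hf0 : ∀ x : E n, ‖x‖ = 1 → 0 ≤ V * sg (D.M x) - S * D.dt x := by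
      intro y hy
      have hdet : (D.M y).det ≠ 0 := D.det_ne (ne_zero_of_one hy)
      have hd := D.dt_pos (ne_zero_of_one hy)
      have h1 := hge y hy
      rw [sg_eq hdet]
      have h2 : (D.M y).det = D.dt y := rfl
      rw [h2]
      nlinarith
    have hI : SI (fun x => V * sg (D.M x) - S * D.dt x) = 0 := by
      have c1 : ContinuousOn (fun x => V * sg (D.M x)) (sphere (0 : E n) 1) :=
        continuousOn_const.mul csg
      have c2 : ContinuousOn (fun x => S * D.dt x) (sphere (0 : E n) 1) :=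
        continuousOn_const.mul cdt
      have e3 := SI_sub c1 c2
      have e4 := SI_cmul (n := n) V fun x => sg (D.M x)
      have e5 := SI_cmul (n := n) S D.dt
      rw [e3, e4, e5, ← hS, ← hV]
      ring
    have h1 := SI_eq_zero (f := fun x => V * sg (D.M x) - S * D.dt x)
      ((continuousOn_const.mul csg).sub (continuousOn_const.mul cdt)) hf0 hI hx
    have hdet : (D.M x).det ≠ 0 := D.det_ne (ne_zero_of_one hx)
    rw [sg_eq hdet] at h1
    have h2 : D.dt x = (D.M x).det := rfl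
    rw [h2] at h1
    have h3 : (D.M x).det * (V * ((D.M x)⁻¹.trace - 1) - S) = 0 := by linarith
    have h4 := (mul_eq_zero.mp h3).resolve_left hdet
    linarith
  set c := S / V / (n - 1) with hc
  have hn1 : 0 < (n : ℝ) - 1 := by linarith
  have hcpos : 0 < c := by positivity
  refine ⟨c⁻¹, inv_pos.mpr hcpos, fun x hx => ?_⟩
  have hdet : (D.M x).det ≠ 0 := D.det_ne (ne_zero_of_one hx)
  have h1 := hpt x hx
  have h2 := hum x hx
  have h3 : (D.M x)⁻¹.trace - 1 = S / V := by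
    rw [eq_div_iff hVpos.ne']
    linarith [heqV x hx]
  have hcc : ((D.M x)⁻¹.trace - 1) / (n - 1) = c := by rw [h3]
  rw [hcc] at h2
  have h4 : (((D.M x)⁻¹ * (D.M x)⁻¹).trace - 1) - ((D.M x)⁻¹.trace - 1) ^ 2 / (n - 1) = 0 := by
    set β := ((D.M x)⁻¹ * (D.M x)⁻¹).trace - 1
    rw [h3] at h1 ⊢
    have h5 : ((n : ℝ) - 1) * V * β = ((n : ℝ) - 1) * V * (S / V) ^ 2 - ((n : ℝ) - 2) * S * (S / V) := by
      linarith
    have h6 : β = (S / V) ^ 2 / (n - 1) := by
      field_simp at h5 ⊢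
      linarith
    rw [h6]; ring
  rw [h4] at h2
  have hB : (D.M x)⁻¹ = xx x + c • P x := by
    ext i j
    have h5 := (Finset.sum_eq_zero_iff_of_nonneg fun i _ =>
      Finset.sum_nonneg fun j _ => sq_nonneg _).mp h2 i (Finset.mem_univ i)
    have h6 := (Finset.sum_eq_zero_iff_of_nonneg fun j _ => sq_nonneg _).mp h5 j (Finset.mem_univ j)
    have h7 : (D.M x)⁻¹ i j - xx x i j - c * P x i j = 0 := by
      simpa using h6
    rw [Matrix.add_apply, Matrix.smul_apply, smul_eq_mul]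
    linarith
  have hxxP : xx (n := n) x * P x = 0 := by
    unfold P
    rw [mul_sub, mul_one, xx_eq, vecMulVec_mul_vecMulVec]
    ext i j
    simp only [Matrix.sub_apply, vecMulVec_apply, Pi.smul_apply, smul_eq_mul, Matrix.zero_apply]
    rw [dot_xx hx]; ring
  have hPxx : P x * xx (n := n) x = 0 := by
    have := congrArg transpose hxxP
    rw [transpose_mul, P_symm, xx_symm, transpose_zero] at this
    exact this
  have hxxxx : xx (n := n) x * xx x = xx x := by
    rw [xx_eq, vecMulVec_mul_vecMulVec]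
    ext i j
    simp only [vecMulVec_apply, Pi.smul_apply, smul_eq_mul]
    rw [dot_xx hx]; ring
  have hPP : P x * P x = P (n := n) x := by
    have h9 : P (n := n) x * P x = (1 - xx x) * P x := rfl
    rw [h9, sub_mul, one_mul, hxxP, sub_zero]
  have hmul : (D.M x)⁻¹ * (xx x + c⁻¹ • P x) = 1 := by
    rw [hB, add_mul, mul_add, mul_add, Matrix.mul_smul, hxxP, hxxxx, Matrix.smul_mul,
      Matrix.smul_mul, Matrix.mul_smul, hPxx, hPP, smul_smul, mul_inv_cancel₀ hcpos.ne', one_smul,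
      smul_zero, smul_zero, add_zero, zero_add]
    unfold P
    abel
  calc D.M x = D.M x * ((D.M x)⁻¹ * (xx x + c⁻¹ • P x)) := by rw [hmul, mul_one]
    _ = xx x + c⁻¹ • P x := by
        rw [← mul_assoc, mul_nonsing_inv _ hdet.isUnit, one_mul]

/-- Equality only for round spheres. -/
theorem round [Fact (3 ≤ n)] (D : Dat n) (hb : ∀ x : E n, x ≠ 0 → ∀ i, pd i D.U x = 0)
    (heq : ((n : ℝ) - 1) ^ (n - 1) * om n * SI D.dt ^ (n - 2) = SI (fun x => sg (D.M x)) ^ (n - 1)) :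
    ∃ r : ℝ, 0 < r ∧ ∃ u : ℝ, ∃ c : Fin n → ℝ, ∀ x : E n, ‖x‖ = 1 → D.U x = u ∧
      ∀ i, pd i D.H x + D.U x * Nc i x = c i + r * x i := by
  obtain ⟨r, hr, hM⟩ := umb D hb heq
  have const : ∀ f : E n → ℝ, Q f → (∀ x : E n, ‖x‖ = 1 → ∀ i, pd i f x = 0) →
      ∃ c, ∀ x : E n, ‖x‖ = 1 → f x = c := by
    intro f hf h
    refine rot_const hf fun a b => ?_
    rw [SI_congr (h := fun _ => 0) fun x hx => by unfold Rot; rw [h x hx, h x hx]; ring, SI_const,
      mul_zero]
  obtain ⟨u, hu⟩ := const D.U ⟨D.smU, D.homU⟩ fun x hx i => hb x (ne_zero_of_one hx) i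
  have hY : ∀ m, ∃ c, ∀ x : E n, ‖x‖ = 1 →
      pd m D.H x + D.U x * Nc m x - r * Nc m x = c := by
    intro m
    have s1 : Sm fun x => D.U x * Nc m x := D.smU.mul (sm_Nc m)
    have s2 : Sm fun x => pd m D.H x + D.U x * Nc m x := (D.smH.pd m).add s1
    have s3 : Sm fun x => r * Nc m x := (Sm.const r).mul (sm_Nc m)
    refine const _ ⟨s2.sub s3, ?_⟩ fun x hx i => ?_
    · exact (((D.homH.pd D.smH m).cast (by norm_num)).add
        ((D.homU.mul (hom_Nc m)).cast (by norm_num))).sub ((hom_Nc m).cmul r)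
    · have h0 := ne_zero_of_one hx
      rw [pd_sub' s2 s3 h0, pd_add' (D.smH.pd m) s1 h0, pd_mul' D.smU (sm_Nc m) h0,
        pd_cmul' (sm_Nc m) r h0, hb x h0, pd_Nc' h0, Nc_one hx, Nc_one hx, hx]
      have h1 := congrFun (congrFun (hM x hx) i) m
      have h2 : D.M x i m = hs D.H i m x + D.U x * (kd i m - x i * x m) + x i * x m := by
        show ‖x‖ * hs D.H i m x + D.U x * (kd i m - x i * x m / ‖x‖ ^ 2) + x i * x m / ‖x‖ ^ 2 = _
        rw [hx]; ring
      rw [h2, Matrix.add_apply, Matrix.smul_apply, smul_eq_mul, xx_apply] at h1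
      have h3 : P x i m = kd i m - x i * x m := by
        unfold P
        rw [Matrix.sub_apply, xx_apply, Matrix.one_apply]
        rfl
      rw [h3] at h1
      unfold hs at h1
      linarith
  choose c hc using hY
  exact ⟨r, hr, u, c, fun x hx => ⟨hu x hx, fun i => by
    have := hc i x hx
    rw [Nc_one hx] at this ⊢
    linarith⟩⟩

end Var

end Vale.Agent.P366.Shell
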