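import Mathlib
import Vale.Agent.P366.H381.NE3c
import Vale.Agent.P366.H745.Eq5
import Vale.Agent.P366.H745.N2d

/-! Equality case for surfaces in Minkowski space. -/

open MeasureTheory Metric Filter Topology Set
open scoped ContDiff

noncomputable section
namespace Vale.Agent.P366.Shell

open Vale.Agent.P366 (sphI sphM pd Nc pd_Nc sum_Nc_sq)
open Vale.Agent.P366.H353.N
open Matrix

variable {n : ℕ} {X L : E n → Vec n} {x : E n} {a : Fin n → ℝ}

/-- Equality in the main inequality. -/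
theorem main_eq [Fact (3 ≤ n)] (D : Dat n)
    (heq : SI D.Phi ^ (n - 1) = ((n : ℝ) - 1) ^ (n - 1) * om n * SI D.dt ^ (n - 2)) :
    ∃ r : ℝ, 0 < r ∧ ∃ u : ℝ, ∃ c : Fin n → ℝ, ∀ x : E n, ‖x‖ = 1 → D.U x = u ∧
      ∀ i, pd i D.H x + D.U x * Nc i x = c i + r * x i := by
  obtain ⟨u, hu⟩ := main_eq_U D heq
  have hb : ∀ x : E n, x ≠ 0 → ∀ i, pd i D.U x = 0 := fun x hx i => by
    rw [pd_congr' (f := fun _ => u) (fun y hy => hu y hy) hx, Vale.Agent.P366.pd_const]
  refine Var.round D hb ?_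
  rw [← heq]
  congr 1
  refine SI_congr fun x hx => ?_
  have h0 := ne_zero_of_one hx
  have hb0 : D.b x = 0 := by
    ext i
    show ∑ j, (D.M x)⁻¹ i j * (‖x‖ * pd j D.U x) = 0
    simp only [hb x h0, mul_zero, Finset.sum_const_zero]
  show H353.N.tr (D.A x) + (H353.N.tr (D.A x) * ∑ i, D.b x i ^ 2 - qf (D.A x) (D.b x) (D.b x)) = _
  rw [hb0, Var.trA_eq D hx]
  simp [qf]

/-- the radial vector -/
def rd (x : E n) : Vec n := Fin.cons 0 fun i => Nc i x

lemma rd_zero (x : E n) : rd x 0 = 0 := rfl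

lemma rd_succ (x : E n) (i : Fin n) : rd x i.succ = Nc i x := rfl

lemma rd_smul {r : ℝ} (hr : 0 < r) (hx : x ≠ 0) : rd (r • x) = rd x := by
  ext c
  refine Fin.cases rfl (fun i => ?_) c
  rw [rd_succ, rd_succ]
  have := hom_Nc i x hx r hr
  simpa using this

lemma norm_inv_smul (hx : x ≠ 0) : ‖‖x‖⁻¹ • x‖ = 1 := by
  rw [norm_smul, norm_inv, norm_norm, inv_mul_cancel₀ (norm_ne_zero_iff.mpr hx)]

/-- Equality in the frame of the parametrisation. -/
theorem base_eq [Fact (3 ≤ n)] (h : IsSurface X) (hL : IsNormal X L)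
    (heq : ((n : ℝ) - 1) ^ (n - 1) * om n * area X ^ (n - 2) = SI (qq X L) ^ (n - 1)) :
    ∃ r : ℝ, 0 < r ∧ ∃ p : Vec n, ∀ x : E n, x ≠ 0 → X x = p + r • rd x := by
  obtain ⟨T, hTA, hTb, -⟩ := toTen (dat h)
  have h1 := main (dat h)
  have h2 := Phi_le h T hTA hTb hL
  have h3 : 0 ≤ SI (dat h).Phi := SI_nonneg fun x hx => Dat.Phi_nonneg _ hx
  rw [area_eq h] at heq
  have h4 : SI (dat h).Phi ^ (n - 1) ≤ SI (qq X L) ^ (n - 1) := pow_le_pow_left₀ h3 h2 _
  obtain ⟨r, hr, u, c, hc⟩ := main_eq (dat h) (le_antisymm (h4.trans heq.ge) h1)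
  refine ⟨r, hr, Fin.cons (-u) c, fun x hx => ?_⟩
  have hy := norm_inv_smul hx
  have hpos : 0 < ‖x‖⁻¹ := inv_pos.mpr (norm_pos_iff.mpr hx)
  rw [← h.toIsMap.hom x hx _ hpos, ← rd_smul hpos hx]
  set y := ‖x‖⁻¹ • x
  obtain ⟨e1, e2⟩ := hc y hy
  have hU : Uf X y = u := e1
  ext d
  refine Fin.cases ?_ (fun i => ?_) d
  · show X y 0 = -u + r * 0
    rw [← hU]
    unfold Uf
    ring
  · show X y i.succ = c i + r * Nc i y
    rw [X_eq h (ne_zero_of_one hy), Nc_one hy]
    have := e2 i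
    rw [← this, Nc_one hy]
    rfl

lemma bst_neg_bst (a : Fin n → ℝ) (v : Vec n) : bst a (bst (-a) v) = v := by
  have h2 : ∑ i, a i ^ 2 = e0 a ^ 2 - 1 := by rw [e0_sq]; ring
  have h3 : (1 + e0 a) ≠ 0 := by have := e0_pos a; positivity
  have e1 : ∑ i : Fin n, (-a) i * v i.succ = - ∑ i : Fin n, a i * v i.succ := by
    simp only [Pi.neg_apply, neg_mul, Finset.sum_neg_distrib]
  have e2 : ∑ i : Fin n, a i * bst (-a) v i.succ =
      (∑ i : Fin n, a i * v i.succ) - cv (-a) v * ∑ i, a i ^ 2 := by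
    simp only [bst_succ, Pi.neg_apply, Finset.mul_sum, ← Finset.sum_sub_distrib]
    exact Finset.sum_congr rfl fun i _ => by ring
  have hcv : cv (-a) v = - (∑ i : Fin n, a i * v i.succ) / (1 + e0 a) + v 0 := by
    unfold cv
    rw [e1, e0_neg]
  have hc : cv a (bst (-a) v) = cv (-a) v := by
    have : cv a (bst (-a) v) = (∑ i : Fin n, a i * bst (-a) v i.succ) / (1 + e0 a) +
      bst (-a) v 0 := rfl
    rw [this, e2, bst_zero, e1, e0_neg, h2, hcv]
    field_simp
    ring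
  ext c
  refine Fin.cases ?_ (fun i => ?_) c
  · rw [bst_zero, e2, bst_zero, e1, e0_neg, h2, hcv]
    field_simp
    ring
  · rw [bst_succ, hc, bst_succ, Pi.neg_apply]
    ring

lemma bst_add_smul (a : Fin n → ℝ) (p v : Vec n) (r : ℝ) :
    bst a (p + r • v) = bst a p + r • bst a v := by
  have e : ∑ i : Fin n, a i * (p + r • v) i.succ =
      (∑ i : Fin n, a i * p i.succ) + r * ∑ i : Fin n, a i * v i.succ := by
    simp only [Pi.add_apply, Pi.smul_apply, smul_eq_mul, Finset.mul_sum,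
      ← Finset.sum_add_distrib]
    exact Finset.sum_congr rfl fun i _ => by ring
  ext c
  refine Fin.cases ?_ (fun i => ?_) c
  · show e0 a * (p 0 + r * v 0) + _ = _
    rw [e]
    show _ = (e0 a * p 0 + ∑ i : Fin n, a i * p i.succ) + r * (e0 a * v 0 +
      ∑ i : Fin n, a i * v i.succ)
    ring
  · show (p i.succ + r * v i.succ) + cv a (p + r • v) * a i = (p i.succ + cv a p * a i) +
      r * (v i.succ + cv a v * a i)
    unfold cv
    rw [e]
    show _ + ((_ + _) / _ + (p 0 + r * v 0)) * _ = _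
    ring

/-- the time vector -/
def tv (n : ℕ) : Vec n := Fin.cons 1 fun _ => 0

lemma mink_tv (v : Vec n) : mink v (tv n) = - v 0 := by
  unfold mink tv
  simp

lemma mink_rd (hx : x ≠ 0) : mink (rd x) (rd x) = 1 := by
  unfold mink
  simp only [rd_zero, rd_succ]
  have := sum_Nc_sq hx
  rw [show ∑ i, Nc i x * Nc i x = ∑ i, Nc i x ^ 2 from Finset.sum_congr rfl fun i _ => by ring,
    this]
  ring

/-- Boosts of round spheres. -/
theorem image_eq (a : Fin n → ℝ) {r : ℝ} (hr : 0 < r) {p : Vec n}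
    (h : ∀ z : E n, z ≠ 0 → bm a X z = p + r • rd z) :
    X '' {x | x ≠ 0} = {q | mink (q - bst a p) (bst a (tv n)) = 0 ∧
      mink (q - bst a p) (q - bst a p) = r ^ 2} := by
  have key : ∀ z : E n, z ≠ 0 → X (phi a z) = bst a p + r • bst a (rd z) := by
    intro z hz
    rw [← bst_add_smul, ← h z hz]
    exact (bst_neg_bst a _).symm
  ext q
  constructor
  · rintro ⟨y, hy, rfl⟩
    have hz := phi_ne (a := -a) hy
    have h1 := key _ hz
    rw [phi_phi_neg a hy] at h1
    have h2 : X y - bst a p = r • bst a (rd (phi (-a) y)) := by rw [h1]; abel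
    refine ⟨?_, ?_⟩
    · rw [h2, mink_smul_left, mink_bst, mink_tv, rd_zero]; ring
    · rw [h2, mink_smul_left, mink_smul_right, mink_bst, mink_rd hz]; ring
  · rintro ⟨h1, h2⟩
    set v := bst (-a) (q - bst a p) with hv
    have hvq : bst a v = q - bst a p := bst_neg_bst a _
    rw [← hvq, mink_bst, mink_tv] at h1
    rw [← hvq, mink_bst] at h2
    have hv0 : v 0 = 0 := by linarith
    have hvs : ∑ i : Fin n, v i.succ * v i.succ = r ^ 2 := by
      unfold mink at h2
      rw [hv0] at h2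
      linarith
    set z : E n := WithLp.toLp 2 fun i => v i.succ with hz
    have hzn : ‖z‖ ^ 2 = r ^ 2 := by
      rw [← sum_sq]; exact hvs
    have hzr : ‖z‖ = r := (sq_eq_sq₀ (norm_nonneg _) hr.le).mp hzn
    have hz0 : z ≠ 0 := by
      rw [← norm_pos_iff, hzr]; exact hr
    refine ⟨phi a z, phi_ne hz0, ?_⟩
    rw [key z hz0]
    have h3 : r • rd z = v := by
      ext c
      refine Fin.cases ?_ (fun i => ?_) c
      · show r * 0 = v 0
        rw [hv0]; ring
      · show r * Nc i z = v i.succ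
        have := norm_Nc i hz0
        rw [hzr] at this
        exact this
    have h4 : bst a p + r • bst a (rd z) = bst a p + bst a v := by
      rw [← h3, ← zero_add (r • rd z), bst_add_smul]
      congr 1
      have : bst a (0 : Vec n) = 0 := by
        ext c
        refine Fin.cases ?_ (fun i => ?_) c
        · rw [bst_zero]; simp
        · rw [bst_succ]; unfold cv; simp
      rw [this, zero_add]
    rw [h4, hvq]
    abel

lemma sqrt_mass [Fact (3 ≤ n)] (h : IsSurface X) (hL : IsNormal X L) :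
    0 < √(mom X L 0 ^ 2 - ∑ i : Fin n, mom X L i.succ ^ 2) ∧
    √(mom X L 0 ^ 2 - ∑ i : Fin n, mom X L i.succ ^ 2) ^ 2 =
      mom X L 0 ^ 2 - ∑ i : Fin n, mom X L i.succ ^ 2 := by
  have hn3 := Fact.out (p := 3 ≤ n)
  obtain ⟨h1, h2⟩ := ineq hn3 h hL
  have hA := area_pos h
  have hω : 0 < omega n := by rw [omega_eq]; exact om_pos
  have h3 : 0 < 1 / 2 * (area X / omega n) ^ (((n : ℝ) - 2) / ((n : ℝ) - 1)) := by positivity
  have h4 := h3.trans_le h2
  exact ⟨h4, Real.sq_sqrt (Real.sqrt_pos.mp h4).le⟩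

/-- Equality forces a round sphere. -/
theorem eq_round [Fact (3 ≤ n)] (h : IsSurface X) (hL : IsNormal X L)
    (heq : 1 / 2 * (area X / omega n) ^ (((n : ℝ) - 2) / ((n : ℝ) - 1)) =
        √(mom X L 0 ^ 2 - ∑ i : Fin n, mom X L i.succ ^ 2)) :
    ∃ (p e : Vec n) (r : ℝ), 0 < r ∧ mink e e = -1 ∧
      X '' {x | x ≠ 0} = {q | mink (q - p) e = 0 ∧ mink (q - p) (q - p) = r ^ 2} := by
  obtain ⟨hm, hmm⟩ := sqrt_mass h hL
  have hn3 := Fact.out (p := 3 ≤ n)
  have hn : (3 : ℝ) ≤ n := by exact_mod_cast hn3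
  have hlt := (ineq hn3 h hL).1
  set m := √(mom X L 0 ^ 2 - ∑ i : Fin n, mom X L i.succ ^ 2) with hmdef
  have hE : 0 < mom X L 0 := (Real.sqrt_nonneg _).trans_lt hlt
  set a : Fin n → ℝ := fun i => mom X L i.succ / m with ha
  have hsum : ∑ i, a i ^ 2 = (∑ i : Fin n, mom X L i.succ ^ 2) / m ^ 2 := by
    rw [Finset.sum_div]
    exact Finset.sum_congr rfl fun i _ => by rw [ha]; ring
  have he0 : e0 a = mom X L 0 / m := by
    unfold e0
    rw [hsum, show 1 + (∑ i : Fin n, mom X L i.succ ^ 2) / m ^ 2 = (mom X L 0 / m) ^ 2 by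
      field_simp
      linarith]
    exact Real.sqrt_sq (by positivity)
  have hval : e0 a * mom X L 0 - ∑ i : Fin n, a i * mom X L i.succ = m := by
    have : ∑ i : Fin n, a i * mom X L i.succ = (∑ i : Fin n, mom X L i.succ ^ 2) / m := by
      rw [Finset.sum_div]
      exact Finset.sum_congr rfl fun i _ => by rw [ha]; ring
    rw [he0, this]
    field_simp
    linarith
  have h1 := frame_val h hL a
  rw [hval, ← heq, omega_eq] at h1
  have hω := om_pos (n := n)
  have hc : 0 < 2 * ((n : ℝ) - 1) * om n := by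
    have : 0 < (n : ℝ) - 1 := by linarith
    positivity
  have h2 : SI (fun x => qq X L x * (e0 a + sp a x)) =
      1 / 2 * (area X / om n) ^ (((n : ℝ) - 2) / ((n : ℝ) - 1)) * (2 * (n - 1) * om n) := by
    rw [h1, div_mul_cancel₀ _ hc.ne']
  have h3 := pow_val h
  rw [← h2, ← SI_bm h hL a, ← area_bm h a] at h3
  obtain ⟨r, hr, p, hp⟩ := base_eq (isSurface_bm (a := a) h) (isNormal_bl hL h.toIsMap) h3.symm
  refine ⟨bst a p, bst a (tv n), r, hr, ?_, image_eq a hr hp⟩
  rw [mink_bst, mink_tv]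
  rfl

end Vale.Agent.P366.Shell
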