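import Mathlib
import Vale.Agent.P366.H745.Eq6

/-! Equality case for surfaces in Minkowski space: round spheres. -/

open MeasureTheory Metric Filter Topology Set
open scoped ContDiff

noncomputable section
namespace Vale.Agent.P366.Shell

open Vale.Agent.P366 (sphI sphM pd Nc pd_Nc sum_Nc_sq)
open Vale.Agent.P366.H353.N
open Matrix

variable {n : ℕ} {X L : E n → Vec n} {x : E n} {a : Fin n → ℝ}

/-- A surface in a round sphere of the rest space. -/
theorem pos_round [Fact (3 ≤ n)] (h : IsSurface X) {p : Vec n} {r : ℝ} (hr : 0 < r)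
    (h0 : ∀ x : E n, x ≠ 0 → X x 0 = p 0)
    (h1 : ∀ x : E n, x ≠ 0 → ∑ i : Fin n, (X x i.succ - p i.succ) ^ 2 = r ^ 2) :
    ∀ x : E n, ‖x‖ = 1 → (dat h).b x = 0 ∧ (dat h).M x = xx x + r • Var.P x := by
  have hn3 := Fact.out (p := 3 ≤ n)
  have hU : ∀ x : E n, x ≠ 0 → ∀ i, pd i (Uf X) x = 0 := fun x hx i => by
    rw [pd_congr' (f := fun _ => - p 0) (fun y hy => by unfold Uf; rw [h0 y hy]) hx,
      Vale.Agent.P366.pd_const]
  have sw : ∀ m : Fin n, Sm fun x => X x m.succ - p m.succ := fun m =>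
    (h.toIsMap.sm m.succ).sub (Sm.const _)
  have hpw : ∀ (m : Fin n) (x : E n), x ≠ 0 → ∀ i, pd i (fun y => X y m.succ - p m.succ) x =
      pd i (fun y => X y m.succ) x := fun m x hx i => by
    rw [pd_sub' (h.toIsMap.sm m.succ) (Sm.const _) hx, Vale.Agent.P366.pd_const, sub_zero]
  -- the vector from the centre is normal
  have hw : ∀ x : E n, ‖x‖ = 1 → (fun m : Fin n => X x m.succ - p m.succ) =
      (∑ m : Fin n, x m * (X x m.succ - p m.succ)) • (fun m => x m) := by
    intro x hx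
    have hx0 := ne_zero_of_one hx
    set w : Fin n → ℝ := fun m => X x m.succ - p m.succ with hwd
    have e1 : (dat h).M x *ᵥ w = (∑ m : Fin n, x m * w m) • (fun m => x m) := by
      ext i
      have k1 : pd i (fun y : E n => ∑ m : Fin n, (X y m.succ - p m.succ) * (X y m.succ - p m.succ)) x
          = 0 := by
        rw [pd_congr' (f := fun _ => r ^ 2) (fun y hy => by
          show ∑ m : Fin n, (X y m.succ - p m.succ) * (X y m.succ - p m.succ) = r ^ 2
          rw [← h1 y hy]
          exact Finset.sum_congr rfl fun m _ => by ring) hx0, Vale.Agent.P366.pd_const]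
      rw [pd_sum' _ (fun m => (sw m).mul (sw m)) hx0] at k1
      have k2 : ∀ m : Fin n, pd i (fun y : E n => (X y m.succ - p m.succ) *
          (X y m.succ - p m.succ)) x = 2 * (((dat h).M x i m - x i * x m) * w m) := by
        intro m
        rw [pd_mul' (sw m) (sw m) hx0, hpw m x hx0, pd_X h hx, hU x hx0, M_apply h hx]
        ring
      simp only [k2, ← Finset.mul_sum] at k1
      have k3 : ∑ m, ((dat h).M x i m - x i * x m) * w m =
          ((dat h).M x *ᵥ w) i - x i * ∑ m, x m * w m := by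
        simp only [mulVec, dotProduct, Finset.mul_sum, ← Finset.sum_sub_distrib]
        exact Finset.sum_congr rfl fun m _ => by ring
      rw [k3] at k1
      show ((dat h).M x *ᵥ w) i = (∑ m : Fin n, x m * w m) * x i
      linarith
    have hu : IsUnit ((dat h).M x).det := (M_det_pos h hx).ne'.isUnit
    calc w = ((dat h).M x)⁻¹ *ᵥ ((dat h).M x *ᵥ w) := by
          rw [mulVec_mulVec, nonsing_inv_mul _ hu, one_mulVec]
      _ = _ := by rw [e1, mulVec_smul, Minv_x h hx]
  -- the sign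
  set s : E n → ℝ := fun x => ∑ m : Fin n, Nc m x * (X x m.succ - p m.succ) with hs
  have ss : Sm s := Sm.sum _ fun m => (sm_Nc m).mul (sw m)
  have hsx : ∀ x : E n, ‖x‖ = 1 → s x = ∑ m : Fin n, x m * (X x m.succ - p m.succ) := fun x hx =>
    Finset.sum_congr rfl fun m _ => by rw [Nc_one hx]
  have hws : ∀ x : E n, x ≠ 0 → ∀ m : Fin n, X x m.succ - p m.succ = s x * Nc m x := by
    intro x hx m
    have hy := norm_inv_smul hx
    have hpos : 0 < ‖x‖⁻¹ := inv_pos.mpr (norm_pos_iff.mpr hx)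
    have k1 := congrFun (hw _ hy) m
    simp only [Pi.smul_apply, smul_eq_mul] at k1
    rw [← hsx _ hy, h.toIsMap.hom x hx _ hpos] at k1
    have k2 : ∀ m, Nc m (‖x‖⁻¹ • x) = Nc m x := fun m => by
      have := hom_Nc m x hx _ hpos
      simpa using this
    have k3 : s (‖x‖⁻¹ • x) = s x := by
      rw [hs]
      show ∑ m : Fin n, Nc m (‖x‖⁻¹ • x) * (X (‖x‖⁻¹ • x) m.succ - p m.succ) = _
      rw [h.toIsMap.hom x hx _ hpos]
      simp only [k2]
    rw [k1, k3]
    show s x * (‖x‖⁻¹ • x) m = s x * Nc m x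
    rw [← Nc_one hy, k2]
  have hss : ∀ x : E n, x ≠ 0 → s x ^ 2 = r ^ 2 := by
    intro x hx
    have k1 := h1 x hx
    simp only [hws x hx, mul_pow, ← Finset.mul_sum] at k1
    rw [sum_Nc_sq hx, mul_one] at k1
    exact k1
  have hds : ∀ x : E n, x ≠ 0 → ∀ i, pd i s x = 0 := by
    intro x hx i
    have k1 : pd i (fun y => s y * s y) x = 0 := by
      rw [pd_congr' (f := fun _ => r ^ 2) (fun y hy => by
        show s y * s y = r ^ 2
        rw [← hss y hy]; ring) hx, Vale.Agent.P366.pd_const]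
    rw [pd_mul' ss ss hx] at k1
    have k2 : s x ≠ 0 := by
      intro hc
      have := hss x hx
      rw [hc] at this
      have := sq_pos_of_pos hr
      linarith
    have k3 : s x * (2 * pd i s x) = 0 := by linarith
    have := (mul_eq_zero.mp k3).resolve_left k2
    linarith
  intro x hx
  have hx0 := ne_zero_of_one hx
  have hMs : (dat h).M x = xx x + s x • Var.P x := by
    ext i m
    have k1 : pd i (fun y => X y m.succ) x = s x * (kd i m - x i * x m) := by
      rw [← hpw m x hx0, pd_congr' (f := fun y => s y * Nc m y) (fun y hy => hws y hy m) hx0,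
        pd_mul' ss (sm_Nc m) hx0, hds x hx0, pd_Nc' hx0, Nc_one hx, Nc_one hx, hx]
      ring
    rw [pd_X h hx, hU x hx0] at k1
    rw [M_apply h hx, Matrix.add_apply, Matrix.smul_apply, xx_apply, smul_eq_mul]
    have k3 : Var.P x i m = kd i m - x i * x m := by
      unfold Var.P
      rw [Matrix.sub_apply, xx_apply, Matrix.one_apply]
      rfl
    rw [k3]
    linarith
  have hs0 : 0 < s x := by
    -- a tangent vector
    obtain ⟨v, hv, hv0⟩ : ∃ v : Fin n → ℝ, ∑ i, x i * v i = 0 ∧ v ≠ 0 := by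
      set i0 : Fin n := ⟨0, by omega⟩
      set i1 : Fin n := ⟨1, by omega⟩
      have h01 : i0 ≠ i1 := by simp [i0, i1]
      by_cases hc : x i0 = 0
      · refine ⟨Pi.single i0 1, ?_, ?_⟩
        · simp [Pi.single_apply, hc]
        · simp
      · refine ⟨Pi.single i1 (x i0) - Pi.single i0 (x i1), ?_, ?_⟩
        · simp [Pi.single_apply, mul_sub, Finset.sum_sub_distrib]
          ring
        · intro hc'
          have := congrFun hc' i1
          simp [h01.symm] at this
          exact hc this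
    have k1 := (M_posDef h hx).dotProduct_mulVec_pos hv0
    rw [star_trivial, hMs, add_mulVec, smul_mulVec, dotProduct_add, dotProduct_smul] at k1
    have k2 : xx x *ᵥ v = 0 := by
      ext i
      simp only [mulVec, dotProduct, xx_apply, Pi.zero_apply]
      rw [show ∑ j, x i * x j * v j = x i * ∑ j, x j * v j by
        rw [Finset.mul_sum]; exact Finset.sum_congr rfl fun j _ => by ring, hv, mul_zero]
    have k3 : Var.P x *ᵥ v = v := by
      unfold Var.P
      rw [sub_mulVec, one_mulVec, k2, sub_zero]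
    rw [k2, k3, dotProduct_zero, zero_add, smul_eq_mul] at k1
    exact pos_of_mul_pos_left k1 (Finset.sum_nonneg fun i _ => mul_self_nonneg (v i))
  have hsr : s x = r := (sq_eq_sq₀ hs0.le hr.le).mp (hss x hx0)
  refine ⟨?_, by rw [hMs, hsr]⟩
  ext i
  show ∑ j, ((dat h).M x)⁻¹ i j * (‖x‖ * pd j (Uf X) x) = 0
  simp only [hU x hx0, mul_zero, Finset.sum_const_zero]

lemma det_round {u : Fin n → ℝ} (hn : 1 ≤ n) (hu : u ⬝ᵥ u = 1) {r : ℝ} (hr : 0 < r) :
    (xx u + r • Var.P u).det = r ^ (n - 1) := by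
  have e : xx u + r • Var.P u = r • (1 + Matrix.replicateCol Unit (((1 - r) / r) • u) *
      Matrix.replicateRow Unit u) := by
    ext i j
    rw [Matrix.add_apply, Matrix.smul_apply, Matrix.smul_apply, Matrix.add_apply, ← vecMulVec_eq,
      vecMulVec_apply, xx_apply]
    unfold Var.P
    rw [Matrix.sub_apply, xx_apply]
    simp only [Pi.smul_apply, smul_eq_mul]
    field_simp
    ring
  rw [e, det_smul, det_one_add_replicateCol_mul_replicateRow, dotProduct_smul, hu, smul_eq_mul,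
    Fintype.card_fin]
  obtain ⟨k, rfl⟩ : ∃ k, n = k + 1 := ⟨n - 1, by omega⟩
  rw [Nat.add_sub_cancel, pow_succ]
  field_simp
  ring

lemma inv_round {u : Fin n → ℝ} (hu : u ⬝ᵥ u = 1) {r : ℝ} (hr : 0 < r) :
    (xx u + r • Var.P u)⁻¹ = xx u + r⁻¹ • Var.P u := by
  have hxxxx : xx u * xx u = xx u := by
    rw [xx_eq, vecMulVec_mul_vecMulVec]
    ext i j
    simp only [vecMulVec_apply, Pi.smul_apply, smul_eq_mul]
    rw [hu]; ring
  have hxxP : xx u * Var.P u = 0 := by
    unfold Var.P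
    rw [mul_sub, mul_one, hxxxx, sub_self]
  have hPxx : Var.P u * xx u = 0 := by
    unfold Var.P
    rw [sub_mul, one_mul, hxxxx, sub_self]
  have hPP : Var.P u * Var.P u = Var.P u := by
    have h9 : Var.P u * Var.P u = (1 - xx u) * Var.P u := rfl
    rw [h9, sub_mul, one_mul, hxxP, sub_zero]
  refine inv_eq_right_inv ?_
  rw [add_mul, mul_add, mul_add, Matrix.mul_smul, hxxP, hxxxx, Matrix.smul_mul,
    Matrix.smul_mul, Matrix.mul_smul, hPxx, hPP, smul_smul, mul_inv_cancel₀ hr.ne', one_smul,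
    smul_zero, smul_zero, add_zero, zero_add]
  unfold Var.P
  abel

lemma trace_P' {u : Fin n → ℝ} (hu : u ⬝ᵥ u = 1) : (Var.P u).trace = n - 1 := by
  unfold Var.P
  rw [trace_sub, trace_one, Fintype.card_fin, xx_eq, trace_vecMulVec, hu]

lemma trace_xx {u : Fin n → ℝ} (hu : u ⬝ᵥ u = 1) : (xx u).trace = 1 := by
  rw [xx_eq, trace_vecMulVec, hu]

lemma sg_round {u : Fin n → ℝ} (hn : 3 ≤ n) (hu : u ⬝ᵥ u = 1) {r : ℝ} (hr : 0 < r) :
    Var.sg (xx u + r • Var.P u) = (n - 1) * r ^ (n - 2) := by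
  have hd := det_round (by omega) hu hr
  rw [Var.sg_eq (by rw [hd]; positivity), hd, inv_round hu hr, trace_add, trace_smul,
    trace_P' hu, trace_xx hu, smul_eq_mul]
  obtain ⟨k, rfl⟩ : ∃ k, n = k + 2 := ⟨n - 2, by omega⟩
  rw [show k + 2 - 1 = k + 1 by omega, show k + 2 - 2 = k by omega, pow_succ]
  field_simp
  ring

/-- The integrals of a round sphere. -/
theorem round_vals [Fact (3 ≤ n)] (h : IsSurface X) (hL : IsNormal X L) {p : Vec n} {r : ℝ}
    (hr : 0 < r) (h0 : ∀ x : E n, x ≠ 0 → X x 0 = p 0)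
    (h1 : ∀ x : E n, x ≠ 0 → ∑ i : Fin n, (X x i.succ - p i.succ) ^ 2 = r ^ 2) :
    area X = om n * r ^ (n - 1) ∧ SI (qq X L) = om n * ((n - 1) * r ^ (n - 2)) := by
  have hn3 := Fact.out (p := 3 ≤ n)
  have hp := pos_round h hr h0 h1
  refine ⟨?_, ?_⟩
  · rw [area_eq h, ← SI_const]
    refine SI_congr fun x hx => ?_
    show ((dat h).M x).det = _
    rw [(hp x hx).2, det_round (by omega) (Var.dot_xx hx) hr]
  · obtain ⟨T, hTA, hTb, -⟩ := toTen (dat h)
    have h2 := int_theta h T hTA hTb hL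
    rw [← SI_const]
    refine h2.trans (SI_congr fun x hx => ?_)
    rw [hTA, hTb, (hp x hx).1, Var.trA_eq (dat h) hx, (hp x hx).2,
      sg_round hn3 (Var.dot_xx hx) hr]
    simp

/-- The reversed inequality of Cauchy and Schwarz. -/
lemma rcs {e E0 Q S α : ℝ} (hE : 0 < E0) (hQ0 : 0 ≤ Q) (hQE : Q < E0 ^ 2) (hα0 : 0 ≤ α)
    (he2 : e ^ 2 = 1 + α) (hepos : 0 < e) (hcs : S ^ 2 ≤ α * Q) :
    S < e * E0 ∧ E0 ^ 2 - Q ≤ (e * E0 - S) ^ 2 := by
  constructor
  · refine lt_of_pow_lt_pow_left₀ 2 (by positivity) ?_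
    rw [mul_pow, he2]
    have h1 : α * Q ≤ α * E0 ^ 2 := mul_le_mul_of_nonneg_left hQE.le hα0
    have h2 := sq_pos_of_pos hE
    linarith
  · have h1 : (e * E0 - S) ^ 2 - (E0 ^ 2 - Q) = α * E0 ^ 2 - 2 * e * E0 * S + S ^ 2 + Q := by
      have : (e * E0 - S) ^ 2 = e ^ 2 * E0 ^ 2 - 2 * e * E0 * S + S ^ 2 := by ring
      rw [this, he2]; ring
    have h2 : 0 ≤ α * E0 ^ 2 - 2 * e * E0 * S + S ^ 2 + Q := by
      rcases hα0.eq_or_lt with h0 | h0
      · rw [← h0, zero_mul] at hcs
        have hS : S = 0 := pow_eq_zero_iff (two_ne_zero) |>.1 (le_antisymm hcs (sq_nonneg _))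
        rw [hS, ← h0]
        linarith
      · have h3 : 0 ≤ α * (α * E0 ^ 2 - 2 * e * E0 * S + S ^ 2 + Q) := by
          have h4 : (α * E0 - e * S) ^ 2 = α ^ 2 * E0 ^ 2 - 2 * α * e * E0 * S + (1 + α) * S ^ 2 := by
            rw [← he2]; ring
          have h5 := sq_nonneg (α * E0 - e * S)
          nlinarith
        exact nonneg_of_mul_nonneg_right h3 h0
    linarith

/-- Round spheres have equality. -/
theorem round_eq [Fact (3 ≤ n)] (h : IsSurface X) (hL : IsNormal X L) {p e : Vec n} {r : ℝ}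
    (hr : 0 < r) (he : mink e e = -1)
    (hi : ∀ x : E n, x ≠ 0 → mink (X x - p) e = 0 ∧ mink (X x - p) (X x - p) = r ^ 2) :
    1 / 2 * (area X / omega n) ^ (((n : ℝ) - 2) / ((n : ℝ) - 1)) =
        √(mom X L 0 ^ 2 - ∑ i : Fin n, mom X L i.succ ^ 2) := by
  wlog hpos : 0 < e 0 generalizing e with H
  · have hneg : mink (-e) (-e) = mink e e := by unfold mink; simp
    have hneg' : ∀ v, mink v (-e) = - mink v e := fun v => by
      unfold mink
      simp only [Pi.neg_apply, mul_neg, Finset.sum_neg_distrib]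
      ring
    refine H (e := -e) (hneg.trans he) (fun x hx => ⟨by rw [hneg', (hi x hx).1, neg_zero],
      (hi x hx).2⟩) ?_
    have h3 : 0 < e 0 ^ 2 := by
      unfold mink at he
      have : 0 ≤ ∑ i : Fin n, e i.succ * e i.succ :=
        Finset.sum_nonneg fun i _ => mul_self_nonneg _
      nlinarith
    have h4 : e 0 ≠ 0 := fun hc => by rw [hc] at h3; simp at h3
    show 0 < - e 0
    push Not at hpos
    have := lt_of_le_of_ne hpos h4
    linarith
  have hn3 := Fact.out (p := 3 ≤ n)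
  have hn : (3 : ℝ) ≤ n := by exact_mod_cast hn3
  set a : Fin n → ℝ := fun i => e i.succ with ha
  have he0 : e0 a = e 0 := by
    unfold e0
    have : 1 + ∑ i, a i ^ 2 = e 0 ^ 2 := by
      unfold mink at he
      have : ∑ i, a i ^ 2 = ∑ i : Fin n, e i.succ * e i.succ :=
        Finset.sum_congr rfl fun i _ => by rw [ha]; ring
      rw [this]
      linarith
    rw [this]
    exact Real.sqrt_sq hpos.le
  have het : bst a (tv n) = e := by
    ext c
    refine Fin.cases ?_ (fun i => ?_) c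
    · rw [bst_zero, he0]
      unfold tv
      simp
    · rw [bst_succ]
      unfold cv tv
      simp [ha]
  -- the rest frame
  have hS := isSurface_bm (a := a) h
  have hLS := isNormal_bl (a := a) hL h.toIsMap
  have hsub : ∀ z, bm a X z - bst (-a) p = bst (-a) (X (phi a z) - p) := by
    intro z
    have := bst_add_smul (-a) (X (phi a z)) p (-1)
    rw [neg_one_smul, neg_one_smul, ← sub_eq_add_neg, ← sub_eq_add_neg] at this
    exact this.symm
  have hb : bst (-a) e = tv n := by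
    have := bst_neg_bst (-a) (tv n)
    rw [neg_neg, het] at this
    exact this
  have k0 : ∀ z : E n, z ≠ 0 → bm a X z 0 = bst (-a) p 0 := by
    intro z hz
    have k1 := (hi _ (phi_ne (a := a) hz)).1
    rw [← mink_bst (-a), ← hsub, hb, mink_tv] at k1
    have : (bm a X z - bst (-a) p) 0 = bm a X z 0 - bst (-a) p 0 := rfl
    linarith
  have k1 : ∀ z : E n, z ≠ 0 → ∑ i : Fin n, (bm a X z i.succ - bst (-a) p i.succ) ^ 2 = r ^ 2 := by
    intro z hz
    have k2 := (hi _ (phi_ne (a := a) hz)).2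
    rw [← mink_bst (-a), ← hsub] at k2
    unfold mink at k2
    have e1 : (bm a X z - bst (-a) p) 0 = 0 := by
      show bm a X z 0 - bst (-a) p 0 = 0
      rw [k0 z hz, sub_self]
    rw [e1, mul_zero, sub_zero] at k2
    rw [← k2]
    exact Finset.sum_congr rfl fun i _ => by
      show _ = (bm a X z i.succ - bst (-a) p i.succ) * (bm a X z i.succ - bst (-a) p i.succ)
      ring
  obtain ⟨v1, v2⟩ := round_vals hS hLS hr k0 k1
  rw [area_bm h] at v1
  have hω := om_pos (n := n)
  have hn1 : 0 < (n : ℝ) - 1 := by linarith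
  have h3 := frame_val h hL a
  rw [← SI_bm h hL, v2] at h3
  have h4 : om n * (((n : ℝ) - 1) * r ^ (n - 2)) / (2 * (n - 1) * om n) = 1 / 2 * r ^ (n - 2) := by
    field_simp
  rw [h4] at h3
  have h5 : (area X / omega n) ^ (((n : ℝ) - 2) / ((n : ℝ) - 1)) = r ^ (n - 2) := by
    rw [v1, omega_eq, mul_div_cancel_left₀ _ hω.ne', ← Real.rpow_natCast, ← Real.rpow_natCast,
      ← Real.rpow_mul hr.le]
    congr 1
    rw [Nat.cast_sub (by omega), Nat.cast_sub (by omega)]
    push_cast
    field_simp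
  obtain ⟨h6, h7⟩ := ineq hn3 h hL
  refine le_antisymm h7 ?_
  rw [h5, ← h3]
  -- the reversed inequality of Cauchy and Schwarz
  set E0 := mom X L 0
  set Q := ∑ i : Fin n, mom X L i.succ ^ 2 with hQ
  have hE : 0 < E0 := (Real.sqrt_nonneg _).trans_lt h6
  have hQ0 : 0 ≤ Q := Finset.sum_nonneg fun i _ => sq_nonneg _
  have hQE : Q < E0 ^ 2 := (Real.sqrt_lt hQ0 hE.le).mp h6
  set S := ∑ i : Fin n, a i * mom X L i.succ with hSd
  have hcs : S ^ 2 ≤ (∑ i, a i ^ 2) * Q := Finset.sum_mul_sq_le_sq_mul_sq _ _ _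
  set α := ∑ i, a i ^ 2 with hα
  have hα0 : 0 ≤ α := Finset.sum_nonneg fun i _ => sq_nonneg _
  have he2 : e0 a ^ 2 = 1 + α := e0_sq a
  have hepos := e0_pos a
  obtain ⟨hSlt, hmain⟩ := rcs hE hQ0 hQE hα0 he2 hepos hcs
  calc √(E0 ^ 2 - Q) ≤ √((e0 a * E0 - S) ^ 2) := Real.sqrt_le_sqrt hmain
    _ = e0 a * E0 - S := Real.sqrt_sq (by linarith)

end Vale.Agent.P366.Shell
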